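import Vale.Agent.P106.H25.SatLG

/-!
# P106 / U / H572 : change of frame for the natural labels (helper572)

`ClH c` : two states `(X, M)`, `(X', M')` are close (the central one sheared); `hc_lbH` : the label `lbH 1` of a family of
close states has entropy `≤ 6 log (2 c + 3)`; `lab_hs`, `lab_hA` : the two transfers for the chain of the V windows.
-/

set_option autoImplicit false

namespace Vale.Agent.P106.U.H572

open Finset Vale.Agent.P127 Vale.Agent.P127.Stk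
open Vale.Agent.P106.H25 (lbH)

/-- two states are close -/
def ClH (c : ℝ) (X : Fin 4 → ℝ) (M : ℝ) (X' : Fin 4 → ℝ) (M' : ℝ) : Prop :=
  (∀ i, |X i - X' i| ≤ c) ∧ |M - M' - X' 2 * (X 0 - X' 0) - X' 3 * (X 1 - X' 1)| ≤ c

lemma fl_Icc {x y : ℝ} {n : ℕ} (h : |x - y| ≤ n) :
    ⌊x⌋ ∈ Finset.Icc (⌊y⌋ - ((n + 1 : ℕ) : ℤ)) (⌊y⌋ + ((n + 1 : ℕ) : ℤ)) := by
  rw [abs_le] at h
  have h1 := Int.floor_le y
  have h2 := Int.lt_floor_add_one y
  have h3 := Int.floor_le x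
  have h4 := Int.lt_floor_add_one x
  rw [Finset.mem_Icc]
  constructor
  · have : ((⌊y⌋ - ((n + 1 : ℕ) : ℤ) : ℤ) : ℝ) < ((⌊x⌋ + 1 : ℤ) : ℝ) := by
      push_cast; linarith
    have := Int.cast_lt.1 this
    omega
  · have : ((⌊x⌋ : ℤ) : ℝ) < ((⌊y⌋ + ((n + 1 : ℕ) : ℤ) + 1 : ℤ) : ℝ) := by
      push_cast; linarith
    have := Int.cast_lt.1 this
    omega

/-- number of labels of the states close to a given one -/
theorem lbH_count (c : ℕ) (X' : Fin 4 → ℝ) (M' : ℝ) : ∃ F : Finset (ℤ × (Fin 4 → ℤ)),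
    F.card ≤ (2 * c + 3) ^ 6 ∧ ∀ X M, ClH c X M X' M' → lbH 1 X M ∈ F := by
  classical
  set n : ℕ := c * (2 * c + 3) with hn
  refine ⟨(Fintype.piFinset fun i : Fin 4 =>
    Finset.Icc (⌊X' i⌋ - ((c + 1 : ℕ) : ℤ)) (⌊X' i⌋ + ((c + 1 : ℕ) : ℤ))).biUnion fun q =>
      (Finset.Icc (⌊M' - q 2 * X' 0 - q 3 * X' 1⌋ - ((n + 1 : ℕ) : ℤ))
        (⌊M' - q 2 * X' 0 - q 3 * X' 1⌋ + ((n + 1 : ℕ) : ℤ))).image fun z => (z, q), ?_, ?_⟩
  · refine (Finset.card_biUnion_le).trans ?_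
    have h1 : ∀ q ∈ (Fintype.piFinset fun i : Fin 4 =>
        Finset.Icc (⌊X' i⌋ - ((c + 1 : ℕ) : ℤ)) (⌊X' i⌋ + ((c + 1 : ℕ) : ℤ))),
        ((Finset.Icc (⌊M' - q 2 * X' 0 - q 3 * X' 1⌋ - ((n + 1 : ℕ) : ℤ))
        (⌊M' - q 2 * X' 0 - q 3 * X' 1⌋ + ((n + 1 : ℕ) : ℤ))).image fun z => (z, q)).card ≤
          (2 * c + 3) ^ 2 := by
      intro q _
      refine Finset.card_image_le.trans ?_
      rw [Int.card_Icc]
      have : (⌊M' - q 2 * X' 0 - q 3 * X' 1⌋ + ((n + 1 : ℕ) : ℤ) + 1 -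
        (⌊M' - q 2 * X' 0 - q 3 * X' 1⌋ - ((n + 1 : ℕ) : ℤ))).toNat = 2 * n + 3 := by
        push_cast; omega
      rw [this, hn]
      nlinarith
    refine (Finset.sum_le_card_nsmul _ _ _ h1).trans ?_
    rw [Fintype.card_piFinset]
    have h2 : ∀ i : Fin 4, (Finset.Icc (⌊X' i⌋ - ((c + 1 : ℕ) : ℤ))
        (⌊X' i⌋ + ((c + 1 : ℕ) : ℤ))).card = 2 * c + 3 := by
      intro i
      rw [Int.card_Icc]
      push_cast; omega
    simp only [h2]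
    simp only [Finset.prod_const, Finset.card_univ, Fintype.card_fin, smul_eq_mul]
    rw [← pow_add]
  · rintro X M ⟨h1, h2⟩
    rw [Finset.mem_biUnion]
    refine ⟨fun i => ⌊X i⌋, ?_, ?_⟩
    · rw [Fintype.mem_piFinset]
      exact fun i => fl_Icc (h1 i)
    · rw [Finset.mem_image]
      refine ⟨⌊M - ⌊X 2⌋ * X 0 - ⌊X 3⌋ * X 1⌋, ?_, ?_⟩
      · refine fl_Icc ?_
        have c0 : (0 : ℝ) ≤ c := Nat.cast_nonneg _
        have f2 : |X' 2 - ⌊X 2⌋| ≤ c + 1 := by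
          have := abs_le.1 (h1 2)
          have a1 := Int.floor_le (X 2)
          have a2 := Int.lt_floor_add_one (X 2)
          rw [abs_le]
          constructor <;> linarith
        have f3 : |X' 3 - ⌊X 3⌋| ≤ c + 1 := by
          have := abs_le.1 (h1 3)
          have a1 := Int.floor_le (X 3)
          have a2 := Int.lt_floor_add_one (X 3)
          rw [abs_le]
          constructor <;> linarith
        have m2 : |(X' 2 - ⌊X 2⌋) * (X 0 - X' 0)| ≤ (c + 1) * c := by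
          rw [abs_mul]
          exact mul_le_mul f2 (h1 0) (abs_nonneg _) (by linarith)
        have m3 : |(X' 3 - ⌊X 3⌋) * (X 1 - X' 1)| ≤ (c + 1) * c := by
          rw [abs_mul]
          exact mul_le_mul f3 (h1 1) (abs_nonneg _) (by linarith)
        have e : M - ⌊X 2⌋ * X 0 - ⌊X 3⌋ * X 1 - (M' - ⌊X 2⌋ * X' 0 - ⌊X 3⌋ * X' 1) =
            (M - M' - X' 2 * (X 0 - X' 0) - X' 3 * (X 1 - X' 1)) +
              (X' 2 - ⌊X 2⌋) * (X 0 - X' 0) + (X' 3 - ⌊X 3⌋) * (X 1 - X' 1) := by ring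
        rw [e, hn]
        push_cast
        rw [abs_le] at h2 m2 m3 ⊢
        constructor <;> linarith [h2.1, h2.2, m2.1, m2.2, m3.1, m3.2]
      · unfold lbH
        simp only [div_one, one_mul]

lemma fl_div_eq {L x y : ℝ} (hL : 0 < L) (h : ⌊x / L⌋ = ⌊y / L⌋) :
    |x - y| ≤ L ∧ |x - L * ⌊y / L⌋| ≤ L := by
  have h1 := Int.floor_le (x / L)
  have h2 := Int.lt_floor_add_one (x / L)
  have h3 := Int.floor_le (y / L)
  have h4 := Int.lt_floor_add_one (y / L)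
  rw [h] at h1 h2
  rw [le_div_iff₀ hL] at h1 h3
  rw [div_lt_iff₀ hL] at h2 h4
  constructor
  · rw [abs_le]; constructor <;> linarith
  · rw [abs_le]; constructor <;> linarith

/-- equal labels at scale `L` : close states at scale `L`, `L²` -/
theorem lbH_close {L : ℝ} (hL : 0 < L) {X X' : Fin 4 → ℝ} {M M' : ℝ} (h : lbH L X M = lbH L X' M') :
    (∀ i, |X i - X' i| ≤ L) ∧
      |M - M' - X' 2 * (X 0 - X' 0) - X' 3 * (X 1 - X' 1)| ≤ 3 * L ^ 2 := by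
  rw [Prod.ext_iff] at h
  obtain ⟨k1, k2⟩ := h
  have hq : ∀ i, ⌊X i / L⌋ = ⌊X' i / L⌋ := fun i => congrFun k2 i
  refine ⟨fun i => (fl_div_eq hL (hq i)).1, ?_⟩
  simp only [lbH] at k1
  rw [hq 2, hq 3] at k1
  have h1 := (fl_div_eq (by positivity : 0 < L * L) k1).1
  have f2 := (fl_div_eq hL (x := X' 2) (y := X' 2) rfl).2
  have f3 := (fl_div_eq hL (x := X' 3) (y := X' 3) rfl).2
  have g0 := (fl_div_eq hL (hq 0)).1
  have g1 := (fl_div_eq hL (hq 1)).1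
  have m2 : |(X' 2 - L * ⌊X' 2 / L⌋) * (X 0 - X' 0)| ≤ L * L := by
    rw [abs_mul]
    exact mul_le_mul f2 g0 (abs_nonneg _) hL.le
  have m3 : |(X' 3 - L * ⌊X' 3 / L⌋) * (X 1 - X' 1)| ≤ L * L := by
    rw [abs_mul]
    exact mul_le_mul f3 g1 (abs_nonneg _) hL.le
  have e : M - M' - X' 2 * (X 0 - X' 0) - X' 3 * (X 1 - X' 1) =
      (M - L * ⌊X' 2 / L⌋ * X 0 - L * ⌊X' 3 / L⌋ * X 1 -
        (M' - L * ⌊X' 2 / L⌋ * X' 0 - L * ⌊X' 3 / L⌋ * X' 1)) -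
        (X' 2 - L * ⌊X' 2 / L⌋) * (X 0 - X' 0) - (X' 3 - L * ⌊X' 3 / L⌋) * (X 1 - X' 1) := by ring
  rw [e]
  rw [abs_le] at h1 m2 m3 ⊢
  constructor <;> nlinarith [h1.1, h1.2, m2.1, m2.2, m3.1, m3.2]

variable {Ω : Type} [Fintype Ω] (P : Law Ω) {α β γ δ : Type*}

/-- **entropy of the label of close states** -/
theorem hc_lbH (Y : Ω → Fin 4 → ℝ) (N : Ω → ℝ) (Z : Ω → α) (c : ℕ)
    (h : ∀ ω ω', 0 < P.w ω → 0 < P.w ω' → Z ω' = Z ω → ClH c (Y ω') (N ω') (Y ω) (N ω)) :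
    hc P (fun ω => lbH 1 (Y ω) (N ω)) Z ≤ 6 * Real.log (2 * c + 3) := by
  have h1 := hc_le_log P (fun ω => lbH 1 (Y ω) (N ω)) Z ((2 * c + 3) ^ 6) (fun ω hω => by
    obtain ⟨F, hF, hF'⟩ := lbH_count c (Y ω) (N ω)
    exact ⟨F, hF, fun ω' hω' e => hF' _ _ (h ω ω' hω hω' e)⟩)
  refine h1.trans (le_of_eq ?_)
  push_cast
  rw [Real.log_pow]
  push_cast
  ring

/-- **transfer of the gain**: `F`, `FL` fine and coarse label of the state of the step `j + 1` (letter `D`), `(Y, N)` state of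
the step `j` (letter `D'`) -/
theorem lab_hs {F : Ω → β} {FL : Ω → γ} {D : Ω → α} {D' : Ω → δ} {ζ : Type*} {Θ : Ω → ζ} {Y : Ω → Fin 4 → ℝ}
    {N : Ω → ℝ} (c : ℕ) {B d : ℝ} (h0 : B ≤ hc P F (fun ω => (FL ω, (D ω, Θ ω))))
    (hD : hc P D' (fun ω => (D ω, Θ ω)) ≤ d)
    (h : ∀ ω ω', 0 < P.w ω → 0 < P.w ω' → D' ω' = D' ω → D ω' = D ω → Θ ω' = Θ ω → FL ω' = FL ω →
      ClH c (Y ω') (N ω') (Y ω) (N ω)) :
    B - (d + 6 * Real.log (2 * c + 3)) ≤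
      hc P (fun ω => (D ω, F ω)) (fun ω => ((D' ω, lbH 1 (Y ω) (N ω)), (D ω, Θ ω))) := by
  set A : Ω → δ × (ℤ × (Fin 4 → ℤ)) := fun ω => (D' ω, lbH 1 (Y ω) (N ω)) with hA
  have h1 : hc P A (fun ω => (FL ω, (D ω, Θ ω))) ≤ d + 6 * Real.log (2 * c + 3) := by
    rw [hA]
    rw [hc_pair P D' (fun ω => lbH 1 (Y ω) (N ω))]
    refine add_le_add ?_ ?_
    · refine (hc_mono_right P D' ?_).trans hD
      intro ω ω' _ _ e
      exact congrArg Prod.snd e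
    · refine hc_lbH P Y N _ c ?_
      intro ω ω' hω hω' e
      simp only [Prod.mk.injEq] at e
      exact h ω ω' hω hω' e.1 e.2.2.1 e.2.2.2 e.2.1
  have h2 : hc P F (fun ω => (FL ω, (D ω, Θ ω))) ≤
      hc P F (fun ω => (A ω, (FL ω, (D ω, Θ ω)))) + hc P A (fun ω => (FL ω, (D ω, Θ ω))) :=
    hc_le_add' P F A _
  have h3 : hc P F (fun ω => (A ω, (FL ω, (D ω, Θ ω)))) ≤ hc P F (fun ω => (A ω, (D ω, Θ ω))) := by
    refine hc_mono_right P F ?_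
    intro ω ω' _ _ e
    simp only [Prod.mk.injEq] at e ⊢
    exact ⟨e.1, e.2.2⟩
  have h4 : hc P F (fun ω => (A ω, (D ω, Θ ω))) ≤
      hc P (fun ω => (D ω, F ω)) (fun ω => (A ω, (D ω, Θ ω))) := by
    refine hc_mono_left P ?_
    intro ω ω' _ _ e
    simp only [Prod.mk.injEq] at e
    exact e.1.2
  linarith

/-- **transfer of the chain** -/
theorem lab_hA {F : Ω → β} {D : Ω → α} {D' : Ω → δ} {ζ : Type*} {Θ : Ω → ζ} {Y : Ω → Fin 4 → ℝ}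
    {N : Ω → ℝ} (c : ℕ) {d : ℝ} (hD : hc P D' (fun ω => (D ω, Θ ω)) ≤ d)
    (h : ∀ ω ω', 0 < P.w ω → 0 < P.w ω' → D' ω' = D' ω → D ω' = D ω → Θ ω' = Θ ω → F ω' = F ω →
      ClH c (Y ω') (N ω') (Y ω) (N ω)) :
    hc P (fun ω => (D' ω, lbH 1 (Y ω) (N ω))) (fun ω => ((D ω, F ω), Θ ω)) ≤
      d + 6 * Real.log (2 * c + 3) := by
  rw [hc_pair P D' (fun ω => lbH 1 (Y ω) (N ω))]
  refine add_le_add ?_ ?_
  · refine (hc_mono_right P D' ?_).trans hD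
    intro ω ω' _ _ e
    simp only [Prod.mk.injEq] at e ⊢
    exact ⟨e.1.1, e.2⟩
  · refine hc_lbH P Y N _ c ?_
    intro ω ω' hω hω' e
    simp only [Prod.mk.injEq] at e
    exact h ω ω' hω hω' e.1 e.2.1.1 e.2.2 e.2.1.2

end Vale.Agent.P106.U.H572
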