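import Vale.Agent.P106.U.H785.MtrRun
import Vale.Agent.P106.U.H384.RunsR

/-!
# P106 / U / H572 : the curvature of the line in its own ball, from the digits at the start (helper572)
-/

set_option autoImplicit false

namespace Vale.Agent.P106.U.H572

open Finset Vale.Agent.P127 Vale.Agent.P127.Stk
open Vale.Agent.P127.U.CellD
open Vale.Agent.P106.U.Cell
open Vale.Agent.P106.U.H785.Mtr

variable {Ω : Type} [Fintype Ω] {τ υ π : Type} {R : S3.Run Ω τ υ} {D : Mtd Ω π} {p : S3.Run.Num} {K c' g' gU : ℝ}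

/-- **the curvature is small in its own ball**, from the digits `r0` at the start (no hypothesis on `rI 0`) -/
theorem al_smallR (hD : OfR R D) (hok : R.Ok p K c' g' gU) (hK : 0 ≤ K) {ω : Ω} (hω : 0 < R.Q.w ω) {i s : ℕ}
    (hi : i ≤ R.n + p.J) (ha : s ≤ R.C.a i) (hr : s + R.m ≤ R.r0) : |D.al i ω| * q2 (D.a i) ≤ 2 * K * q2 s := by
  rw [hD.al, hD.a]
  have hP := hok.pth
  rcases Nat.eq_zero_or_pos (S3.lv R i) with h0 | h0
  · have h1 := H384.F1.a_mul hP hi
    rw [h0, Nat.mul_zero] at h1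
    have h2 := hok.alB i hi ω hω
    have h3 : s = 0 := by omega
    have h4 : q2 s = 1 := by rw [h3]; unfold q2; norm_num
    rw [h4]
    linarith
  · have l0 : S3.lv R 0 = 0 := by
      unfold S3.lv
      rw [hP.a0, Nat.zero_div]
    obtain ⟨e, e1, e2, e3, e4⟩ := H384.F1.exists_a hP (i := 0) (j := i) (z := 0) (Nat.zero_le _) hi (by omega) h0
    have a0 : R.C.a e = 0 := by
      have := H384.F1.a_mul hP (i := e) (by omega)
      rw [e4, Nat.mul_zero] at this
      exact this.symm
    have hI := (hP.leI e (by omega) e3).1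
    have hk : R.r0 ≤ R.C.rk e := hP.k0 ▸ R.C.hk (Nat.zero_le e)
    have t1 := OfR.al_sub hok e2.le hi hω (r := s) (by omega)
    have t2 := hok.alB e (by omega) ω hω
    have q0 : q2 (R.C.a e) = 1 := by rw [a0]; unfold q2; norm_num
    rw [q0, mul_one] at t2
    have h2 : q2 (R.C.a i) ≤ q2 s := q2_le ha
    have h3 : |R.al i ω| ≤ |R.al i ω - R.al e ω| + |R.al e ω| := by
      have := abs_add_le (R.al i ω - R.al e ω) (R.al e ω)
      rwa [sub_add_cancel] at this
    have h4 := mul_le_mul_of_nonneg_right h3 (q2_pos (R.C.a i)).le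
    have h5 : |R.al e ω| * q2 (R.C.a i) ≤ K * q2 s :=
      mul_le_mul t2 h2 (q2_pos _).le ((abs_nonneg _).trans t2)
    nlinarith

end Vale.Agent.P106.U.H572
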