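import Vale.Agent.P106.U.H572.Heis
import Vale.Agent.P106.TV.MStepR
import Vale.Agent.P106.U.H683.SatP

/-!
# P106 / U / H572 : THE N-STEP OF TYPE (ii) inside ONE cell ([HEISA], helper572)

State `X = (V, Z, φ, κ)`, `M = N` in the fine units.  `x = (y, A)` : direction and hidden curvature of a ray; `S` : difference
of the times of the two copies of `Θ`, `T` : difference of their `κ`-parts (`T = 0` in the case V).  Along a ray
`(c, φ, κ) += a (-y²/2, y, -1)`, `a = S A - T`, `(V, Z) += S (y, y²/2)`, `N += S (c + φ y + κ y²/2)`.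
One chain (there with `x`, back with `x'`) acts by `(FH S T x x', mH S T x x')`.
Two chains have a commutator in the centre; for `T = 0` and one `S` it is `± S²/2 · Q`,
`Q = (A₀ - A_j)(y₀ - y_j)² - ...` , and vanishes for all triples of four different directions only if `A` is constant.
-/

set_option autoImplicit false

namespace Vale.Agent.P106.U.H572

open Finset Vale.Agent.P127 Vale.Agent.P127.Stk Vale.Agent.P127.U.Pin Vale.Agent.P127.U.Mic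
open Vale.Agent.P127.U.CellD Vale.Agent.P127.TV
open Vale.Agent.P106.TV Vale.Agent.P106.U.H683

variable {Ω : Type} [Fintype Ω] {S U V Z : Type*}

/-- the displacement of `(V, Z, φ, κ)` -/
noncomputable def FH (s k : ℝ) (x x' : ℝ × ℝ) : Fin 4 → ℝ :=
  ![s * (x.1 - x'.1), s * (x.1 ^ 2 - x'.1 ^ 2) / 2,
    (s * x.2 - k) * x.1 - (s * x'.2 - k) * x'.1, -(s * (x.2 - x'.2))]

/-- the central displacement -/
noncomputable def mH (s k : ℝ) (x x' : ℝ × ℝ) : ℝ := s * (s * x.2 - k) * (x.1 - x'.1) ^ 2 / 2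

/-- the relation of one chain -/
def RH (X : Ω → Fin 4 → ℝ) (M : Ω → ℝ) (Sf Tf : U → V → V → ℝ) (ρ : ℝ) (d : U) (θ θ' : V)
    (x x' : ℝ × ℝ) (a b : Ω) : Prop :=
  St4 X M (FH (Sf d θ θ') (Tf d θ θ') x x') (mH (Sf d θ θ') (Tf d θ θ') x x') ρ ρ a b

lemma FH_neg (s k : ℝ) (x x' : ℝ × ℝ) : FH s k x' x = fun i => - FH s k x x' i := by
  funext i
  fin_cases i
  · show s * (x'.1 - x.1) = -(s * (x.1 - x'.1)); ring
  · show s * (x'.1 ^ 2 - x.1 ^ 2) / 2 = -(s * (x.1 ^ 2 - x'.1 ^ 2) / 2); ring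
  · show (s * x'.2 - k) * x'.1 - (s * x.2 - k) * x.1 =
      -((s * x.2 - k) * x.1 - (s * x'.2 - k) * x'.1); ring
  · show -(s * (x'.2 - x.2)) = - -(s * (x.2 - x'.2)); ring

lemma mH_inv (s k : ℝ) (x x' : ℝ × ℝ) : mH s k x' x =
    FH s k x x' 0 * FH s k x x' 2 + FH s k x x' 1 * FH s k x x' 3 - mH s k x x' := by
  show s * (s * x'.2 - k) * (x'.1 - x.1) ^ 2 / 2 =
    (s * (x.1 - x'.1)) * ((s * x.2 - k) * x.1 - (s * x'.2 - k) * x'.1) +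
      (s * (x.1 ^ 2 - x'.1 ^ 2) / 2) * (-(s * (x.2 - x'.2))) -
      s * (s * x.2 - k) * (x.1 - x'.1) ^ 2 / 2
  ring

/-- admissible direction and curvature, `|A| ≤ 2 ^ b` -/
def OkX (b : ℕ) (x : ℝ × ℝ) : Prop := 0 ≤ x.1 ∧ x.1 ≤ 1 ∧ |x.2| ≤ 2 ^ b

lemma FH_le {s k : ℝ} {x x' : ℝ × ℝ} {b : ℕ} (hs : |s| ≤ 1) (hk : |k| ≤ 1) (hx : OkX b x)
    (hx' : OkX b x') (i : Fin 4) : |FH s k x x' i| ≤ 2 ^ (b + 2) := by
  obtain ⟨a1, a2, a3⟩ := hx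
  obtain ⟨b1, b2, b3⟩ := hx'
  have hb1 : (1 : ℝ) ≤ 2 ^ b := one_le_pow₀ (by norm_num)
  have e4 : (2 : ℝ) ^ (b + 2) = 4 * 2 ^ b := by rw [pow_add]; ring
  rw [e4]
  have h1 : |x.1 - x'.1| ≤ 1 := by rw [abs_le]; constructor <;> linarith
  have h2 : |(x.1 ^ 2 - x'.1 ^ 2) / 2| ≤ 1 := by
    rw [abs_le]; constructor <;> nlinarith
  have h3 : ∀ {z : ℝ × ℝ}, 0 ≤ z.1 → z.1 ≤ 1 → |z.2| ≤ 2 ^ b →
      |(s * z.2 - k) * z.1| ≤ 2 * 2 ^ b := by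
    intro z z1 z2 z3
    rw [abs_mul, abs_of_nonneg z1]
    have h4 : |s * z.2 - k| ≤ 2 * 2 ^ b := by
      refine (abs_sub _ _).trans ?_
      rw [abs_mul]
      have h5 : |s| * |z.2| ≤ 1 * 2 ^ b := mul_le_mul hs z3 (abs_nonneg _) (by norm_num)
      linarith
    calc _ ≤ 2 * 2 ^ b * (1 : ℝ) := mul_le_mul h4 z2 z1 (by positivity)
      _ = 2 * 2 ^ b := by ring
  fin_cases i
  · show |s * (x.1 - x'.1)| ≤ 4 * 2 ^ b
    rw [abs_mul]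
    have := mul_le_one₀ hs (abs_nonneg _) h1
    linarith
  · show |s * (x.1 ^ 2 - x'.1 ^ 2) / 2| ≤ 4 * 2 ^ b
    rw [mul_div_assoc, abs_mul]
    have := mul_le_one₀ hs (abs_nonneg _) h2
    linarith
  · show |(s * x.2 - k) * x.1 - (s * x'.2 - k) * x'.1| ≤ 4 * 2 ^ b
    refine (abs_sub _ _).trans ?_
    linarith [h3 a1 a2 a3, h3 b1 b2 b3]
  · show |-(s * (x.2 - x'.2))| ≤ 4 * 2 ^ b
    rw [abs_neg, abs_mul]
    have h5 : |x.2 - x'.2| ≤ 2 * 2 ^ b := (abs_sub _ _).trans (by linarith)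
    calc _ ≤ 1 * (2 * 2 ^ b : ℝ) := mul_le_mul hs h5 (abs_nonneg _) (by norm_num)
      _ ≤ 4 * 2 ^ b := by linarith

/-- the commutator -/
noncomputable def comH (u w : Fin 4 → ℝ) : ℝ := w 0 * u 2 + w 1 * u 3 - u 0 * w 2 - u 1 * w 3

lemma comH_le {u w : Fin 4 → ℝ} {B : ℝ} (hB : 0 ≤ B) (hu : ∀ i, |u i| ≤ B)
    (hw : ∀ i, |w i| ≤ B) : |comH u w| ≤ 4 * B ^ 2 := by
  unfold comH
  have h : ∀ i j, |w i * u j| ≤ B ^ 2 := fun i j => by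
    rw [abs_mul, pow_two]
    exact mul_le_mul (hw i) (hu j) (abs_nonneg _) hB
  have h' : ∀ i j, |u i * w j| ≤ B ^ 2 := fun i j => by rw [mul_comm]; exact h j i
  have a1 := abs_le.1 (h 0 2)
  have a2 := abs_le.1 (h 1 3)
  have a3 := abs_le.1 (h' 0 2)
  have a4 := abs_le.1 (h' 1 3)
  rw [abs_le]
  constructor <;> linarith [a1.1, a1.2, a2.1, a2.2, a3.1, a3.2, a4.1, a4.2]

/-- the triple invariant -/
noncomputable def qH (x x' : ℝ × ℝ) : ℝ := (x.2 - x'.2) * (x.1 - x'.1) ^ 2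

/-- **the commutator of two chains** through the first direction -/
lemma comH_eq (s k s' k' : ℝ) (x y z : ℝ × ℝ) :
    comH (FH s k x y) (FH s' k' x z) =
      ((s * k' - s' * k) * ((x.1 - y.1) ^ 2 + (x.1 - z.1) ^ 2 - (y.1 - z.1) ^ 2) -
        s * s' * (qH x y - qH x z + qH y z)) / 2 := by
  show (s' * (x.1 - z.1)) * ((s * x.2 - k) * x.1 - (s * y.2 - k) * y.1) +
      (s' * (x.1 ^ 2 - z.1 ^ 2) / 2) * (-(s * (x.2 - y.2))) -
      (s * (x.1 - y.1)) * ((s' * x.2 - k') * x.1 - (s' * z.2 - k') * z.1) -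
      (s * (x.1 ^ 2 - y.1 ^ 2) / 2) * (-(s' * (x.2 - z.2))) = _
  unfold qH
  ring

/-- nondegenerate copies: two times, four directions, one commutator of size `τ` -/
def GoodH (b : ℕ) (Sf Tf : U → V → V → ℝ) (τ : ℝ) (d : U) (θ : V) (θs : Fin 2 → V)
    (xs : Fin 4 → ℝ × ℝ) : Prop :=
  (∀ i, |Sf d θ (θs i)| ≤ 1 ∧ |Tf d θ (θs i)| ≤ 1) ∧ (∀ j, OkX b (xs j)) ∧
    ∃ (i i' : Fin 2) (j j' : Fin 3), τ ≤ |comH (FH (Sf d θ (θs i)) (Tf d θ (θs i)) (xs 0) (xs j.succ))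
      (FH (Sf d θ (θs i')) (Tf d θ (θs i')) (xs 0) (xs j'.succ))|

open Classical in
/-- the weight -/
noncomputable def chiH (b : ℕ) (Sf Tf : U → V → V → ℝ) (τ : ℝ) (d : U) (θ : V) (θs : Fin 2 → V)
    (xs : Fin 4 → ℝ × ℝ) : ℝ := if GoodH b Sf Tf τ d θ θs xs then 1 else 0

lemma chiH_nonneg (b : ℕ) (Sf Tf : U → V → V → ℝ) (τ : ℝ) (d : U) (θ : V) (θs : Fin 2 → V)
    (xs : Fin 4 → ℝ × ℝ) : 0 ≤ chiH b Sf Tf τ d θ θs xs := by
  unfold chiH; split_ifs <;> norm_num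

lemma chiH_le (b : ℕ) (Sf Tf : U → V → V → ℝ) (τ : ℝ) (d : U) (θ : V) (θs : Fin 2 → V)
    (xs : Fin 4 → ℝ × ℝ) : chiH b Sf Tf τ d θ θs xs ≤ 1 := by
  unfold chiH; split_ifs <;> norm_num

/-- the chains: `(i; 0, j)` and `(i; j, 0)`, `j = 1, 2, 3` -/
def AH : Finset (Fin 2 × Fin 4 × Fin 4) :=
  {(0, 0, 1), (0, 0, 2), (0, 0, 3), (1, 0, 1), (1, 0, 2), (1, 0, 3),
   (0, 1, 0), (0, 2, 0), (0, 3, 0), (1, 1, 0), (1, 2, 0), (1, 3, 0)}

lemma AH_ne : ∀ p ∈ AH, p.2.1 ≠ p.2.2 := by decide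

lemma AH_card : AH.card = 12 := by decide

lemma AH_mem (i : Fin 2) (j : Fin 3) : (i, 0, j.succ) ∈ AH ∧ (i, j.succ, 0) ∈ AH := by
  fin_cases i <;> fin_cases j <;> decide

/-- the hypothesis `hsat` of `mstepR` -/
theorem hsatH (P : Law Ω) {D : Ω → U} {Θ : Ω → V} {X : Ω → Fin 4 → ℝ} {M : Ω → ℝ}
    {Sf Tf : U → V → V → ℝ} {ρ : ℝ} (b : ℕ) (τ L : ℝ) (R : ℕ) (hτ : 0 < τ) (hL : 1 ≤ L)
    (hR : L ≤ R * τ) (hρ : 0 ≤ ρ) (hRρ : 40 * 2 ^ (b + 2) * R * ρ ≤ 1) (hR1 : 1 ≤ R)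
    (d : U) (θ : V) (θs : Fin 2 → V) (xs : Fin 4 → ℝ × ℝ) (hχ : 0 < chiH b Sf Tf τ d θ θs xs)
    (Q : Law Ω) (ε : Fin 2 × Fin 4 × Fin 4 → ℝ)
    (_ : ∀ ω, 0 < Q.w ω → 0 < P.w ω ∧ D ω = d ∧ Θ ω = θ) (hε : ∀ p, 0 ≤ ε p)
    (hA : ∀ p ∈ AH, SubC Q Q (RH X M Sf Tf ρ d θ (θs p.1) (xs p.2.1) (xs p.2.2)) (ε p)) :
    (Real.log L - (12 + 2 * b)) - (4 * R * (1 + Real.log R)) * ∑ p ∈ AH, ε p ≤
      hc Q (fun ω => lbh 1 (X ω) (M ω)) (fun ω => lbh L (X ω) (M ω)) := by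
  have hG : GoodH b Sf Tf τ d θ θs xs := by
    by_contra hcon
    unfold chiH at hχ
    rw [if_neg hcon] at hχ
    exact lt_irrefl _ hχ
  obtain ⟨h1, h2, i, i', j, j', h3⟩ := hG
  have hsum0 : 0 ≤ ∑ p ∈ AH, ε p := Finset.sum_nonneg fun p _ => hε p
  have hle : ∀ p ∈ AH, ε p ≤ ∑ p ∈ AH, ε p := fun p hp =>
    Finset.single_le_sum (f := ε) (fun q _ => hε q) hp
  have hRr : (1 : ℝ) ≤ R := by exact_mod_cast hR1
  have hB1 : (1 : ℝ) ≤ 2 ^ (b + 2) := one_le_pow₀ (by norm_num)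
  have hρ1 : ρ ≤ 1 := by
    have h4 : 1 ≤ 40 * (2 : ℝ) ^ (b + 2) * R := by nlinarith
    have h5 : ρ ≤ 40 * (2 : ℝ) ^ (b + 2) * R * ρ := le_mul_of_one_le_left hρ h4
    linarith
  have hb : ∀ (i : Fin 2) (j : Fin 3) (l : Fin 4),
      |FH (Sf d θ (θs i)) (Tf d θ (θs i)) (xs 0) (xs j.succ) l| ≤ 2 ^ (b + 2) := fun i j l =>
    FH_le (h1 i).1 (h1 i).2 (h2 0) (h2 j.succ) l
  have hch : ∀ (i : Fin 2) (j : Fin 3), SubC Q Q (St4 X M
      (FH (Sf d θ (θs i)) (Tf d θ (θs i)) (xs 0) (xs j.succ))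
      (mH (Sf d θ (θs i)) (Tf d θ (θs i)) (xs 0) (xs j.succ)) ρ ρ) (∑ p ∈ AH, ε p) := fun i j =>
    (hA _ (AH_mem i j).1).mono (fun a b hab => hab) (hle _ (AH_mem i j).1)
  have hci : ∀ (i : Fin 2) (j : Fin 3), SubC Q Q (St4 X M
      (fun l => - FH (Sf d θ (θs i)) (Tf d θ (θs i)) (xs 0) (xs j.succ) l)
      (FH (Sf d θ (θs i)) (Tf d θ (θs i)) (xs 0) (xs j.succ) 0 *
        FH (Sf d θ (θs i)) (Tf d θ (θs i)) (xs 0) (xs j.succ) 2 +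
        FH (Sf d θ (θs i)) (Tf d θ (θs i)) (xs 0) (xs j.succ) 1 *
        FH (Sf d θ (θs i)) (Tf d θ (θs i)) (xs 0) (xs j.succ) 3 -
        mH (Sf d θ (θs i)) (Tf d θ (θs i)) (xs 0) (xs j.succ)) ρ ρ) (∑ p ∈ AH, ε p) := by
    intro i j
    refine (hA _ (AH_mem i j).2).mono ?_ (hle _ (AH_mem i j).2)
    intro a b hab
    rw [← FH_neg, ← mH_inv]
    exact hab
  have hcom := sub4_comm hB1 (hb i j) (hb i' j') hρ hρ1 (hch i j) (hch i' j') (hci i j) (hci i' j')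
  set c : ℝ := comH (FH (Sf d θ (θs i)) (Tf d θ (θs i)) (xs 0) (xs j.succ))
      (FH (Sf d θ (θs i')) (Tf d θ (θs i')) (xs 0) (xs j'.succ)) with hc
  have hc0 : 0 < |c| := hτ.trans_le h3
  have main := satM Q c L ρ (4 * ∑ p ∈ AH, ε p) (2 ^ (b + 2)) R hc0 hB1
    (comH_le (by positivity) (hb i j) (hb i' j')) hL
    (hR.trans (mul_le_mul_of_nonneg_left h3 (by positivity))) hR1 hρ hRρ (by positivity) hcom
  have e7 : 9 + 2 * Real.log ((2 : ℝ) ^ (b + 2)) ≤ 12 + 2 * b := by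
    rw [Real.log_pow]
    push_cast
    have := Real.log_two_lt_d9
    have hb0 : (0 : ℝ) ≤ b := Nat.cast_nonneg _
    nlinarith
  refine le_trans ?_ main
  have e8 : 4 * (R : ℝ) * (1 + Real.log R) * ∑ p ∈ AH, ε p =
      R * (1 + Real.log R) * (4 * ∑ p ∈ AH, ε p) := by ring
  linarith

section steps

variable (P : Law Ω) {D : Ω → U} {Θ : Ω → V} {W : Ω → S} {E : Ω → Z} {e : U → S → ℝ × ℝ}
  {X : Ω → Fin 4 → ℝ} {M : Ω → ℝ} {Sf Tf : U → V → V → ℝ} {ρ : ℝ}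

/-- **pointwise form** -/
theorem satH_pt (geo : GeoR P D Θ W E e (RH X M Sf Tf ρ)) (b : ℕ) (τ L : ℝ) (R : ℕ)
    (hτ : 0 < τ) (hL : 1 ≤ L) (hR : L ≤ R * τ) (hρ : 0 ≤ ρ) (hRρ : 40 * 2 ^ (b + 2) * R * ρ ≤ 1)
    (hR1 : 1 ≤ R) :
    ∃ er : Ω → ℝ, (∀ ω, 0 ≤ er ω) ∧
      P.ex er ≤ 12 * (8 * Real.sqrt (mi P (fun ω => e (D ω) (W ω)) E (fun ω => (D ω, Θ ω))) +
        64 * Real.sqrt (mi P Θ W D)) ∧
      ∀ ω, 0 < P.w ω →
        avG P D Θ W e (chiH b Sf Tf τ) ω * (Real.log L - (12 + 2 * b)) -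
          (4 * R * (1 + Real.log R)) * er ω ≤
        avG P D Θ W e (chiH b Sf Tf τ) ω *
          hc (P.cond (fun ω => (D ω, Θ ω)) (D ω, Θ ω)) (fun ω => lbh 1 (X ω) (M ω))
            (fun ω => lbh L (X ω) (M ω)) := by
  have hlR : 0 ≤ Real.log R := Real.log_nonneg (by exact_mod_cast hR1)
  have main := mstepR_pt P D Θ W E e (RH X M Sf Tf ρ) geo AH AH_ne (chiH b Sf Tf τ)
    (chiH_nonneg b Sf Tf τ) (chiH_le b Sf Tf τ) (fun _ _ ω => lbh 1 (X ω) (M ω))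
    (fun _ _ ω => lbh L (X ω) (M ω)) (Real.log L - (12 + 2 * b))
    (4 * R * (1 + Real.log R)) (by positivity)
    (fun d θ θs xs hχ Q ε hQ hε hA => hsatH P b τ L R hτ hL hR hρ hRρ hR1 d θ θs xs hχ Q ε hQ hε hA)
  rw [AH_card] at main
  exact_mod_cast main

/-- the error term -/
theorem errH {N I₁ I₂ ι₁ ι₂ B : ℝ} (hN0 : 0 ≤ N) (hN : N * 768 ≤ B) (h1 : I₁ ≤ ι₁)
    (h2 : I₂ ≤ ι₂) : N * (12 * (8 * Real.sqrt I₁ + 64 * Real.sqrt I₂)) ≤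
      B * (Real.sqrt ι₁ + Real.sqrt ι₂) := by
  have s1 := Real.sqrt_le_sqrt h1
  have s2 := Real.sqrt_le_sqrt h2
  have s3 := Real.sqrt_nonneg ι₁
  have s4 := Real.sqrt_nonneg ι₂
  have e1 : 12 * (8 * Real.sqrt I₁ + 64 * Real.sqrt I₂) ≤ 768 * (Real.sqrt ι₁ + Real.sqrt ι₂) := by
    linarith
  calc _ ≤ N * (768 * (Real.sqrt ι₁ + Real.sqrt ι₂)) := mul_le_mul_of_nonneg_left e1 hN0
    _ = (N * 768) * (Real.sqrt ι₁ + Real.sqrt ι₂) := by ring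
    _ ≤ _ := mul_le_mul_of_nonneg_right hN (add_nonneg s3 s4)

/-- the numbers -/
theorem numH (m h p : ℕ) (hp : p ≤ 2 * m) :
    ((2 : ℝ) ^ p ≤ ((2 ^ (2 * m + h) : ℕ) : ℝ) * q2 h) ∧
    (0 ≤ 4 * ((2 ^ (2 * m + h) : ℕ) : ℝ) * (1 + Real.log ((2 ^ (2 * m + h) : ℕ) : ℝ))) ∧
    (4 * ((2 ^ (2 * m + h) : ℕ) : ℝ) * (1 + Real.log ((2 ^ (2 * m + h) : ℕ) : ℝ)) * 768 ≤
      2 ^ (4 * m + 2 * h + 12)) := by
  have eR : ((2 ^ (2 * m + h) : ℕ) : ℝ) = 2 ^ (2 * m + h) := by push_cast; rfl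
  have lR : Real.log ((2 ^ (2 * m + h) : ℕ) : ℝ) = (2 * m + h) * Real.log 2 := by
    rw [eR, Real.log_pow]; push_cast; ring
  have hl2 : Real.log 2 ≤ 1 := by
    have := Real.log_two_lt_d9
    linarith
  have hl20 : 0 < Real.log 2 := Real.log_pos (by norm_num)
  refine ⟨?_, ?_, ?_⟩
  · rw [eR, pow_add, mul_assoc, q2_mul_pow, mul_one]
    exact pow_le_pow_right₀ (by norm_num) hp
  · rw [lR]; positivity
  · rw [lR, eR]
    have h1 : 1 + (2 * (m : ℝ) + h) * Real.log 2 ≤ 2 ^ (2 * m + h) := by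
      have h2 : (((2 * m + h : ℕ) : ℝ)) + 1 ≤ 2 ^ (2 * m + h) := by
        exact_mod_cast Nat.lt_two_pow_self (n := 2 * m + h)
      push_cast at h2
      have h3 : (2 * (m : ℝ) + h) * Real.log 2 ≤ 2 * (m : ℝ) + h :=
        mul_le_of_le_one_right (by positivity) hl2
      linarith
    calc _ ≤ 4 * (2 : ℝ) ^ (2 * m + h) * 2 ^ (2 * m + h) * 2 ^ 10 := by
          refine mul_le_mul (mul_le_mul_of_nonneg_left h1 (by positivity)) (by norm_num)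
            (by norm_num) (by positivity)
      _ = 2 ^ (4 * m + 2 * h + 12) := by
          have : (4 : ℝ) = 2 ^ 2 := by norm_num
          rw [this, ← pow_add, ← pow_add, ← pow_add]
          congr 1
          ring

/-- numerical end, pointwise weak form -/
theorem wptH {av δ NN er F F1 K i H : ℝ} (hδ : 0 < δ) (hNN : 0 ≤ NN) (her : 0 ≤ er)
    (hK : 0 ≤ K) (hH : 0 ≤ H) (hF1 : F ≤ F1) (hi : (δ ≤ av → i = 0) ∧ (¬ δ ≤ av → i = 1))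
    (h3 : av * (F - K) - NN * er ≤ av * H) :
    F - K - F1 * i - NN / δ * er ≤ H := by
  have hne : 0 ≤ NN / δ * er := mul_nonneg (div_nonneg hNN hδ.le) her
  by_cases hd : δ ≤ av
  · rw [hi.1 hd]
    have ha : 0 < av := hδ.trans_le hd
    have h4 : NN * er ≤ NN / δ * er * av := by
      have h5 : NN * er = NN / δ * er * δ := by field_simp
      rw [h5]
      exact mul_le_mul_of_nonneg_left hd hne
    have h6 : av * (F - K - NN / δ * er) ≤ av * H := by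
      refine le_trans ?_ h3
      nlinarith
    have h7 := le_of_mul_le_mul_left h6 ha
    linarith
  · rw [hi.2 hd]
    linarith

/-- **THE N-STEP OF TYPE (ii)**, weak form: the good copies have conditional probability `≥ δ` outside an event of
probability `pb`; `p ≤ 2 m` bits of the last coordinate -/
theorem satH_weak (geo : GeoR P D Θ W E e (RH X M Sf Tf ρ)) (b m h p : ℕ) (hp : p ≤ 2 * m)
    (hρ0 : 0 ≤ ρ) (hρ : 2 ^ (2 * m + h + b + 8) * ρ ≤ 1) {ι₁ ι₂ δ pb : ℝ} (hδ : 0 < δ)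
    (hb : P.ex (fun ω => Law.ind (¬ δ ≤ avG P D Θ W e (chiH b Sf Tf (q2 h)) ω)) ≤ pb)
    (h1 : mi P (fun ω => e (D ω) (W ω)) E (fun ω => (D ω, Θ ω)) ≤ ι₁) (h2 : mi P Θ W D ≤ ι₂) :
    p * Real.log 2 - (12 + 2 * b + 2 * m * pb +
      2 ^ (4 * m + 2 * h + 12) / δ * (Real.sqrt ι₁ + Real.sqrt ι₂)) ≤
    hc P (fun ω => lbh 1 (X ω) (M ω)) (fun ω => (lbh (2 ^ p) (X ω) (M ω), (D ω, Θ ω))) := by
  classical
  obtain ⟨n1, n2, n3⟩ := numH m h p hp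
  set R : ℕ := 2 ^ (2 * m + h) with hRdef
  have hRR : 40 * 2 ^ (b + 2) * (R : ℝ) * ρ ≤ 1 := by
    refine le_trans ?_ hρ
    refine mul_le_mul_of_nonneg_right ?_ hρ0
    have eR : (R : ℝ) = 2 ^ (2 * m + h) := by rw [hRdef]; push_cast; rfl
    have e9 : (2 : ℝ) ^ (2 * m + h + b + 8) = 64 * (2 ^ (b + 2) * 2 ^ (2 * m + h)) := by
      rw [show (64 : ℝ) = 2 ^ 6 by norm_num, ← pow_add, ← pow_add]
      congr 1
      omega
    rw [eR, e9]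
    have : (0 : ℝ) < 2 ^ (b + 2) * 2 ^ (2 * m + h) := by positivity
    linarith
  obtain ⟨er, her0, her, hpt⟩ := satH_pt P geo b (q2 h) (2 ^ p) R (q2_pos _)
    (one_le_pow₀ (by norm_num)) n1 hρ0 hRR Nat.one_le_two_pow
  rw [hc_cond_ex P _ _ (fun ω => (D ω, Θ ω))]
  rw [Real.log_pow] at hpt
  have hl2 : Real.log 2 ≤ 1 := by
    have := Real.log_two_lt_d9
    linarith
  have hl20 : 0 < Real.log 2 := Real.log_pos (by norm_num)
  have hF1 : (p : ℝ) * Real.log 2 ≤ 2 * m := by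
    have : (p : ℝ) ≤ 2 * m := by exact_mod_cast hp
    exact (mul_le_of_le_one_right (Nat.cast_nonneg _) hl2).trans this
  have hpoint : ∀ ω, 0 < P.w ω → (p : ℝ) * Real.log 2 - (12 + 2 * b) -
      2 * m * Law.ind (¬ δ ≤ avG P D Θ W e (chiH b Sf Tf (q2 h)) ω) -
      4 * R * (1 + Real.log R) / δ * er ω ≤
      hc (P.cond (fun ω => (D ω, Θ ω)) (D ω, Θ ω)) (fun ω => lbh 1 (X ω) (M ω))
        (fun ω => lbh (2 ^ p) (X ω) (M ω)) := fun ω hω =>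
    wptH hδ n2 (her0 ω) (by positivity) (hc_nonneg _ _ _) hF1
      ⟨fun h => Law.ind_not (not_not.2 h), fun h => Law.ind_of h⟩ (hpt ω hω)
  refine le_trans ?_ (P.ex_mono hpoint)
  rw [P.ex_sub, P.ex_sub, P.ex_const_mul, P.ex_const_mul, P.ex_const]
  have h8 : 4 * (R : ℝ) * (1 + Real.log R) / δ * P.ex er ≤
      2 ^ (4 * m + 2 * h + 12) / δ * (Real.sqrt ι₁ + Real.sqrt ι₂) := by
    have e3 := (mul_le_mul_of_nonneg_left her n2).trans (errH n2 n3 h1 h2)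
    rw [div_mul_eq_mul_div, div_mul_eq_mul_div]
    exact div_le_div_of_nonneg_right e3 hδ.le
  have h9 := mul_le_mul_of_nonneg_left hb (by positivity : 0 ≤ 2 * (m : ℝ))
  linarith

/-- **THE N-STEP OF TYPE (ii)**, strong form: the good copies have total probability `≥ 1 - x` -/
theorem satH (geo : GeoR P D Θ W E e (RH X M Sf Tf ρ)) (b m h p : ℕ) (hp : p ≤ 2 * m)
    (hρ0 : 0 ≤ ρ) (hρ : 2 ^ (2 * m + h + b + 8) * ρ ≤ 1) {ι₁ ι₂ x : ℝ} (hx : 0 ≤ x)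
    (hX : 1 - x ≤ P.ex (avG P D Θ W e (chiH b Sf Tf (q2 h))))
    (h1 : mi P (fun ω => e (D ω) (W ω)) E (fun ω => (D ω, Θ ω)) ≤ ι₁) (h2 : mi P Θ W D ≤ ι₂) :
    p * Real.log 2 - (12 + 2 * b + 2 * m * x +
      2 ^ (4 * m + 2 * h + 12) * (Real.sqrt ι₁ + Real.sqrt ι₂)) ≤
    hc P (fun ω => lbh 1 (X ω) (M ω)) (fun ω => (lbh (2 ^ p) (X ω) (M ω), (D ω, Θ ω))) := by
  classical
  obtain ⟨n1, n2, n3⟩ := numH m h p hp
  set R : ℕ := 2 ^ (2 * m + h) with hRdef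
  have hRR : 40 * 2 ^ (b + 2) * (R : ℝ) * ρ ≤ 1 := by
    refine le_trans ?_ hρ
    refine mul_le_mul_of_nonneg_right ?_ hρ0
    have eR : (R : ℝ) = 2 ^ (2 * m + h) := by rw [hRdef]; push_cast; rfl
    have e9 : (2 : ℝ) ^ (2 * m + h + b + 8) = 64 * (2 ^ (b + 2) * 2 ^ (2 * m + h)) := by
      rw [show (64 : ℝ) = 2 ^ 6 by norm_num, ← pow_add, ← pow_add]
      congr 1
      omega
    rw [eR, e9]
    have : (0 : ℝ) < 2 ^ (b + 2) * 2 ^ (2 * m + h) := by positivity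
    linarith
  have hlR : 0 ≤ Real.log R := Real.log_nonneg (by
    have : 1 ≤ R := Nat.one_le_two_pow
    exact_mod_cast this)
  have main := mstepR P D Θ W E e (RH X M Sf Tf ρ) geo AH AH_ne (chiH b Sf Tf (q2 h))
    (chiH_nonneg b Sf Tf _) (chiH_le b Sf Tf _) (fun _ _ ω => lbh 1 (X ω) (M ω))
    (fun _ _ ω => lbh (2 ^ p) (X ω) (M ω)) (Real.log (2 ^ p) - (12 + 2 * b))
    (4 * R * (1 + Real.log R)) (by positivity)
    (fun d θ θs xs hχ Q ε hQ hε hA => hsatH P b (q2 h) (2 ^ p) R (q2_pos _)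
      (one_le_pow₀ (by norm_num)) n1 hρ0 hRR Nat.one_le_two_pow d θ θs xs hχ Q ε hQ hε hA)
  rw [AH_card, Real.log_pow] at main
  have hl2 : Real.log 2 ≤ 1 := by
    have := Real.log_two_lt_d9
    linarith
  have hl20 : 0 < Real.log 2 := Real.log_pos (by norm_num)
  have hF1 : (p : ℝ) * Real.log 2 ≤ 2 * m := by
    have : (p : ℝ) ≤ 2 * m := by exact_mod_cast hp
    exact (mul_le_of_le_one_right (Nat.cast_nonneg _) hl2).trans this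
  have herr := errH n2 n3 h1 h2
  have hH0 := hc_nonneg P (fun ω => lbh 1 (X ω) (M ω))
    (fun ω => (lbh (2 ^ p) (X ω) (M ω), (D ω, Θ ω)))
  have hB : (0 : ℝ) ≤ 2 ^ (4 * m + 2 * h + 12) * (Real.sqrt ι₁ + Real.sqrt ι₂) :=
    mul_nonneg (by positivity) (add_nonneg (Real.sqrt_nonneg _) (Real.sqrt_nonneg _))
  have hmx : 0 ≤ 2 * (m : ℝ) * x := by positivity
  rcases le_or_gt ((p : ℝ) * Real.log 2 - (12 + 2 * b)) 0 with hneg | hpos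
  · linarith
  · have h6 : (1 - x) * ((p : ℝ) * Real.log 2 - (12 + 2 * b)) ≤
        P.ex (avG P D Θ W e (chiH b Sf Tf (q2 h))) * ((p : ℝ) * Real.log 2 - (12 + 2 * b)) :=
      mul_le_mul_of_nonneg_right hX hpos.le
    have h7 : x * ((p : ℝ) * Real.log 2 - (12 + 2 * b)) ≤ 2 * m * x := by
      have := mul_le_mul_of_nonneg_left (by
        have : (0 : ℝ) ≤ b := Nat.cast_nonneg _
        linarith : (p : ℝ) * Real.log 2 - (12 + 2 * b) ≤ 2 * m) hx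
      linarith
    push_cast at main herr
    linarith

end steps

end Vale.Agent.P106.U.H572
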