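import Vale.Agent.P106.U.H572.HDig
import Vale.Agent.P106.U.H466.HeiM
import Vale.Agent.P106.U.H785.MtrF2
import Vale.Agent.P106.H25.LabV0
import Vale.Agent.P106.U.H786.SC
import Vale.Agent.P106.U.H384.MtrF1

/-!
# P106 / U / H572 : A WHOLE DIAGONAL STEP OF KIND 1 FROM THE RECORD (helper572)

Letters: `U = mtr k b`, `Θ = fl1 (a i) t`, `E = mtr i b`, `W = ((mt ..).fz k k).cell k bV, Ao, Ob` (field `V2`),
`x = (fl1 (b + pv) v, fl1 (rk k + q) (Ao 2^-a))`.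
**`hstep`** : `4 m log 2 - err ≤ hc (unit label) (label 2^m, mtr k b, time)`.
-/

set_option autoImplicit false

namespace Vale.Agent.P106.U.H572.HStep

open Finset Vale.Agent.P127 Vale.Agent.P127.Stk Vale.Agent.P127.U.Pin Vale.Agent.P127.U.Mic
open Vale.Agent.P127.U.CellD Vale.Agent.P127.TV
open Vale.Agent.P106.TV Vale.Agent.P106.H25
open Vale.Agent.P106.U Vale.Agent.P106.U.Cell Vale.Agent.P106.U.H572 Vale.Agent.P106.U.H572.HDig
open Vale.Agent.P106.U.H466 Vale.Agent.P106.U.H785.Mtr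
open Vale.Agent.P106.U.S3 (Run Pf F2 mt lv LTh LDk kaL unL)

variable {Ω : Type} [Fintype Ω] {τ υ π : Type} {R : Run Ω τ υ} {F : Pf R π} {μ : ℕ} {o : Fin 7 → ℝ} {o' : ℕ → ℝ}

/-- the direction -/
noncomputable def vH (R : Run Ω τ υ) (ω : Ω) : ℝ := (R.C.l ω).v

/-- the curvature of the line in the units of the step -/
noncomputable def zH (R : Run Ω τ υ) (F : Pf R π) (k : ℕ) (ω : Ω) : ℝ := q2 (R.C.a k) * F.Ao (lv R k) ω

/-- the letter of the later cap (field `V2`) -/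
noncomputable def WH (R : Run Ω τ υ) (F : Pf R π) (μ : ℕ) (o : Fin 7 → ℝ) (o' : ℕ → ℝ) (B bV k : ℕ) (ω : Ω) :
    ((Lt π × ℤ) × Pth.Dg) × (ℝ × ℤ) :=
  (((mt R F μ o o').fz k k).cell k bV ω, F.Ao (lv R k) ω, S3.Ob R B o' k ω)

/-- the digits of the letter `x` -/
noncomputable def xH (R : Run Ω τ υ) (F : Pf R π) (b pv q k : ℕ) (ω : Ω) : ℤ × ℤ :=
  (fl1 (b + pv) (vH R ω), fl1 (R.C.rk k + q) (zH R F k ω))

/-- direction in the cell -/
def dvH (U : Lt π × Pth.Dg) : ℝ := U.2.1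

/-- curvature of the cell in the units of the step -/
noncomputable def dgH (R : Run Ω τ υ) (F : Pf R π) (k : ℕ) (U : Lt π × Pth.Dg) : ℝ :=
  2 ^ R.C.rk k * (q2 (R.C.a k) * F.gv k U.1.2.1)

/-- direction digits from the later cap -/
def yvH (s : ℕ) (w : ((Lt π × ℤ) × Pth.Dg) × (ℝ × ℤ)) : ℤ := w.1.2.1 / 2 ^ s

/-- curvature digits from the later cap -/
noncomputable def yzH (R : Run Ω τ υ) (q k : ℕ) (w : ((Lt π × ℤ) × Pth.Dg) × (ℝ × ℤ)) : ℤ :=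
  fl1 (R.C.rk k + q) (q2 (R.C.a k) * w.2.1)

/-- the event of the collision of the curvatures -/
def BfH (R : Run Ω τ υ) (F : Pf R π) (r' k : ℕ) (x : ℝ) (ω : Ω) : Prop :=
  |F.Ao (lv R k) ω - x| * q2 (R.C.a k) ≤ q2 (R.C.rk k + r')

theorem fl_div (s q : ℕ) (x : ℝ) : fl1 (s + q) x / 2 ^ q = fl1 s x := by
  obtain ⟨h1, h2⟩ := fl_split s q x
  have hq : (0 : ℤ) < 2 ^ q := by positivity
  have e1 : fl1 s x ≤ fl1 (s + q) x / 2 ^ q := by
    rw [Int.le_ediv_iff_mul_le hq]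
    linarith
  have e2 : fl1 (s + q) x / 2 ^ q < fl1 s x + 1 := by
    rw [Int.ediv_lt_iff_lt_mul hq]
    linarith
  omega

/-- numbers of a step -/
structure NumH (R : Run Ω τ υ) (K : ℝ) (μ B b bV k i m g r' pv q b0 : ℕ) (px : ℝ) : Prop where
  νk : μ / 2 ≤ R.C.rk k
  bp : b + pv ≤ bV
  gp : g ≤ pv
  ga : R.C.a k + g ≤ R.C.a i
  rq : r' + 2 ≤ q
  mB : 5 * μ ≤ R.m * B
  p1 : px ≤ 1
  p2 : q2 pv ≤ px
  p3 : K * q2 (R.m * B) + q2 q ≤ 2 ^ (μ / 2) * px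
  Kb : 2 * K + 1 ≤ 2 ^ b0
  ρ : 2 ^ (3 * m + 28 * g + 4 * (r' + 2) + 6 * b0 + 63) * (2 ^ (μ / 2) * tolH (64 * K) μ 0 px) ≤ 1

variable {p : Run.Num} {K c' g' gU : ℝ} {I : Set ℕ} {B bS bV : ℕ} {Vs Xs : Finset ℕ} {k i b bb : ℕ}

theorem NumH.pw {m g r' pv q b0 : ℕ} {px : ℝ} (M : NumH R K μ B b bV k i m g r' pv q b0 px) :
    (2 : ℝ) ^ (μ / 2) * 2 ^ (R.C.rk k - μ / 2) = 2 ^ R.C.rk k := by
  rw [← pow_add]
  congr 1
  have := M.νk
  omega

/-- the curvature of the line against that of the cell -/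
theorem z_near (f2 : F2 R p K B bS bV F Vs Xs) (hkn : k ≤ R.n + p.J) (hV : lv R k ∈ Vs) {ω : Ω} (hω : 0 < R.Q.w ω) :
    |2 ^ R.C.rk k * zH R F k ω - 2 ^ R.C.rk k * (q2 (R.C.a k) * R.al k ω)| ≤ K * q2 (R.m * B) := by
  have h := f2.aoA k hkn hV ω hω
  have e : 2 ^ R.C.rk k * zH R F k ω - 2 ^ R.C.rk k * (q2 (R.C.a k) * R.al k ω) =
      -(2 ^ R.C.rk k * ((R.al k ω - F.Ao (lv R k) ω) * q2 (R.C.a k))) := by
    unfold zH
    ring
  have hq : (0 : ℝ) < 2 ^ R.C.rk k := by positivity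
  rw [e, abs_neg, abs_mul, abs_of_pos hq, abs_mul, abs_of_pos (q2_pos (R.C.a k))]
  calc _ ≤ 2 ^ R.C.rk k * (K * q2 (R.C.rk k + R.m * B)) := mul_le_mul_of_nonneg_left h hq.le
    _ = (2 ^ R.C.rk k * q2 (R.C.rk k)) * (K * q2 (R.m * B)) := by rw [q2_add]; ring
    _ = _ := by rw [q2_mul_pow, one_mul]

theorem g_near (f2 : F2 R p K B bS bV F Vs Xs) (hkn : k ≤ R.n + p.J) {ω : Ω} (hω : 0 < R.Q.w ω) :
    |2 ^ R.C.rk k * (q2 (R.C.a k) * R.al k ω) - 2 ^ R.C.rk k * (q2 (R.C.a k) * F.gv k (F.pf k ω))| ≤ K := by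
  have h := f2.gvA k hkn ω hω
  have e : 2 ^ R.C.rk k * (q2 (R.C.a k) * R.al k ω) - 2 ^ R.C.rk k * (q2 (R.C.a k) * F.gv k (F.pf k ω)) =
      2 ^ R.C.rk k * ((R.al k ω - F.gv k (F.pf k ω)) * q2 (R.C.a k)) := by
    ring
  have hq : (0 : ℝ) < 2 ^ R.C.rk k := by positivity
  rw [e, abs_mul, abs_of_pos hq, abs_mul, abs_of_pos (q2_pos (R.C.a k))]
  calc _ ≤ 2 ^ R.C.rk k * (K * q2 (R.C.rk k)) := mul_le_mul_of_nonneg_left h hq.le
    _ = (2 ^ R.C.rk k * q2 (R.C.rk k)) * K := by ring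
    _ = _ := by rw [q2_mul_pow, one_mul]

/-- **the digit data of the step** -/
theorem dig (f2 : F2 R p K B bS bV F Vs Xs) (hK : 1 ≤ K) (hki : k ≤ i) (hkn : k ≤ R.n + p.J) (hV : lv R k ∈ Vs)
    {m g r' pv q b0 : ℕ} {px : ℝ} (M : NumH R K μ B b bV k i m g r' pv q b0 px) :
    Dig R.Q ((mt R F μ o o').mtr k b) (fun ω => fl1 (R.C.a i) (R.C.t ω)) (WH R F μ o o' B bV k) dvH (dgH R F k)
      (yvH (bV - (b + pv))) (yzH R q k) (fun θ => θ) R.C.t (vH R) (zH R F k) (R.C.a k) b (R.C.rk k) pv q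
      (R.C.a i - R.C.a k) b0 where
  dt := fun ω ω' _ _ e => congrArg (fun x : Lt π × Pth.Dg => x.1.1) e
  th := fun ω _ => by
    have := R.C.ha hki
    rw [show R.C.a k + (R.C.a i - R.C.a k) = R.C.a i by omega]
  dv := fun ω _ => rfl
  yv := fun ω _ => by
    have h := fl_div (b + pv) (bV - (b + pv)) (vH R ω)
    rw [show b + pv + (bV - (b + pv)) = bV by have := M.bp; omega] at h
    exact h
  yz := fun ω _ => rfl
  dg := fun ω hω => by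
    have h1 := abs_le.1 (z_near f2 hkn hV hω)
    have h2 := abs_le.1 (g_near f2 hkn hω)
    have h3 := M.Kb
    have h4 : K * q2 (R.m * B) ≤ K := mul_le_of_le_one_right (by linarith) (HDig.q2_one _)
    show |2 ^ R.C.rk k * zH R F k ω - 2 ^ R.C.rk k * (q2 (R.C.a k) * F.gv k (F.pf k ω))| ≤ 2 ^ b0 - 1
    rw [abs_le]
    constructor <;> linarith [h1.1, h1.2, h2.1, h2.2]

/-- same letter of the later cap -/
theorem W_same (f2 : F2 R p K B bS bV F Vs Xs) (hK : 1 ≤ K) (hkn : k ≤ R.n + p.J) (hV : lv R k ∈ Vs)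
    (mB : 5 * μ ≤ R.m * B) {ω ω' : Ω} (h : 0 < R.Q.w ω) (h' : 0 < R.Q.w ω')
    (e : WH R F μ o o' B bV k ω' = WH R F μ o o' B bV k ω) :
    (mt R F μ o o').mtr k bV ω' = (mt R F μ o o').mtr k bV ω ∧
      |kaL R k ω' - kaL R k ω| ≤ 64 * K * q2 ((mt R F μ o o').rr k + 5 * (mt R F μ o o').μ) ∧
      |R.al k ω' - R.al k ω| * q2 ((mt R F μ o o').a k) ≤
        64 * K * q2 ((mt R F μ o o').rr k + 5 * (mt R F μ o o').μ) := by
  unfold WH at e
  simp only [Prod.mk.injEq] at e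
  obtain ⟨e1, e2, e3⟩ := e
  have hq : q2 (R.C.rk k + R.m * B) ≤ q2 ((mt R F μ o o').rr k + 5 * (mt R F μ o o').μ) := by
    refine q2_le ?_
    show R.C.rk k - μ / 2 + 5 * μ ≤ _
    omega
  have q0 := q2_pos (R.C.rk k + R.m * B)
  refine ⟨((mt R F μ o o').fz_cell_iff le_rfl bV ω' ω).1 e1, ?_, ?_⟩
  · unfold S3.Ob at e3
    have h1 := fl_val (R.C.rk k + R.m * B) 0 (kaL R k ω' + o' 0)
    have h2 := fl_val (R.C.rk k + R.m * B) 0 (kaL R k ω + o' 0)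
    have a1 := Int.floor_le (2 ^ (R.C.rk k + R.m * B) * (kaL R k ω' + o' 0))
    have a2 := Int.lt_floor_add_one (2 ^ (R.C.rk k + R.m * B) * (kaL R k ω' + o' 0))
    have a3 := Int.floor_le (2 ^ (R.C.rk k + R.m * B) * (kaL R k ω + o' 0))
    have a4 := Int.lt_floor_add_one (2 ^ (R.C.rk k + R.m * B) * (kaL R k ω + o' 0))
    unfold fl1 at e3
    rw [e3] at a1 a2
    have key : |2 ^ (R.C.rk k + R.m * B) * (kaL R k ω' - kaL R k ω)| ≤ 1 := by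
      rw [abs_le]
      constructor <;> nlinarith
    have hp : (0 : ℝ) < 2 ^ (R.C.rk k + R.m * B) := by positivity
    rw [abs_mul, abs_of_pos hp] at key
    have h5 : |kaL R k ω' - kaL R k ω| ≤ q2 (R.C.rk k + R.m * B) := by
      have h6 := q2_mul_pow (R.C.rk k + R.m * B)
      have h7 := mul_le_mul_of_nonneg_left key q0.le
      calc |kaL R k ω' - kaL R k ω| = q2 (R.C.rk k + R.m * B) * (2 ^ (R.C.rk k + R.m * B) * |kaL R k ω' - kaL R k ω|) := by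
            rw [← mul_assoc, mul_comm (q2 _) _, h6, one_mul]
        _ ≤ q2 (R.C.rk k + R.m * B) * 1 := h7
        _ = _ := mul_one _
    refine (h5.trans hq).trans ?_
    have := q2_pos ((mt R F μ o o').rr k + 5 * (mt R F μ o o').μ)
    nlinarith
  · have h1 := f2.aoA k hkn hV ω h
    have h2 := f2.aoA k hkn hV ω' h'
    rw [e2] at h2
    have h3 : |R.al k ω' - R.al k ω| ≤ |R.al k ω' - F.Ao (lv R k) ω| + |R.al k ω - F.Ao (lv R k) ω| := by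
      rw [abs_sub_comm (R.al k ω) (F.Ao (lv R k) ω)]
      exact abs_sub_le _ _ _
    have h4 := mul_le_mul_of_nonneg_right h3 (q2_pos (R.C.a k)).le
    show |R.al k ω' - R.al k ω| * q2 (R.C.a k) ≤ _
    have h5 : K * q2 (R.C.rk k + R.m * B) ≤ K * q2 ((mt R F μ o o').rr k + 5 * (mt R F μ o o').μ) :=
      mul_le_mul_of_nonneg_left hq (by linarith)
    have := q2_pos ((mt R F μ o o').rr k + 5 * (mt R F μ o o').μ)
    nlinarith

/-- **GeoR with the concrete letters** -/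
theorem geo (hok : R.Ok p K c' g' gU) (f2 : F2 R p K B bS bV F Vs Xs) (hK : 1 ≤ K)
    (N : NumM R (mt R F μ o o') k i b bb bV) {m g r' pv q b0 : ℕ} {px : ℝ}
    (M : NumH R K μ B b bV k i m g r' pv q b0 px)
    (hy : ∀ ω, 0 < R.Q.w ω → (mt R F μ o o').Hy (4 * K) I ω) (hk : k ∈ I) (hi : i ∈ I) (hin : i ≤ R.n + p.J)
    (hV : lv R k ∈ Vs) {dr : ℕ → Ω → Ω}
    (hdr : Rep (fun ω => 0 < R.Q.w ω) (((mt R F μ o o').p1 k).cell k b) (dr k)) :
    GeoR R.Q ((mt R F μ o o').mtr k b) (fun ω => fl1 (R.C.a i) (R.C.t ω)) (WH R F μ o o' B bV k)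
      ((mt R F μ o o').mtr i b) (xv dvH (dgH R F k) (yvH (bV - (b + pv))) (yzH R q k) pv q)
      (RH (XV (mt R F μ o o') b i dr k) (MV (mt R F μ o o') b i dr k)
        (xS (fun θ => θ) (R.C.a i - R.C.a k)) (fun _ _ _ => 0) (2 ^ (μ / 2) * tolH (64 * K) μ 0 px)) := by
  have hkn : k ≤ R.n + p.J := N.ki.trans hin
  have hμ : μ ≤ R.C.μ := by
    have : 2 * μ ≤ R.C.μ := N.μC
    omega
  have dd := dig (o := o) (o' := o') f2 hK N.ki hkn hV M
  have hD : OfR R (mt R F μ o o') := ofR_mt (F := F) (o := o) (o' := o') hμ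
  refine geo_run hD hok hK N hy hk hi hin hdr (fun ω ω' _ _ e => e) ?_ (fun ω ω' _ _ e => e)
    (fun ω ω' h h' e => W_same f2 hK hkn hV M.mB h h' e) M.p1 ?_ ?_ ?_ ?_ (fun ω ω' _ _ _ => rfl)
  · intro ω ω' _ _ e
    show rd (R.C.a i) (R.C.t ω') = rd (R.C.a i) (R.C.t ω)
    unfold rd
    rw [e]
  · intro ω hω
    rw [dd.x_eq hω]
    exact fl_digit b pv (vH R ω)
  · intro ω hω
    rw [dd.x_eq hω]
    have h1 := fl_val b pv (vH R ω)
    have e0 : (2 : ℝ) ^ b * rd b (R.C.l ω).v = fl1 b (vH R ω) := by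
      unfold rd vH
      have : (2 : ℝ) ^ b ≠ 0 := by positivity
      field_simp
    have e1 : 2 ^ b * ((R.C.l ω).v - rd b (R.C.l ω).v) - ((fl1 (b + pv) (vH R ω) : ℝ) / 2 ^ pv - fl1 b (vH R ω)) =
        -((fl1 (b + pv) (vH R ω) : ℝ) / 2 ^ pv - 2 ^ b * vH R ω) := by
      rw [mul_sub, e0]
      unfold vH
      ring
    show |2 ^ b * ((R.C.l ω).v - rd b (R.C.l ω).v) - ((fl1 (b + pv) (vH R ω) : ℝ) / 2 ^ pv - fl1 b (vH R ω))| ≤ px
    rw [e1, abs_neg]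
    exact h1.trans M.p2
  · intro ω hω
    rw [dd.x_eq hω]
    have h1 := abs_le.1 (fl_val (R.C.rk k) q (zH R F k ω))
    have h2 := abs_le.1 (z_near f2 hkn hV hω)
    have h3 := M.p3
    have e1 := M.pw
    show |2 ^ (μ / 2) * (2 ^ (R.C.rk k - μ / 2) * (q2 (R.C.a k) * (R.al k ω - F.gv k (F.pf k ω)))) -
      ((fl1 (R.C.rk k + q) (zH R F k ω) : ℝ) / 2 ^ q - 2 ^ R.C.rk k * (q2 (R.C.a k) * F.gv k (F.pf k ω)))| ≤
        2 ^ (μ / 2) * px
    rw [← mul_assoc, e1]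
    rw [abs_le]
    constructor <;> nlinarith [h1.1, h1.2, h2.1, h2.2]
  · intro ω ω' h h' _
    show xS (fun θ => θ) (R.C.a i - R.C.a k) ((mt R F μ o o').mtr k b ω) (fl1 (R.C.a i) (R.C.t ω))
      (fl1 (R.C.a i) (R.C.t ω')) = 2 ^ R.C.a k * (rd (R.C.a i) (R.C.t ω') - rd (R.C.a i) (R.C.t ω))
    have h3 := R.C.ha N.ki
    have e1 : (2 : ℝ) ^ R.C.a i = 2 ^ R.C.a k * 2 ^ (R.C.a i - R.C.a k) := by
      rw [← pow_add]
      congr 1
      omega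
    unfold xS rd
    rw [e1]
    have n1 : (2 : ℝ) ^ R.C.a k ≠ 0 := by positivity
    have n2 : (2 : ℝ) ^ (R.C.a i - R.C.a k) ≠ 0 := by positivity
    field_simp

/-- the letters of the record in the kappa regime -/
theorem LDk_eq (hreg : b + R.C.rk k < R.C.rf k) (ω : Ω) :
    LDk ((mt R F μ o o').fz k k) b k ω = (((mt R F μ o o').fz k k).cell k b ω, 0) := by
  have c1 : ¬ ((mt R F μ o o').fz k k).rf k ≤ b + ((mt R F μ o o').fz k k).rk k := by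
    rw [(mt R F μ o o').fz_rf le_rfl, (mt R F μ o o').fz_rk le_rfl le_rfl]
    show ¬ R.C.rf k ≤ b + (R.C.rk k - μ / 2)
    omega
  unfold LDk
  rw [if_neg c1]

theorem LTh_eq (hki : k ≤ i) (hreg : b + R.C.rk k < R.C.rf k) (ω : Ω) :
    LTh ((mt R F μ o o').fz k k) b i ω = (((mt R F μ o o').lt k ω, fl1 (R.C.a i) (R.C.t ω)), 0) := by
  have c2 : ¬ ((mt R F μ o o').fz k k).rf i ≤ b + ((mt R F μ o o').fz k k).rk i := by
    rw [(mt R F μ o o').fz_rf hki, (mt R F μ o o').fz_rk hki hki]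
    have := R.C.hf hki
    show ¬ R.C.rf i ≤ b + (R.C.rk k - μ / 2)
    omega
  unfold LTh
  rw [if_neg c2]
  show (((mt R F μ o o').lt k ω, fl1 (R.C.a (max i k)) (R.C.t ω)), (0 : ℤ)) = _
  rw [max_eq_left hki]

/-- the first information in the letters of the record -/
theorem mi_x {S E' : Type*} (X : Ω → S) (E : Ω → E') (hki : k ≤ i) (hreg : b + R.C.rk k < R.C.rf k) :
    mi R.Q X E (fun ω => ((mt R F μ o o').mtr k b ω, fl1 (R.C.a i) (R.C.t ω))) =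
      mi R.Q X E (fun ω => (LDk ((mt R F μ o o').fz k k) b k ω, LTh ((mt R F μ o o').fz k k) b i ω)) := by
  refine mi_congr_cond R.Q X _ ?_ ?_
  · intro ω ω' _ _ e
    simp only [LDk_eq hreg, LTh_eq hki hreg, Prod.mk.injEq] at e
    exact Prod.ext (((mt R F μ o o').fz_cell_iff le_rfl b ω ω').1 e.1.1) e.2.1.2
  · intro ω ω' _ _ e
    simp only [Prod.mk.injEq] at e
    simp only [LDk_eq hreg, LTh_eq hki hreg, Prod.mk.injEq]
    exact ⟨⟨((mt R F μ o o').fz_cell_iff le_rfl b ω ω').2 e.1, trivial⟩,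
      ⟨congrArg (fun x : Lt π × Pth.Dg => x.1) e.1, e.2⟩, trivial⟩

/-- the second information in the letters of the record -/
theorem mi_W {S : Type*} (W : Ω → S) (hki : k ≤ i) (hreg : b + R.C.rk k < R.C.rf k) :
    mi R.Q (fun ω => fl1 (R.C.a i) (R.C.t ω)) W ((mt R F μ o o').mtr k b) ≤
      mi R.Q (LTh ((mt R F μ o o').fz k k) b i) W (LDk ((mt R F μ o o').fz k k) b k) := by
  have h1 : mi R.Q (fun ω => fl1 (R.C.a i) (R.C.t ω)) W ((mt R F μ o o').mtr k b) =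
      mi R.Q (fun ω => fl1 (R.C.a i) (R.C.t ω)) W (LDk ((mt R F μ o o').fz k k) b k) := by
    refine mi_congr_cond R.Q _ _ ?_ ?_
    · intro ω ω' _ _ e
      rw [LDk_eq hreg, LDk_eq hreg] at e
      exact ((mt R F μ o o').fz_cell_iff le_rfl b ω ω').1 (congrArg Prod.fst e)
    · intro ω ω' _ _ e
      rw [LDk_eq hreg, LDk_eq hreg]
      exact Prod.ext (((mt R F μ o o').fz_cell_iff le_rfl b ω ω').2 e) rfl
  rw [h1]
  refine mi_mono_left R.Q W ?_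
  intro ω ω' _ _ e
  have e1 := congrArg Prod.fst e
  simp only [LTh_eq hki hreg] at e1
  exact congrArg (fun x : (Lt π × ℤ) × ℤ => x.1.2) e1

/-- close digits of the curvature -/
theorem Bf_of {r' : ℕ} {a c : Ω} (h : |fl1 (R.C.rk k + (r' + 2)) (zH R F k a) - fl1 (R.C.rk k + (r' + 2)) (zH R F k c)| ≤
    ((2 : ℕ) : ℤ)) : BfH R F r' k (F.Ao (lv R k) a) c := by
  have h0 := (Int.cast_le (R := ℝ)).2 h
  push_cast at h0
  have a1 := Int.floor_le (2 ^ (R.C.rk k + (r' + 2)) * zH R F k a)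
  have a2 := Int.lt_floor_add_one (2 ^ (R.C.rk k + (r' + 2)) * zH R F k a)
  have a3 := Int.floor_le (2 ^ (R.C.rk k + (r' + 2)) * zH R F k c)
  have a4 := Int.lt_floor_add_one (2 ^ (R.C.rk k + (r' + 2)) * zH R F k c)
  unfold fl1 at h0
  rw [abs_le] at h0
  have hp : (0 : ℝ) < 2 ^ (R.C.rk k + (r' + 2)) := by positivity
  have key : |2 ^ (R.C.rk k + (r' + 2)) * ((F.Ao (lv R k) c - F.Ao (lv R k) a) * q2 (R.C.a k))| ≤ 3 := by
    have e : 2 ^ (R.C.rk k + (r' + 2)) * ((F.Ao (lv R k) c - F.Ao (lv R k) a) * q2 (R.C.a k)) =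
        2 ^ (R.C.rk k + (r' + 2)) * zH R F k c - 2 ^ (R.C.rk k + (r' + 2)) * zH R F k a := by
      unfold zH
      ring
    rw [e, abs_le]
    constructor <;> linarith [h0.1, h0.2]
  rw [abs_mul, abs_of_pos hp, abs_mul, abs_of_pos (q2_pos (R.C.a k))] at key
  unfold BfH
  have q0 := q2_pos (R.C.rk k + (r' + 2))
  have h6 := q2_mul_pow (R.C.rk k + (r' + 2))
  have h7 := mul_le_mul_of_nonneg_left key q0.le
  have e1 : q2 (R.C.rk k + (r' + 2)) * (2 ^ (R.C.rk k + (r' + 2)) * (|F.Ao (lv R k) c - F.Ao (lv R k) a| *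
      q2 (R.C.a k))) = |F.Ao (lv R k) c - F.Ao (lv R k) a| * q2 (R.C.a k) := by
    rw [← mul_assoc, mul_comm (q2 _) _, h6, one_mul]
  rw [e1] at h7
  have e2 : q2 (R.C.rk k + (r' + 2)) = q2 (R.C.rk k + r') / 4 := by
    rw [show R.C.rk k + (r' + 2) = R.C.rk k + r' + 2 by omega, q2_add]
    have : q2 2 = 1 / 4 := by unfold q2; norm_num
    rw [this]
    ring
  have q1 := q2_pos (R.C.rk k + r')
  rw [e2] at h7
  linarith

/-- **A WHOLE DIAGONAL STEP OF KIND 1** -/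
theorem hstep (hok : R.Ok p K c' g' gU) (f2 : F2 R p K B bS bV F Vs Xs) (hK : 1 ≤ K)
    (N : NumM R (mt R F μ o o') k i b bb bV) {m g r' pv q b0 : ℕ} {px : ℝ}
    (M : NumH R K μ B b bV k i m g r' pv q b0 px)
    (hy : ∀ ω, 0 < R.Q.w ω → (mt R F μ o o').Hy (4 * K) I ω) (hk : k ∈ I) (hi : i ∈ I) (hin : i ≤ R.n + p.J)
    (hV : lv R k ∈ Vs) (hreg : b + R.C.rk k < R.C.rf k) {dr : ℕ → Ω → Ω}
    (hdr : Rep (fun ω => 0 < R.Q.w ω) (((mt R F μ o o').p1 k).cell k b) (dr k)) {c₀ pA ι₁ ι₂ : ℝ} (hc0 : 0 < c₀)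
    (hu : R.Q.ex (fun ω => Law.ind (∃ x, (1 - c₀) * R.Q.pr ((mt R F μ o o').mtr k b) ((mt R F μ o o').mtr k b ω) <
      prE R.Q (fun ω' => (mt R F μ o o').mtr k b ω' = (mt R F μ o o').mtr k b ω ∧ BfH R F r' k x ω'))) ≤ pA)
    (h1 : mi R.Q (xH R F b pv q k) ((mt R F μ o o').mtr i b)
      (fun ω => (LDk ((mt R F μ o o').fz k k) b k ω, LTh ((mt R F μ o o').fz k k) b i ω)) ≤ ι₁)
    (h2 : mi R.Q (LTh ((mt R F μ o o').fz k k) b i) (WH R F μ o o' B bV k) (LDk ((mt R F μ o o').fz k k) b k) ≤ ι₂) :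
    4 * m * Real.log 2 - (23 + 3 * b0 + 4 * m * (pA + 6 * colp R.Q (fun ω => fl1 (R.C.a k + g) (R.C.t ω))
        ((mt R F μ o o').mtr k b) +
      300 * colp R.Q (fun ω => fl1 (b + g) (R.C.l ω).v) ((mt R F μ o o').mtr k b)) +
      10 * 2 ^ (4 * m + 42 * g + 6 * (r' + 2) + 8 * b0 + 97) / c₀ * (Real.sqrt ι₁ + Real.sqrt ι₂)) ≤
    hc R.Q (fun ω => lbH 1 (XV (mt R F μ o o') b i dr k ω) (MV (mt R F μ o o') b i dr k ω))
      (fun ω => (lbH (2 ^ m) (XV (mt R F μ o o') b i dr k ω) (MV (mt R F μ o o') b i dr k ω),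
        ((mt R F μ o o').mtr k b ω, fl1 (R.C.a i) (R.C.t ω)))) := by
  have hkn : k ≤ R.n + p.J := N.ki.trans hin
  have dd := dig (o := o) (o' := o') f2 hK N.ki hkn hV M
  have gg := geo hok f2 hK N M hy hk hi hin hV hdr
  have ρ0 : 0 ≤ 2 ^ (μ / 2) * tolH (64 * K) μ 0 px := by
    have := q2_pos (2 * μ)
    have hp0 : 0 ≤ px := (q2_pos pv).le.trans M.p2
    unfold tolH
    positivity
  rw [← mi_x _ _ N.ki hreg] at h1
  exact dd.hdig gg (m := m) (pp := m) le_rfl M.gp (by have := M.ga; omega) M.rq ρ0 M.ρ hc0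
    (BfH R F r' k) (F.Ao (lv R k)) (fun a c _ _ h => Bf_of h) hu h1 ((mi_W _ N.ki hreg).trans h2)

end Vale.Agent.P106.U.H572.HStep
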