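import Vale.Agent.P106.U.H572.HPw
import Vale.Agent.P106.U.H495.RK1
import Vale.Agent.P106.U.H786.SCs

/-!
# P106 / U / H572 : the inputs `StP`, `NdP` of row [K] (helper572)

`NSt` : numbers; `pw_of` : the pair of a-steps of two levels; **`stP`**, **`ndP`**, `juP`.
-/

set_option autoImplicit false

namespace Vale.Agent.P106.U.H572.StP

open Finset Filter Vale.Agent.P127 Vale.Agent.P127.Stk Vale.Agent.P127.U Vale.Agent.P106.W Vale.Agent.P106.K
open Vale.Agent.P127.U.CellD (q2 rd q2_pos q2_add q2_le q2_mul_pow)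
open Vale.Agent.P106.U.S3 (Run mt LDk LTh Ob lv IdK)
open Vale.Agent.P106.U.S5 hiding Cst
open Vale.Agent.P106.U.MIC
open Vale.Agent.P106.U.H495.RK
open Vale.Agent.P106.U.H572.HStep
open Vale.Agent.P106.U.H786.SC (Cx cc1 cx_ev)
open Vale.Agent.P106.U.H652 (Ev3 ev_q2' ev_nat)
open Vale.Agent.P106.U.H466 (tolH)

/-- numbers of the step -/
structure NSt (x : ℕ) (K : ℝ) (L : ℕ) (m B _h : ℕ) : Prop where
  m1 : 1 ≤ m
  B8 : 8 * μS x m + m + 2 * μS x m + L ≤ B
  KB : K * q2 (m * B) ≤ q2 (2 * μS x m)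
  Kη : 4 * (32 * K) ^ 4 * q2 (μS x m) ≤ 1
  ρ : 2 ^ (3 * m + 28 * m + 4 * (rK m + 2) + 6 * bK + 63) *
    (2 ^ (μS x m / 2) * tolH (64 * K) (μS x m) 0 (q2 (2 * μS x m))) ≤ 1

theorem cN_big : 800 ≤ cN := le_max_left _ _

theorem cμ_big : 6400000 ≤ cμ := by
  have := cN_big
  unfold cμ
  omega

/-- the margin is a large multiple of `m` -/
theorem μS_big (x m : ℕ) : 76800000 * m ≤ μS x m := by
  have h1 := cμ_big
  have h2 : 12 ≤ xS x := by unfold xS; omega
  unfold μS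
  have h3 : 6400000 * 12 ≤ cμ * xS x := Nat.mul_le_mul h1 h2
  calc 76800000 * m = 6400000 * 12 * m := by norm_num
    _ ≤ cμ * xS x * m := Nat.mul_le_mul_right m h3

theorem MuS_eq (x m : ℕ) : MuS x * m = 8 * μS x m := by
  unfold MuS μS
  ring

theorem ev_NSt (x : ℕ) (K : ℝ) (hK : 1 ≤ K) (L : ℕ) : Ev3 (NSt x K L) := by
  have hc := μS_big x
  set c : ℕ := cμ * xS x with hcd
  have hμ : ∀ m, μS x m = c * m := fun m => rfl
  have hc1 : 76800000 ≤ c := by
    have := hc 1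
    rw [hμ 1] at this
    omega
  -- only `m`
  have e1 : ∀ᶠ m : ℕ in atTop, 4 * (32 * K) ^ 4 * q2 (μS x m) ≤ 1 := by
    have := ev_q2' (4 * (32 * K) ^ 4) 0 c (by omega) (κ := 1) one_pos
    filter_upwards [this] with m hm
    rw [hμ m]
    simpa using hm
  have e2 : ∀ᶠ m : ℕ in atTop, 2 ^ (3 * m + 28 * m + 4 * (rK m + 2) + 6 * bK + 63) *
      (2 ^ (μS x m / 2) * tolH (64 * K) (μS x m) 0 (q2 (2 * μS x m))) ≤ 1 := by
    have := ev_q2' (2 ^ 393 * (800000 * (64 * K) ^ 11)) (35 + c) (2 * c) (by omega) (κ := 1) one_pos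
    filter_upwards [this] with m hm
    refine le_trans ?_ hm
    have f1 : (2 : ℝ) ^ (μS x m / 2) ≤ 2 ^ (c * m) := by
      rw [hμ m]
      exact pow_le_pow_right₀ (by norm_num) (Nat.div_le_self _ _)
    have f2 : tolH (64 * K) (μS x m) 0 (q2 (2 * μS x m)) = 800000 * (64 * K) ^ 11 * q2 (2 * c * m) := by
      unfold tolH
      rw [hμ m, ← Nat.mul_assoc]
      ring
    have f3 : (2 : ℝ) ^ (3 * m + 28 * m + 4 * (rK m + 2) + 6 * bK + 63) = 2 ^ 393 * 2 ^ (35 * m) := by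
      rw [← pow_add]
      congr 1
      unfold rK bK
      ring
    have f4 : (2 : ℝ) ^ ((35 + c) * m) = 2 ^ (35 * m) * 2 ^ (c * m) := by
      rw [← pow_add]
      congr 1
      ring
    rw [f2, f3, f4]
    have q0 := q2_pos (2 * c * m)
    have p0 : (0 : ℝ) < 2 ^ (35 * m) := by positivity
    have k0 : (0 : ℝ) ≤ 800000 * (64 * K) ^ 11 := by positivity
    calc (2 : ℝ) ^ 393 * 2 ^ (35 * m) * (2 ^ (μS x m / 2) * (800000 * (64 * K) ^ 11 * q2 (2 * c * m)))
        ≤ (2 : ℝ) ^ 393 * 2 ^ (35 * m) * (2 ^ (c * m) * (800000 * (64 * K) ^ 11 * q2 (2 * c * m))) := by gcongr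
      _ = 2 ^ 393 * (800000 * (64 * K) ^ 11) * (2 ^ (35 * m) * 2 ^ (c * m)) * q2 (2 * c * m) := by ring
  -- `m` and `B`
  have e3 : ∀ m : ℕ, ∀ᶠ B : ℕ in atTop, 1 ≤ m → K * q2 (m * B) ≤ q2 (2 * μS x m) := by
    intro m
    have := ev_q2' K 0 1 (by omega) (κ := q2 (2 * μS x m)) (q2_pos _)
    filter_upwards [this] with B hB h1
    have h2 : q2 (m * B) ≤ q2 (1 * B) := q2_le (Nat.mul_le_mul_right B h1)
    have h3 : K * q2 (m * B) ≤ K * q2 (1 * B) := mul_le_mul_of_nonneg_left h2 (by linarith)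
    refine h3.trans ?_
    simpa using hB
  have g1 := Ev3.of_m (e1.and (e2.and (ev_nat 1)))
  have g2 : Ev3 fun m B _ => (1 ≤ m → K * q2 (m * B) ≤ q2 (2 * μS x m)) ∧ 8 * μS x m + m + 2 * μS x m + L ≤ B :=
    Ev3.of_B' fun m => (e3 m).and (ev_nat _)
  exact Ev3.mono2 g1 g2 fun m B h a b => ⟨a.2.2, b.2, b.1 a.2.2, a.1, a.2.1⟩

section

variable {η : ℝ} {x : ℕ} {σ : S5.Cst} {ε : ℝ} {ρ : Thr} {g : Gv} {m B h : ℕ}

/-- the numbers in the form of `HPw` -/
theorem hm_of (hρ : ρ.Ok) {L : ℕ} (N : NSt x ρ.K L m B h) :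
    HM ρ.K m B (μS x m) m (rK m) (pK x m) (pK x m) bK := by
  have h1 := μS_big x m
  have h2 := N.B8
  have h3 := N.m1
  have h4 : B ≤ m * B := Nat.le_mul_of_pos_left B h3
  exact
    { gμ := by omega
      pμ := le_rfl
      pB := by
        unfold pK
        omega
      rq := by
        unfold rK pK
        omega
      μB := by omega
      Kb := by
        have h5 := hρ.K2
        have h6 : (2 : ℝ) ^ bK = 9007199254740992 := by
          unfold bK
          norm_num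
        rw [h6]
        norm_num at h5
        linarith
      KB := by
        have h5 := N.KB
        have h6 := q2_pos (2 * μS x m)
        have h7 : (2 : ℝ) ≤ 2 ^ (μS x m / 2) := by
          calc (2 : ℝ) = 2 ^ 1 := (pow_one _).symm
            _ ≤ 2 ^ (μS x m / 2) := pow_le_pow_right₀ (by norm_num) (by omega)
        have h8 : 2 * q2 (2 * μS x m) ≤ 2 ^ (μS x m / 2) * q2 (2 * μS x m) := mul_le_mul_of_nonneg_right h7 h6.le
        unfold pK
        linarith
      Kη := N.Kη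
      ρ := N.ρ }

/-- the pair of a-steps of two levels -/
theorem pw_of (s : St η x σ ε ρ g m B h) {L : ℕ} (N : NSt x ρ.K L m B h) {w y z : ℕ} (H : PF s w y) (h1 : w ≤ z)
    (h2 : z ≤ y) (h8 : 8 * μS x m ≤ (y - z) * m) (hB : y - z ≤ B) :
    Pw s.R s.Vs B (μS x m) (ui s z) (ui s y) (y - z) := by
  have hm := s.run.hm
  have μ1 : 1 ≤ μS x m := by
    have := μS_big x m
    have := N.m1
    omega
  have hzy : z < y := by
    rcases h2.eq_or_lt with e | e
    · rw [e, Nat.sub_self, Nat.zero_mul] at h8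
      omega
    · exact e
  have Lz := H.lv z h1 h2
  have Ly := H.lv y (h1.trans h2) le_rfl
  have loS := s.f2.loS
  have loV := s.f2.loV
  rw [Nat.mul_add] at loS
  have rz := Lz.rf
  have ez := Lz.lev
  have ey := Ly.lev
  have a2 := Lz.a2
  exact
    { ji := (H.up z y h1 hzy le_rfl).le
      inn := Ly.kn.le
      Vj := by rw [Lz.lv]; exact Lz.V
      Vi := by rw [Ly.lv]; exact Ly.V
      mix := by omega
      ai := by
        rw [ez, ey, ← Nat.add_mul]
        congr 1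
        omega
      ri := H.rk z y h1 h2 le_rfl
      dB := hB
      dμ := by rw [hm]; exact h8
      a2 := a2
      a0 := by omega }

end

/-- **[ST]** -/
theorem stP : H495.RK.StP := by
  intro b hb η hη x δh e3 hx hδh he3
  refine ⟨1, one_pos, fun θ hθ hθ' => ⟨1, one_pos, fun δ1 hδ hδ' σ hσ hσo => ⟨1, one_pos, fun ε hε hε' ρ hρ => ?_⟩⟩⟩
  refine ⟨max (cLb ρ.K) 0, le_max_right _ _, fun L => Suf.of_ev3 fun g hg => ?_⟩
  have e := (ev_NSt x ρ.K hρ.K1 L).and (cx_ev (σ := σ) (ρ := ρ) hσo hρ)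
  refine (e.mono ?_).out
  rintro m B h ⟨N, C⟩ s w y H hwy hyL
  have hm := s.run.hm
  have m1 := N.m1
  have N8 := N.B8
  have hB : B ≤ m * B := Nat.le_mul_of_pos_left B m1
  have X := C η x ε g s (by omega)
  have hμ2 : 2 * μS x m ≤ s.R.C.μ := by
    rw [s.run.hμ]
    omega
  have hd : 8 * μS x m ≤ (y - (w + 1)) * m := by
    rw [← MuS_eq]
    refine Nat.mul_le_mul_right m ?_
    unfold KrK at hwy
    omega
  have hd' : 8 * μS x m ≤ (y - w) * m := hd.trans (Nat.mul_le_mul_right m (by omega))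
  have T := pw_of s N H le_rfl (by omega) hd' (by omega)
  have T' := pw_of s N H (z := w + 1) (by omega) (by omega) hd (by omega)
  have ed : y - (w + 1) = y - w - 1 := by omega
  rw [ed] at T'
  have N' : HM ρ.K s.R.m B (μS x m) m (rK m) (pK x m) (pK x m) bK := by
    rw [hm]
    exact hm_of hρ N
  have Lw := H.lv w le_rfl (by omega)
  have Lw' := H.lv (w + 1) (by omega) (by omega)
  have jj : ui s w ≤ ui s (w + 1) := (H.up w (w + 1) le_rfl (by omega) (by omega)).le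
  have aj : s.R.C.a (ui s (w + 1)) = s.R.C.a (ui s w) + s.R.m := by
    rw [Lw.lev, Lw'.lev]
    ring
  have rj : s.R.C.rk (ui s (w + 1)) = s.R.C.rk (ui s w) + s.R.m := by
    rw [H.rk w (w + 1) le_rfl (by omega) (by omega), Nat.add_sub_cancel_left, Nat.one_mul]
  have hA : ∀ ω, 0 < s.R.Q.w ω → s.F.Ao (lv s.R (ui s (w + 1))) ω = s.F.Ao (lv s.R (ui s w)) ω := by
    intro ω hω
    rw [Lw.lv, Lw'.lv]
    exact H.ao w (w + 1) le_rfl (by omega) (by omega) ω hω
  have mR : (m : ℝ) = (s.R.m : ℝ) := by rw [hm]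
  constructor
  · have key := T.hs X T' N' hμ2 jj aj rj hA (drK_rep s) (c₁ := ρ.c') hρ.c'0
      (ι₁ := I1z s (w + 1) y) (ι₂ := I2z s (w + 1) y) le_rfl le_rfl
    have e1 : A0K m ρ.c' = 10 * 2 ^ (4 * s.R.m + 42 * m + 6 * (rK m + 2) + 8 * bK + 97) / (ρ.c' / 2) := by
      unfold A0K
      rw [hm]
    have e2 := le_max_left (cLb ρ.K) 0
    rw [e1, mR]
    refine le_trans ?_ key
    linarith
  · exact (T.hA X T' N' hμ2 jj aj rj hA (drK_rep s)).trans (le_max_left _ _)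

end Vale.Agent.P106.U.H572.StP
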