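import Vale.Agent.P106.U.H572.SatGU

/-!
# P106 / U / H572 : the digits of a diagonal step of type (ii) (helper572)

`fl_split`, `fl_far`, `fl_near` : coarse digits `fl1 s` against fine digits `fl1 (s + q)`.
`xv`, `xS` : the letter `(direction, curvature)` and the time difference, read from the digits.
**`hdig`** : `satG_unk` with all its hypotheses on the letters discharged from the digits
`fl1 b v` (of `D`), `fl1 (b + p) v`, `fl1 (R + q) z` (of `W`), `fl1 (a + o) t` (of `Θ`).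
-/

set_option autoImplicit false

namespace Vale.Agent.P106.U.H572.HDig

open Finset Vale.Agent.P127 Vale.Agent.P127.Stk Vale.Agent.P127.U.Pin Vale.Agent.P127.U.Mic
open Vale.Agent.P127.U.CellD Vale.Agent.P127.TV
open Vale.Agent.P106.TV Vale.Agent.P106.U.H683 Vale.Agent.P106.H25
open Vale.Agent.P106.U Vale.Agent.P106.U.H572 Vale.Agent.P106.U.H572.SatGU

/-! ### digits -/

theorem fl_split (s q : ℕ) (x : ℝ) :
    (2 : ℤ) ^ q * fl1 s x ≤ fl1 (s + q) x ∧ fl1 (s + q) x < (2 : ℤ) ^ q * (fl1 s x + 1) := by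
  have e : (2 : ℝ) ^ (s + q) * x = 2 ^ q * (2 ^ s * x) := by rw [pow_add]; ring
  have hq : (0 : ℝ) < 2 ^ q := by positivity
  unfold fl1
  rw [e]
  constructor
  · rw [Int.le_floor]
    push_cast
    exact mul_le_mul_of_nonneg_left (Int.floor_le _) hq.le
  · rw [Int.floor_lt]
    push_cast
    exact mul_lt_mul_of_pos_left (Int.lt_floor_add_one _) hq

theorem fl_far {s q : ℕ} {x y : ℝ} (h : ¬ |fl1 s x - fl1 s y| ≤ ((1 : ℕ) : ℤ)) :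
    (2 : ℝ) ^ q ≤ |(fl1 (s + q) x : ℝ) - fl1 (s + q) y| := by
  obtain ⟨x1, x2⟩ := fl_split s q x
  obtain ⟨y1, y2⟩ := fl_split s q y
  have hq : (0 : ℤ) < 2 ^ q := by positivity
  have key : (2 : ℤ) ^ q ≤ |fl1 (s + q) x - fl1 (s + q) y| := by
    rw [abs_le] at h
    rw [le_abs]
    by_cases c : fl1 s y + 2 ≤ fl1 s x
    · left
      have : (2 : ℤ) ^ q * (fl1 s y + 2) ≤ 2 ^ q * fl1 s x := mul_le_mul_of_nonneg_left c hq.le
      linarith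
    · right
      have c' : fl1 s x + 2 ≤ fl1 s y := by
        by_contra h2
        apply h
        push_cast
        constructor <;> omega
      have : (2 : ℤ) ^ q * (fl1 s x + 2) ≤ 2 ^ q * fl1 s y := mul_le_mul_of_nonneg_left c' hq.le
      linarith
  have := (Int.cast_le (R := ℝ)).2 key
  push_cast at this
  exact this

theorem fl_near {s q : ℕ} {x y : ℝ} (h : fl1 s x = fl1 s y) :
    |(fl1 (s + q) x : ℝ) - fl1 (s + q) y| ≤ 2 ^ q := by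
  obtain ⟨x1, x2⟩ := fl_split s q x
  obtain ⟨y1, y2⟩ := fl_split s q y
  rw [h] at x1 x2
  have key : |fl1 (s + q) x - fl1 (s + q) y| ≤ (2 : ℤ) ^ q := by
    rw [abs_le]
    constructor <;> linarith
  have := (Int.cast_le (R := ℝ)).2 key
  push_cast at this
  exact this

theorem fl_digit (s q : ℕ) (x : ℝ) :
    0 ≤ (fl1 (s + q) x : ℝ) / 2 ^ q - fl1 s x ∧ (fl1 (s + q) x : ℝ) / 2 ^ q - fl1 s x ≤ 1 := by
  obtain ⟨x1, x2⟩ := fl_split s q x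
  have hq : (0 : ℝ) < 2 ^ q := by positivity
  have h1 := (Int.cast_le (R := ℝ)).2 x1
  have h2 := (Int.cast_lt (R := ℝ)).2 x2
  push_cast at h1 h2
  constructor
  · rw [sub_nonneg, le_div_iff₀ hq]
    linarith
  · rw [sub_le_iff_le_add, div_le_iff₀ hq]
    linarith

theorem fl_val (s q : ℕ) (x : ℝ) : |(fl1 (s + q) x : ℝ) / 2 ^ q - 2 ^ s * x| ≤ q2 q := by
  have hq : (0 : ℝ) < 2 ^ q := by positivity
  have e : (2 : ℝ) ^ (s + q) * x = 2 ^ q * (2 ^ s * x) := by rw [pow_add]; ring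
  have h1 : (fl1 (s + q) x : ℝ) ≤ 2 ^ q * (2 ^ s * x) := by
    unfold fl1; rw [e]; exact Int.floor_le _
  have h2 : 2 ^ q * (2 ^ s * x) < (fl1 (s + q) x : ℝ) + 1 := by
    unfold fl1; rw [e]; exact Int.lt_floor_add_one _
  have e3 : (fl1 (s + q) x : ℝ) / 2 ^ q - 2 ^ s * x = ((fl1 (s + q) x : ℝ) - 2 ^ q * (2 ^ s * x)) / 2 ^ q := by
    field_simp
  rw [e3, abs_div, abs_of_pos hq, div_le_iff₀ hq]
  have e4 : q2 q * 2 ^ q = 1 := by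
    rw [mul_comm]
    exact q2_mul_pow q
  rw [e4, abs_le]
  constructor <;> linarith

theorem q2p (g : ℕ) : q2 g * (2 : ℝ) ^ g = 1 := by
  rw [mul_comm]
  exact q2_mul_pow g

theorem q2_one (g : ℕ) : q2 g ≤ 1 := by
  have h := q2p g
  have h1 : (1 : ℝ) ≤ 2 ^ g := one_le_pow₀ (by norm_num)
  have h2 := q2_pos g
  nlinarith

theorem q2_sp {g o : ℕ} (h : g ≤ o) : q2 g * (2 : ℝ) ^ o = 2 ^ (o - g) := by
  have : (2 : ℝ) ^ o = 2 ^ g * 2 ^ (o - g) := by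
    rw [← pow_add]
    congr 1
    omega
  rw [this, ← mul_assoc, q2p, one_mul]

/-! ### the letters -/

variable {Ω : Type} [Fintype Ω] {A B T G : Type*}

/-- the letter `(direction, curvature)` from the digits -/
noncomputable def xv (dv dg : A → ℝ) (yv yz : B → ℤ) (p q : ℕ) (d : A) (w : B) : ℝ × ℝ :=
  ((yv w : ℝ) / 2 ^ p - dv d, (yz w : ℝ) / 2 ^ q - dg d)

/-- the time difference from the digits -/
noncomputable def xS (th : T → ℤ) (o : ℕ) (_ : A) (θ θ' : T) : ℝ :=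
  ((th θ' : ℝ) - th θ) / 2 ^ o

/-- the digit data of a diagonal step of type (ii) -/
structure Dig (P : Law Ω) (D : Ω → A) (Θ : Ω → T) (W : Ω → B) (dv dg : A → ℝ) (yv yz : B → ℤ) (th : T → ℤ)
    (t v z : Ω → ℝ) (a b R p q o b0 : ℕ) : Prop where
  dt : ∀ ω ω', 0 < P.w ω → 0 < P.w ω' → D ω' = D ω → fl1 a (t ω') = fl1 a (t ω)
  th : ∀ ω, 0 < P.w ω → th (Θ ω) = fl1 (a + o) (t ω)
  dv : ∀ ω, 0 < P.w ω → dv (D ω) = fl1 b (v ω)
  yv : ∀ ω, 0 < P.w ω → yv (W ω) = fl1 (b + p) (v ω)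
  yz : ∀ ω, 0 < P.w ω → yz (W ω) = fl1 (R + q) (z ω)
  dg : ∀ ω, 0 < P.w ω → |2 ^ R * z ω - dg (D ω)| ≤ 2 ^ b0 - 1

namespace Dig

variable {P : Law Ω} {D : Ω → A} {Θ : Ω → T} {W : Ω → B} {dv dg : A → ℝ} {yv yz : B → ℤ} {th : T → ℤ}
  {t v z : Ω → ℝ} {a b R p q o b0 : ℕ} (X : Dig P D Θ W dv dg yv yz th t v z a b R p q o b0)
include X

theorem x_eq {ω : Ω} (h : 0 < P.w ω) : xv dv dg yv yz p q (D ω) (W ω) =
    ((fl1 (b + p) (v ω) : ℝ) / 2 ^ p - fl1 b (v ω), (fl1 (R + q) (z ω) : ℝ) / 2 ^ q - dg (D ω)) := by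
  unfold xv
  rw [X.dv ω h, X.yv ω h, X.yz ω h]

theorem S_eq {ω ω' : Ω} (h : 0 < P.w ω) (h' : 0 < P.w ω') (d : A) : xS th o d (Θ ω) (Θ ω') =
    ((fl1 (a + o) (t ω') : ℝ) - fl1 (a + o) (t ω)) / 2 ^ o := by
  unfold xS
  rw [X.th ω h, X.th ω' h']

theorem S1 (ω ω' : Ω) (h : 0 < P.w ω) (h' : 0 < P.w ω') (e : D ω' = D ω) :
    |xS th o (D ω) (Θ ω) (Θ ω')| ≤ 1 := by
  have hq : (0 : ℝ) < 2 ^ o := by positivity
  rw [X.S_eq h h', abs_div, abs_of_pos hq, div_le_iff₀ hq, one_mul]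
  exact fl_near (X.dt ω ω' h h' e)

theorem S2 {g : ℕ} (hg : g ≤ o) (ω ω' : Ω) (h : 0 < P.w ω) (h' : 0 < P.w ω')
    (e : ¬ |fl1 (a + g) (t ω) - fl1 (a + g) (t ω')| ≤ ((1 : ℕ) : ℤ)) :
    q2 g ≤ |xS th o (D ω) (Θ ω) (Θ ω')| := by
  have hq : (0 : ℝ) < 2 ^ o := by positivity
  rw [X.S_eq h h', abs_div, abs_of_pos hq, le_div_iff₀ hq]
  have h1 := fl_far (q := o - g) e
  rw [show a + g + (o - g) = a + o by omega] at h1
  rw [abs_sub_comm]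
  exact (le_of_eq (q2_sp hg)).trans h1

theorem ok1 (ω ω' : Ω) (h' : 0 < P.w ω') (e : D ω' = D ω) :
    OkX b0 (xv dv dg yv yz p q (D ω) (W ω')) := by
  rw [← e, X.x_eq h']
  have h1 := fl_digit b p (v ω')
  refine ⟨h1.1, h1.2, ?_⟩
  have h2 := abs_le.1 (fl_val R q (z ω'))
  have h3 := abs_le.1 (X.dg ω' h')
  have h4 : q2 q ≤ 1 := q2_one q
  show |(fl1 (R + q) (z ω') : ℝ) / 2 ^ q - dg (D ω')| ≤ 2 ^ b0
  rw [abs_le]
  constructor <;> linarith [h2.1, h2.2, h3.1, h3.2]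

theorem y2 {g : ℕ} (hg : g ≤ p) (ω a' c : Ω) (h1 : 0 < P.w a') (h2 : 0 < P.w c)
    (e : ¬ |fl1 (b + g) (v a') - fl1 (b + g) (v c)| ≤ ((1 : ℕ) : ℤ)) :
    q2 g ≤ |(xv dv dg yv yz p q (D ω) (W a')).1 - (xv dv dg yv yz p q (D ω) (W c)).1| := by
  have hq : (0 : ℝ) < 2 ^ p := by positivity
  have e0 : (xv dv dg yv yz p q (D ω) (W a')).1 - (xv dv dg yv yz p q (D ω) (W c)).1 =
      ((fl1 (b + p) (v a') : ℝ) - fl1 (b + p) (v c)) / 2 ^ p := by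
    show ((yv (W a') : ℝ) / 2 ^ p - dv (D ω)) - ((yv (W c) : ℝ) / 2 ^ p - dv (D ω)) = _
    rw [X.yv a' h1, X.yv c h2]
    ring
  rw [e0, abs_div, abs_of_pos hq, le_div_iff₀ hq]
  have h1 := fl_far (q := p - g) e
  rw [show b + g + (p - g) = b + p by omega] at h1
  exact (le_of_eq (q2_sp hg)).trans h1

theorem k2 {r : ℕ} (hr : r ≤ q) (ω a' c : Ω) (h1 : 0 < P.w a') (h2 : 0 < P.w c)
    (e : ¬ |fl1 (R + r) (z a') - fl1 (R + r) (z c)| ≤ ((1 : ℕ) : ℤ)) :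
    q2 r ≤ |(xv dv dg yv yz p q (D ω) (W a')).2 - (xv dv dg yv yz p q (D ω) (W c)).2| := by
  have hq : (0 : ℝ) < 2 ^ q := by positivity
  have e0 : (xv dv dg yv yz p q (D ω) (W a')).2 - (xv dv dg yv yz p q (D ω) (W c)).2 =
      ((fl1 (R + q) (z a') : ℝ) - fl1 (R + q) (z c)) / 2 ^ q := by
    show ((yz (W a') : ℝ) / 2 ^ q - dg (D ω)) - ((yz (W c) : ℝ) / 2 ^ q - dg (D ω)) = _
    rw [X.yz a' h1, X.yz c h2]
    ring
  rw [e0, abs_div, abs_of_pos hq, le_div_iff₀ hq]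
  have h1 := fl_far (q := q - r) e
  rw [show R + r + (q - r) = R + q by omega] at h1
  exact (le_of_eq (q2_sp hr)).trans h1

/-- **THE WEAK SATURATION FROM THE DIGITS** -/
theorem hdig {E : Ω → G} {XX : Ω → Fin 4 → ℝ} {MM : Ω → ℝ} {ρ : ℝ}
    (geo : GeoR P D Θ W E (xv dv dg yv yz p q) (RH XX MM (xS th o) (fun _ _ _ => 0) ρ))
    {m g r pp : ℕ} (hpp : pp ≤ m) (hg : g ≤ p) (hgo : g ≤ o) (hr : r ≤ q)
    (hρ0 : 0 ≤ ρ) (hρ : 2 ^ (3 * m + 28 * g + 4 * r + 6 * b0 + 63) * ρ ≤ 1) {c pA ι₁ ι₂ : ℝ}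
    (hc0 : 0 < c) {κ : Type*} (Bu : κ → Ω → Prop) (x : Ω → κ)
    (hB : ∀ a b, 0 < P.w a → 0 < P.w b → |fl1 (R + r) (z a) - fl1 (R + r) (z b)| ≤ ((2 : ℕ) : ℤ) → Bu (x a) b)
    (hu : P.ex (fun ω => Law.ind (∃ x, (1 - c) * P.pr D (D ω) <
      prE P (fun ω' => D ω' = D ω ∧ Bu x ω'))) ≤ pA)
    (h1 : mi P (fun ω => (fl1 (b + p) (v ω), fl1 (R + q) (z ω))) E (fun ω => (D ω, Θ ω)) ≤ ι₁)
    (h2 : mi P Θ W D ≤ ι₂) :
    4 * pp * Real.log 2 - (23 + 3 * b0 + 4 * m * (pA + 6 * colp P (fun ω => fl1 (a + g) (t ω)) D +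
      300 * colp P (fun ω => fl1 (b + g) (v ω)) D) +
      10 * 2 ^ (4 * m + 42 * g + 6 * r + 8 * b0 + 97) / c * (Real.sqrt ι₁ + Real.sqrt ι₂)) ≤
    hc P (fun ω => lbH 1 (XX ω) (MM ω)) (fun ω => (lbH (2 ^ pp) (XX ω) (MM ω), (D ω, Θ ω))) := by
  refine satG_unk P geo hpp (fun ω => fl1 (a + g) (t ω)) (fun ω => fl1 (b + g) (v ω)) (fun ω => fl1 (R + r) (z ω))
    X.S1 ?_ (fun ω ω' _ h' e => X.ok1 ω ω' h' e) (fun ω ω' h h' _ e => X.S2 hgo ω ω' h h' e)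
    (fun ω a' c _ h1 h2 _ _ e => X.y2 hg ω a' c h1 h2 e)
    (fun ω a' c _ h1 h2 _ _ e => X.k2 hr ω a' c h1 h2 e) hρ0 hρ hc0 Bu x hB hu ?_ h2
  · intro ω ω' _ _ _
    simp
  · refine le_trans (mi_mono_left P E ?_) h1
    intro ω ω' p1 p2 e
    simp only [Prod.mk.injEq] at e
    obtain ⟨⟨e1, e2⟩, e3, -⟩ := e
    show xv dv dg yv yz p q (D ω) (W ω) = xv dv dg yv yz p q (D ω') (W ω')
    rw [X.x_eq p1, X.x_eq p2, e1, e2, e3]
    have h4 := X.dv ω p1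
    rw [e3, X.dv ω' p2] at h4
    rw [h4]

end Dig

end Vale.Agent.P106.U.H572.HDig
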