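import Vale.Agent.P106.U.H572.HRow

/-!
# P106 / U / H572 : the step of the windows of kind 1, pointwise form (helper572)

As `HRow`, but only facts at the two a-steps `j`, `j'` and at the late a-step `i` are used (`Pw`).
-/

set_option autoImplicit false

namespace Vale.Agent.P106.U.H572.HStep

open Finset Vale.Agent.P127 Vale.Agent.P127.Stk Vale.Agent.P127.U.Pin Vale.Agent.P127.U.Mic
open Vale.Agent.P127.U.CellD Vale.Agent.P127.TV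
open Vale.Agent.P106.TV Vale.Agent.P106.H25
open Vale.Agent.P106.U Vale.Agent.P106.U.Cell Vale.Agent.P106.U.H572 Vale.Agent.P106.U.H572.HDig
open Vale.Agent.P106.U.H466 Vale.Agent.P106.U.H785.Mtr
open Vale.Agent.P106.U.S3 (Run Pf F2 mt lv LTh LDk kaL unL)
open Vale.Agent.P106.U.H786.SC (Cx cc1)

variable {Ω : Type} [Fintype Ω] {τ υ π : Type} {R : Run Ω τ υ} {F : Pf R π} {μ : ℕ} {o : Fin 7 → ℝ} {o' : ℕ → ℝ}
  {p : Run.Num} {K c' g' gU c εc K' : ℝ} {B bS bV : ℕ} {Vs Xs Cu : Finset ℕ} {j j' i d : ℕ}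

/-- numbers of a scale -/
structure HM (K : ℝ) (m B μ g r' pv q b0 : ℕ) : Prop where
  gμ : g ≤ μ
  pμ : 2 * μ ≤ pv
  pB : pv ≤ m * B
  rq : r' + 2 ≤ q
  μB : 8 * μ + m ≤ m * B
  Kb : 2 * K + 1 ≤ 2 ^ b0
  KB : K * q2 (m * B) + q2 q ≤ 2 ^ (μ / 2) * q2 (2 * μ)
  Kη : 4 * (32 * K) ^ 4 * q2 μ ≤ 1
  ρ : 2 ^ (3 * m + 28 * g + 4 * (r' + 2) + 6 * b0 + 63) * (2 ^ (μ / 2) * tolH (64 * K) μ 0 (q2 (2 * μ))) ≤ 1

/-- a young a-step `j` of the kappa regime and a later young a-step `i`, `d` levels apart, on the diagonal -/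
structure Pw (R : Run Ω τ υ) (Vs : Finset ℕ) (B μ j i d : ℕ) : Prop where
  ji : j ≤ i
  inn : i ≤ R.n
  Vj : lv R j ∈ Vs
  Vi : lv R i ∈ Vs
  mix : R.m * R.b1 + R.C.rk j + R.m * B ≤ R.C.rf j
  ai : R.C.a i = R.C.a j + d * R.m
  ri : R.C.rk i = R.C.rk j + d * R.m
  dB : d ≤ B
  dμ : 8 * μ ≤ d * R.m
  a2 : 2 * μ ≤ R.C.a j
  a0 : 0 < R.C.a j

namespace Pw

theorem yj (T : Pw R Vs B μ j i d) : j ∈ YI R p Vs := by
  have h1 := T.inn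
  have h2 := T.ji
  exact ⟨by omega, T.Vj⟩

theorem yi (T : Pw R Vs B μ j i d) : i ∈ YI R p Vs := by
  have h1 := T.inn
  exact ⟨by omega, T.Vi⟩

section ctx

variable (h : Cx R p K c' g' gU c εc B bS bV F Vs Xs μ K' o o')
include h

theorem numM (T : Pw R Vs B μ j i d) {g r' pv q b0 : ℕ} (N : HM K R.m B μ g r' pv q b0) (hμ2 : 2 * μ ≤ R.C.μ) :
    NumM R (mt R F μ o o') j i (R.m * R.b1) (R.m * R.b1 + 8 * μ) bV :=
  numM_mt h.ok h.f2 h.r0 h.cap.low.le h.μB hμ2 (T.ji.trans T.inn) T.Vj T.mix T.ji T.ai T.ri T.dB T.dμ N.μB T.a2 T.a0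

theorem numH (T : Pw R Vs B μ j i d) {g r' pv q b0 : ℕ} (N : HM K R.m B μ g r' pv q b0) :
    NumH R K μ B (R.m * R.b1) bV j i R.m g r' pv q b0 (q2 (2 * μ)) := by
  have hμB := h.μB
  have hmB := h.mB
  have hr := h.r0
  have hk := h.rk_ge j
  have N1 := N.μB
  have loS := h.f2.loS
  have loV := h.f2.loV
  rw [Nat.mul_add] at loS
  have a1 := T.ai
  have a3 := T.dμ
  have Ng := N.gμ
  have Np := N.pμ
  have NB := N.pB
  exact
    { νk := by omega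
      bp := by omega
      gp := by omega
      ga := by omega
      rq := N.rq
      mB := by omega
      p1 := HDig.q2_one _
      p2 := q2_le Np
      p3 := N.KB
      Kb := N.Kb
      ρ := N.ρ }

/-- **the cells are nearly nested** -/
theorem hN (hjk : j ≤ i) (hin : i ≤ R.n) (Vj : lv R j ∈ Vs) (Vi : lv R i ∈ Vs)
    (mix : R.m * R.b1 + R.C.rk j + R.m * B ≤ R.C.rf j) :
    hc R.Q ((mt R F μ o o').mtr j (R.m * R.b1)) ((mt R F μ o o').mtr i (R.m * R.b1)) ≤ H683.FzA.cM (4 * K) := by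
  have K1 := h.K1
  have hb := h.b8
  have hμB := h.μB
  have hmB := h.mB
  have hr := h.r0
  have hk := h.rk_ge j
  have hpf : ∀ i, j ≤ i → i ≤ R.n + p.J → Stk.Fn R.Q (F.pf j) (F.pf i) := by
    intro i hij
    induction i, hij using Nat.le_induction with
    | base => exact fun _ _ _ _ _ e => e
    | succ i hi ih =>
      intro hi' ω ω' p1 p2 e
      exact ih (by omega) ω ω' p1 p2 (h.f2.pfH i (by omega) ω ω' p1 p2 e)
  refine H683.FzA.hc_mtr (I := YI R p Vs) R.Q (by linarith)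
    (fun ω hω => hy_mt h.ok h.f2 h.K1 h.KB h.r0 h.μB h.μC hω) ⟨by omega, Vj⟩ ⟨by omega, Vi⟩ hjk ?_ ?_
    (H683.FzA.hc_lt_mtr (I := YI R p Vs) R.Q (by linarith)
      (fun ω hω => hy_mt h.ok h.f2 h.K1 h.KB h.r0 h.μB h.μC hω) ⟨by omega, Vj⟩ ⟨by omega, Vi⟩ hjk ?_
      (hpf i hjk (by omega)))
  · show 8 * μ ≤ R.m * R.b1
    omega
  · show 8 * μ ≤ min (R.C.rk j - μ / 2 + R.m * R.b1) (R.C.rf j)
    omega
  · show μ ≤ R.m * R.b1
    omega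

/-- **the junction at the last step** -/
theorem hJ (T : Pw R Vs B μ j i d) {g r' pv q b0 : ℕ} (N : HM K R.m B μ g r' pv q b0)
    (hμ2 : 2 * μ ≤ R.C.μ) {dr : ℕ → Ω → Ω}
    (hdr : Rep (fun ω => 0 < R.Q.w ω) (((mt R F μ o o').p1 j).cell j (R.m * R.b1)) (dr j)) :
    hc R.Q (AV (mt R F μ o o') (R.m * R.b1) i dr j)
      (fun ω => (fl1 (R.C.a i) (R.C.t ω), (mt R F μ o o').mtr j (R.m * R.b1) ω)) ≤
      18 * μ * Real.log 2 + 9 * Real.log (64 * K) + 16 := by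
  have hn := T.inn
  have ji := T.ji
  have hμ : μ ≤ R.C.μ := h.μC
  have X := lctx_run (I := YI R p Vs) (ofR_mt (F := F) (o := o) (o' := o') hμ) h.ok h.K1 (T.numM h N hμ2)
    (by omega) (fun ω hω => hy_mt h.ok h.f2 h.K1 h.KB h.r0 h.μB h.μC hω) T.yj T.yi
  exact H958.hJ_V R.Q X hdr (Nat.div_le_self μ 2) (fun ω => fl1 (R.C.a i) (R.C.t ω)) fun ω ω' _ _ e => e

/-- **the context of 25** : two consecutive a-steps -/
theorem vctx (T : Pw R Vs B μ j i d) (T' : Pw R Vs B μ j' i (d - 1)) {g r' pv q b0 : ℕ}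
    (N : HM K R.m B μ g r' pv q b0) (hμ2 : 2 * μ ≤ R.C.μ)
    (jj : j ≤ j') (aj : R.C.a j' = R.C.a j + R.m) (rj : R.C.rk j' = R.C.rk j + R.m)
    (hA : ∀ ω, 0 < R.Q.w ω → F.Ao (lv R j') ω = F.Ao (lv R j) ω) :
    VCtx (mt R F μ o o') (fun ω => 0 < R.Q.w ω) (4 * K) (YI R p Vs) j j' i (R.m * R.b1) R.m := by
  have hb := h.b8
  have hμB := h.μB
  exact vctx_mt h.ok h.f2 h.K1 h.KB h.r0 hμB hμ2 N.Kη T.yj T'.yj T.yi
    jj T'.ji aj rj (by omega) T.a2 T.a0 hA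

theorem hD (T : Pw R Vs B μ j i d) (T' : Pw R Vs B μ j' i (d - 1)) (jj : j ≤ j') :
    hc R.Q ((mt R F μ o o').mtr j (R.m * R.b1))
      (fun ω => ((mt R F μ o o').mtr j' (R.m * R.b1) ω, fl1 (R.C.a i) (R.C.t ω))) ≤ H683.FzA.cM (4 * K) :=
  (hc_mono_right R.Q _ fun _ _ _ _ e => congrArg Prod.fst e).trans
    (hN h jj (T'.ji.trans T'.inn) T.Vj T'.Vj T.mix)

/-- **the chain** : two consecutive a-steps -/
theorem hA (T : Pw R Vs B μ j i d) (T' : Pw R Vs B μ j' i (d - 1)) {g r' pv q b0 : ℕ}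
    (N : HM K R.m B μ g r' pv q b0) (hμ2 : 2 * μ ≤ R.C.μ)
    (jj : j ≤ j') (aj : R.C.a j' = R.C.a j + R.m) (rj : R.C.rk j' = R.C.rk j + R.m)
    (hA : ∀ ω, 0 < R.Q.w ω → F.Ao (lv R j') ω = F.Ao (lv R j) ω) {dr : ℕ → Ω → Ω}
    (hdr : ∀ k, Rep (fun ω => 0 < R.Q.w ω) (((mt R F μ o o').p1 k).cell k (R.m * R.b1)) (dr k)) :
    hc R.Q (AV (mt R F μ o o') (R.m * R.b1) i dr j)
      (fun ω => (AV (mt R F μ o o') (R.m * R.b1) i dr j' ω, fl1 (R.C.a i) (R.C.t ω))) ≤ cLb K := by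
  have X := T.vctx h T' N hμ2 jj aj rj hA
  refine X.step_hA (hdr j) (hdr j') (Θ := fun ω => fl1 (R.C.a i) (R.C.t ω)) ?_ ⌈160 * (32 * K) ^ 9⌉₊ ?_ (T.hD h T' jj)
  · intro ω ω' _ _ e
    show rd (R.C.a i) (R.C.t ω') = rd (R.C.a i) (R.C.t ω)
    unfold rd
    rw [e]
  · rw [show 8 * (4 * K) = 32 * K by ring]
    exact Nat.le_ceil _

/-- **THE STEP INEQUALITY OF THE WINDOWS OF KIND 1** -/
theorem hs (T : Pw R Vs B μ j i d) (T' : Pw R Vs B μ j' i (d - 1)) {g r' pv q b0 : ℕ}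
    (N : HM K R.m B μ g r' pv q b0) (hμ2 : 2 * μ ≤ R.C.μ)
    (jj : j ≤ j') (aj : R.C.a j' = R.C.a j + R.m) (rj : R.C.rk j' = R.C.rk j + R.m)
    (hA : ∀ ω, 0 < R.Q.w ω → F.Ao (lv R j') ω = F.Ao (lv R j) ω) {dr : ℕ → Ω → Ω}
    (hdr : ∀ k, Rep (fun ω => 0 < R.Q.w ω) (((mt R F μ o o').p1 k).cell k (R.m * R.b1)) (dr k))
    {c₁ ι₁ ι₂ : ℝ} (hc0 : 0 < c₁)
    (h1 : mi R.Q (xH R F (R.m * R.b1) pv q j') ((mt R F μ o o').mtr i (R.m * R.b1))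
      (fun ω => (LDk ((mt R F μ o o').fz j' j') (R.m * R.b1) j' ω, LTh ((mt R F μ o o').fz j' j') (R.m * R.b1) i ω)) ≤ ι₁)
    (h2 : mi R.Q (LTh ((mt R F μ o o').fz j' j') (R.m * R.b1) i) (WH R F μ o o' B bV j')
      (LDk ((mt R F μ o o').fz j' j') (R.m * R.b1) j') ≤ ι₂) :
    4 * R.m * Real.log 2 - (23 + 3 * b0 + cLb K + 1200 * R.m * cc1 R F μ o o' c₁ g (R.m * R.b1) (BfH R F r') j' +
      10 * 2 ^ (4 * R.m + 42 * g + 6 * (r' + 2) + 8 * b0 + 97) / (c₁ / 2) * (Real.sqrt ι₁ + Real.sqrt ι₂)) ≤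
    hc R.Q (AV (mt R F μ o o') (R.m * R.b1) i dr j')
      (fun ω => (AV (mt R F μ o o') (R.m * R.b1) i dr j ω,
        ((mt R F μ o o').mtr j' (R.m * R.b1) ω, fl1 (R.C.a i) (R.C.t ω)))) := by
  have hn := T.inn
  have X := T.vctx h T' N hμ2 jj aj rj hA
  have hreg : R.m * R.b1 + R.C.rk j' < R.C.rf j' := by
    have h3 := T'.mix
    have h4 := h.mB
    have h5 := h.B1
    omega
  have E := hstep (I := YI R p Vs) h.ok h.f2 h.K1 (T'.numM h N hμ2) (T'.numH h N)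
    (fun ω hω => hy_mt h.ok h.f2 h.K1 h.KB h.r0 h.μB h.μC hω) T'.yj T'.yi (by omega)
    T'.Vj hreg (hdr j') (c₀ := c₁ / 2) (by linarith) le_rfl h1 h2
  have S := X.step_hs (hdr j) (hdr j') (Θ := fun ω => fl1 (R.C.a i) (R.C.t ω)) (fun ω ω' _ _ e => by
    show rd (R.C.a i) (R.C.t ω') = rd (R.C.a i) (R.C.t ω)
    unfold rd
    rw [e]) ⌈160 * (32 * K) ^ 9⌉₊ (by
    rw [show 8 * (4 * K) = 32 * K by ring]
    exact Nat.le_ceil _) (T.hD h T' jj) le_rfl E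
  refine le_trans ?_ S
  have c1 := colp_nonneg R.Q (fun ω => fl1 (R.C.a j' + g) (R.C.t ω)) ((mt R F μ o o').mtr j' (R.m * R.b1))
  have m0 : (0 : ℝ) ≤ R.m := Nat.cast_nonneg _
  have p0 : 0 ≤ R.Q.ex (fun ω => Law.ind (∃ x, (1 - c₁ / 2) * R.Q.pr ((mt R F μ o o').mtr j' (R.m * R.b1))
      ((mt R F μ o o').mtr j' (R.m * R.b1) ω) < prE R.Q (fun ω' => (mt R F μ o o').mtr j' (R.m * R.b1) ω' =
        (mt R F μ o o').mtr j' (R.m * R.b1) ω ∧ BfH R F r' j' x ω'))) :=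
    R.Q.ex_nonneg fun ω _ => Vale.Agent.P127.U.Mic.ind_nonneg _
  unfold cLb cc1
  have k1 : 0 ≤ (R.m : ℝ) * colp R.Q (fun ω => fl1 (R.C.a j' + g) (R.C.t ω)) ((mt R F μ o o').mtr j' (R.m * R.b1)) :=
    mul_nonneg m0 c1
  have k2 := mul_nonneg m0 p0
  nlinarith

end ctx

end Pw

end Vale.Agent.P106.U.H572.HStep
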