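import Vale.Agent.P106.U.H572.HStep
import Vale.Agent.P106.U.H466.HeiF
import Vale.Agent.P106.U.H785.Run2
import Vale.Agent.P106.H25.LabW
import Vale.Agent.P106.U.H683.FzA
import Vale.Agent.P106.U.H958.JuH

/-!
# P106 / U / H572 : THE STEP OF THE WINDOWS OF KIND 1, FROM THE RECORD (helper572)

`HN` : numbers; `Stp` : two consecutive a-steps `j`, `j'` and the late a-step `i` in one run.
`Stp.numM`, `Stp.numH`, `Stp.vctx` : the contexts of 466, of `hstep`, of 25.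
**`Stp.hs`**, **`Stp.hA`**, **`Stp.hN`**, **`Stp.hJ`** : the fields of 495's `KIn` / the step inequality of `rowK` for the
positions `AV`, letter `Θ = fl1 (a i) t`.
-/

set_option autoImplicit false

namespace Vale.Agent.P106.U.H572.HStep

open Finset Vale.Agent.P127 Vale.Agent.P127.Stk Vale.Agent.P127.U.Pin Vale.Agent.P127.U.Mic
open Vale.Agent.P127.U.CellD Vale.Agent.P127.TV
open Vale.Agent.P106.TV Vale.Agent.P106.H25
open Vale.Agent.P106.U Vale.Agent.P106.U.Cell Vale.Agent.P106.U.H572 Vale.Agent.P106.U.H572.HDig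
open Vale.Agent.P106.U.H466 Vale.Agent.P106.U.H785.Mtr
open Vale.Agent.P106.U.S3 (Run Pf F2 mt lv LTh LDk kaL unL)
open Vale.Agent.P106.U.H384.F1 (VD lkR gdK rk_diag a_mul lv_mono)
open Vale.Agent.P106.U.H786.SC (Cx cc1)

variable {Ω : Type} [Fintype Ω] {τ υ π : Type} {R : Run Ω τ υ} {F : Pf R π} {μ : ℕ} {o : Fin 7 → ℝ} {o' : ℕ → ℝ}
  {p : Run.Num} {K c' g' gU c εc K' : ℝ} {B bS bV : ℕ} {Vs Xs Cu : Finset ℕ} {j j' i : ℕ}

/-- numbers of a scale -/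
structure HN (K : ℝ) (m B μ g r' pv b0 : ℕ) : Prop where
  gμ : g ≤ μ
  pμ : 2 * μ ≤ pv
  pB : pv ≤ m * B
  μB : 8 * μ + m ≤ m * B
  Kb : 2 * K + 1 ≤ 2 ^ b0
  KB : K * q2 (m * B) ≤ q2 (2 * μ + 1)
  Kη : 4 * (32 * K) ^ 4 * q2 μ ≤ 1
  ρ : 2 ^ (3 * m + 28 * g + 4 * (r' + 2) + 6 * b0 + 63) * (2 ^ (μ / 2) * tolH (64 * K) μ 0 (q2 (2 * μ))) ≤ 1

/-- an a-step `j` and the late a-step `i` in one run -/
structure Stp (R : Run Ω τ υ) (Vs Xs Cu : Finset ℕ) (B μ j i : ℕ) : Prop where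
  ji : j ≤ i
  inn : i < R.n
  Aj : R.IsA j
  Ai : R.IsA i
  ai : R.C.a j + 8 * μ ≤ R.C.a i
  aB : R.C.a i ≤ R.C.a j + R.m * B
  a2 : 2 * μ ≤ R.C.a j
  a0 : 0 < R.C.a j
  gj : gdK R Vs Xs j
  link : ∀ e, j ≤ e → e < i → lkR R (gdK R Vs Xs) Cu e

namespace Stp

section

variable (T : Stp R Vs Xs Cu B μ j i)
include T

theorem g_at {e : ℕ} (h1 : j ≤ e) (h2 : e ≤ i) : gdK R Vs Xs e := VD.gd_of T.link T.gj h1 h2

theorem yi {e : ℕ} (h1 : j ≤ e) (h2 : e ≤ i) : e ∈ YI R p Vs := by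
  have := T.inn
  exact ⟨by omega, (T.g_at h1 h2).1⟩

theorem lk {e1 e2 : ℕ} (h1 : j ≤ e1) (h2 : e2 ≤ i) : ∀ e, e1 ≤ e → e < e2 → lkR R (gdK R Vs Xs) Cu e :=
  fun e h3 h4 => T.link e (by omega) (by omega)

/-- the diagonal between a-steps -/
theorem dia (V : VD R p F K Vs Xs Cu (gdK R Vs Xs)) {e1 e2 : ℕ} (h1 : j ≤ e1) (h12 : e1 ≤ e2) (h2 : e2 ≤ i)
    (A1 : R.IsA e1) (A2 : R.IsA e2) : R.C.rk e2 = R.C.rk e1 + R.m * (lv R e2 - lv R e1) := by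
  have hn := T.inn
  have hl := lv_mono R h12
  exact rk_diag V.pth V.diag (lv R e2 - lv R e1) e1 e2 (by omega) (by omega) h12 A1 A2
    (fun z z1 z2 => V.lv_run h12 (by omega) (T.lk h1 h2) (T.g_at h1 (h12.trans h2)) z1 z2)

end

section ctx

variable (h : Cx R p K c' g' gU c εc B bS bV F Vs Xs μ K' o o') (V : VD R p F K Vs Xs Cu (gdK R Vs Xs))
  (T : Stp R Vs Xs Cu B μ j i)
include h V T

/-- the levels as numbers -/
theorem lvs : R.C.a i = R.C.a j + (lv R i - lv R j) * R.m ∧ R.C.rk i = R.C.rk j + (lv R i - lv R j) * R.m := by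
  have hn := T.inn
  have hl := lv_mono R T.ji
  have e1 := a_mul V.pth (i := j) (by have := T.ji; omega)
  have e2 := a_mul V.pth (i := i) (by omega)
  have d1 := T.dia V le_rfl T.ji le_rfl T.Aj T.Ai
  constructor
  · rw [← e1, ← e2, Nat.mul_comm (lv R i - lv R j), ← Nat.mul_add]
    congr 1
    omega
  · rw [d1, Nat.mul_comm]

/-- room in the kappa regime -/
theorem mix {e : ℕ} (h1 : j ≤ e) (h2 : e ≤ i) : R.m * R.b1 + R.C.rk e + R.m * B ≤ R.C.rf e := by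
  have hn := T.inn
  have g := T.g_at h1 h2
  have loS := h.f2.loS
  have loV := h.f2.loV
  rw [Nat.mul_add] at loS
  have e1 : 1 ≤ e := by
    rcases Nat.eq_zero_or_pos e with e0 | e0
    · have := T.a0
      have := R.C.ha h1
      rw [e0, V.pth.a0] at this
      omega
    · exact e0
  rcases h.f2.reg e e1 (by omega) g.1 g.2.1 with h4 | h4
  · omega
  · have := F.l0 e
    have := g.2.2
    omega

/-- **the context of 466** -/
theorem numM {g r' pv b0 : ℕ} (N : HN K R.m B μ g r' pv b0) (hμ2 : 2 * μ ≤ R.C.μ) :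
    NumM R (mt R F μ o o') j i (R.m * R.b1) (R.m * R.b1 + 8 * μ) bV := by
  have hn := T.inn
  have ji := T.ji
  obtain ⟨l1, l2⟩ := T.lvs h V
  have m1 := h.ok.pth.m1
  have a1 := T.ai
  have a3 := T.aB
  have g1 := T.g_at le_rfl ji
  refine numM_mt h.ok h.f2 h.r0 h.cap.low.le h.μB hμ2 (by omega) g1.1 (T.mix h V le_rfl ji) ji l1 l2 ?_ (by omega) N.μB T.a2 T.a0
  have h1 : (lv R i - lv R j) * R.m ≤ B * R.m := by
    rw [Nat.mul_comm B]
    omega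
  exact Nat.le_of_mul_le_mul_right h1 m1

/-- **the context of `hstep`** -/
theorem numH {g r' pv b0 q : ℕ} (N : HN K R.m B μ g r' pv b0) (hq1 : r' + 2 ≤ q) (hq2 : 2 * μ + 1 ≤ q) :
    NumH R K μ B (R.m * R.b1) bV j i R.m g r' pv q b0 (q2 (2 * μ)) := by
  have hμB := h.μB
  have hmB := h.mB
  have hr := h.r0
  have hk := h.rk_ge j
  have N1 := N.μB
  have loS := h.f2.loS
  have loV := h.f2.loV
  rw [Nat.mul_add] at loS
  have a1 := T.ai
  have Ng := N.gμ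
  have Np := N.pμ
  have NB := N.pB
  have e2 : q2 (2 * μ) = 2 * q2 (2 * μ + 1) := by
    have e1 : q2 1 = 1 / 2 := by unfold q2; norm_num
    rw [q2_add (2 * μ) 1, e1]
    ring
  exact
    { νk := by omega
      bp := by omega
      gp := by omega
      ga := by omega
      rq := hq1
      mB := by omega
      p1 := HDig.q2_one _
      p2 := q2_le Np
      p3 := by
        have h1 := N.KB
        have h2 : q2 q ≤ q2 (2 * μ + 1) := q2_le hq2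
        have h3 : (1 : ℝ) ≤ 2 ^ (μ / 2) := one_le_pow₀ (by norm_num)
        have h4 := q2_pos (2 * μ)
        have h5 : q2 (2 * μ) ≤ 2 ^ (μ / 2) * q2 (2 * μ) := le_mul_of_one_le_left h4.le h3
        linarith
      Kb := N.Kb
      ρ := N.ρ }

omit T in
/-- **the context of 25** : two consecutive a-steps -/
theorem vctx {g r' pv b0 : ℕ} (N : HN K R.m B μ g r' pv b0) (hμ2 : 2 * μ ≤ R.C.μ)
    (T : Stp R Vs Xs Cu B μ j i) (jj : j < j') (ji : j' ≤ i) (Aj' : R.IsA j') (aj : R.C.a j' = R.C.a j + R.m) :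
    VCtx (mt R F μ o o') (fun ω => 0 < R.Q.w ω) (4 * K) (YI R p Vs) j j' i (R.m * R.b1) R.m := by
  have hn := T.inn
  have hb := h.b8
  have hμB := h.μB
  have rj := V.diag j j' (by omega) T.Aj Aj' aj (Or.inl (T.g_at le_rfl (by omega)).1)
  refine vctx_mt h.ok h.f2 h.K1 h.KB h.r0 hμB hμ2 N.Kη (T.yi le_rfl (by omega)) (T.yi jj.le ji) (T.yi (by omega) le_rfl)
    jj.le ji aj rj (by omega) T.a2 T.a0 fun ω hω => V.ao_run jj.le (by omega) (T.lk le_rfl ji) hω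

end ctx

end Stp

/-! ### constants -/

/-- constant of the change of the labels -/
noncomputable def cLb (K : ℝ) : ℝ := H683.FzA.cM (4 * K) + 6 * Real.log (2 * (⌈160 * (32 * K) ^ 9⌉₊ : ℕ) + 3)

/-- factor of the informations -/
noncomputable def AH (c' : ℝ) (m g r' b0 : ℕ) : ℝ := 20 * 2 ^ (4 * m + 42 * g + 6 * (r' + 2) + 8 * b0 + 97) / c'

/-- constant of the step -/
noncomputable def cH (K : ℝ) (b0 : ℕ) : ℝ := 23 + 3 * b0 + cLb K

namespace Stp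

section fin

variable (h : Cx R p K c' g' gU c εc B bS bV F Vs Xs μ K' o o') (V : VD R p F K Vs Xs Cu (gdK R Vs Xs))
include h V

/-- **the cells are nearly nested along a run** -/
theorem hN (T : Stp R Vs Xs Cu B μ j i) {k : ℕ} (h1 : j ≤ k) (h2 : k ≤ i) :
    hc R.Q ((mt R F μ o o').mtr j (R.m * R.b1)) ((mt R F μ o o').mtr k (R.m * R.b1)) ≤ H683.FzA.cM (4 * K) := by
  have hn := T.inn
  have K1 := h.K1
  have hb := h.b8
  have hμB := h.μB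
  have hmB := h.mB
  have hr := h.r0
  have hk := h.rk_ge j
  have hmx := T.mix h V le_rfl (h1.trans h2)
  refine H683.FzA.hc_mtr (I := YI R p Vs) R.Q (by linarith)
    (fun ω hω => hy_mt h.ok h.f2 h.K1 h.KB h.r0 h.μB h.μC hω) (T.yi le_rfl (h1.trans h2)) (T.yi h1 h2) h1 ?_ ?_
    (H683.FzA.hc_lt_mtr (I := YI R p Vs) (b := R.m * R.b1) R.Q (by linarith)
      (fun ω hω => hy_mt h.ok h.f2 h.K1 h.KB h.r0 h.μB h.μC hω) (T.yi le_rfl (h1.trans h2)) (T.yi h1 h2) h1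
      (show μ ≤ R.m * R.b1 by omega) (V.pf_le h1 (by omega)))
  · show 8 * μ ≤ R.m * R.b1
    omega
  · show 8 * μ ≤ min (R.C.rk j - μ / 2 + R.m * R.b1) (R.C.rf j)
    omega

/-- **the junction at the last step** -/
theorem hJ (T : Stp R Vs Xs Cu B μ j i) {g r' pv b0 : ℕ} (N : HN K R.m B μ g r' pv b0)
    (hμ2 : 2 * μ ≤ R.C.μ) {dr : ℕ → Ω → Ω}
    (hdr : Rep (fun ω => 0 < R.Q.w ω) (((mt R F μ o o').p1 j).cell j (R.m * R.b1)) (dr j)) :
    hc R.Q (AV (mt R F μ o o') (R.m * R.b1) i dr j)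
      (fun ω => (fl1 (R.C.a i) (R.C.t ω), (mt R F μ o o').mtr j (R.m * R.b1) ω)) ≤
      18 * μ * Real.log 2 + 9 * Real.log (64 * K) + 16 := by
  have hn := T.inn
  have ji := T.ji
  have hμ : μ ≤ R.C.μ := h.μC
  have X := lctx_run (I := YI R p Vs) (ofR_mt (F := F) (o := o) (o' := o') hμ) h.ok h.K1 (T.numM h V N hμ2)
    (by omega) (fun ω hω => hy_mt h.ok h.f2 h.K1 h.KB h.r0 h.μB h.μC hω) (T.yi le_rfl ji) (T.yi ji le_rfl)
  exact H958.hJ_V R.Q X hdr (Nat.div_le_self μ 2) (fun ω => fl1 (R.C.a i) (R.C.t ω)) fun ω ω' _ _ e => e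

/-- **the chain** : two consecutive a-steps -/
theorem hA (T : Stp R Vs Xs Cu B μ j i) {g r' pv b0 : ℕ} (N : HN K R.m B μ g r' pv b0) (hμ2 : 2 * μ ≤ R.C.μ)
    (jj : j < j') (ji : j' ≤ i) (Aj' : R.IsA j') (aj : R.C.a j' = R.C.a j + R.m) {dr : ℕ → Ω → Ω}
    (hdr : ∀ k, Rep (fun ω => 0 < R.Q.w ω) (((mt R F μ o o').p1 k).cell k (R.m * R.b1)) (dr k)) :
    hc R.Q (AV (mt R F μ o o') (R.m * R.b1) i dr j)
      (fun ω => (AV (mt R F μ o o') (R.m * R.b1) i dr j' ω, fl1 (R.C.a i) (R.C.t ω))) ≤ cLb K := by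
  have X := vctx h V N hμ2 T jj ji Aj' aj
  have hD : hc R.Q ((mt R F μ o o').mtr j (R.m * R.b1))
      (fun ω => ((mt R F μ o o').mtr j' (R.m * R.b1) ω, fl1 (R.C.a i) (R.C.t ω))) ≤ H683.FzA.cM (4 * K) :=
    (hc_mono_right R.Q _ fun ω ω' _ _ e => congrArg Prod.fst e).trans (hN h V T jj.le ji)
  refine X.step_hA (hdr j) (hdr j') (Θ := fun ω => fl1 (R.C.a i) (R.C.t ω)) ?_ ⌈160 * (32 * K) ^ 9⌉₊ ?_ hD
  · intro ω ω' _ _ e
    show rd (R.C.a i) (R.C.t ω') = rd (R.C.a i) (R.C.t ω)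
    unfold rd
    rw [e]
  · rw [show 8 * (4 * K) = 32 * K by ring]
    exact Nat.le_ceil _

/-- **THE STEP INEQUALITY OF THE WINDOWS OF KIND 1** -/
theorem hs (T : Stp R Vs Xs Cu B μ j i) {g r' pv b0 q : ℕ} (N : HN K R.m B μ g r' pv b0)
    (hμ2 : 2 * μ ≤ R.C.μ) (hq1 : r' + 2 ≤ q) (hq2 : 2 * μ + 1 ≤ q)
    (jj : j < j') (ji : j' ≤ i) (Aj' : R.IsA j') (aj : R.C.a j' = R.C.a j + R.m) (ai : R.C.a j' + 8 * μ ≤ R.C.a i)
    {dr : ℕ → Ω → Ω} (hdr : ∀ k, Rep (fun ω => 0 < R.Q.w ω) (((mt R F μ o o').p1 k).cell k (R.m * R.b1)) (dr k))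
    {c₁ ι₁ ι₂ : ℝ} (hc0 : 0 < c₁)
    (h1 : mi R.Q (xH R F (R.m * R.b1) pv q j') ((mt R F μ o o').mtr i (R.m * R.b1))
      (fun ω => (LDk ((mt R F μ o o').fz j' j') (R.m * R.b1) j' ω, LTh ((mt R F μ o o').fz j' j') (R.m * R.b1) i ω)) ≤ ι₁)
    (h2 : mi R.Q (LTh ((mt R F μ o o').fz j' j') (R.m * R.b1) i)
      (fun ω => (((mt R F μ o o').fz j' j').cell j' bV ω, F.Ao (lv R j') ω, S3.Ob R B o' j' ω))
      (LDk ((mt R F μ o o').fz j' j') (R.m * R.b1) j') ≤ ι₂) :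
    4 * (R.m * Real.log 2) - (cH K b0 + 1200 * R.m * cc1 R F μ o o' c₁ g (R.m * R.b1) (BfH R F r') j' +
      AH c₁ R.m g r' b0 * (Real.sqrt ι₁ + Real.sqrt ι₂)) ≤
    hc R.Q (AV (mt R F μ o o') (R.m * R.b1) i dr j')
      (fun ω => (AV (mt R F μ o o') (R.m * R.b1) i dr j ω,
        ((mt R F μ o o').mtr j' (R.m * R.b1) ω, fl1 (R.C.a i) (R.C.t ω)))) := by
  have hn := T.inn
  have T' : Stp R Vs Xs Cu B μ j' i :=
    { ji := ji
      inn := T.inn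
      Aj := Aj'
      Ai := T.Ai
      ai := ai
      aB := by have := T.aB; omega
      a2 := by have := T.a2; omega
      a0 := by have := T.a0; omega
      gj := T.g_at jj.le ji
      link := T.lk jj.le le_rfl }
  have X := vctx h V N hμ2 T jj ji Aj' aj
  have hD : hc R.Q ((mt R F μ o o').mtr j (R.m * R.b1))
      (fun ω => ((mt R F μ o o').mtr j' (R.m * R.b1) ω, fl1 (R.C.a i) (R.C.t ω))) ≤ H683.FzA.cM (4 * K) :=
    (hc_mono_right R.Q _ fun ω ω' _ _ e => congrArg Prod.fst e).trans (hN h V T jj.le ji)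
  have hreg : R.m * R.b1 + R.C.rk j' < R.C.rf j' := (T.g_at jj.le ji).2.2
  have E := hstep (I := YI R p Vs) h.ok h.f2 h.K1 (T'.numM h V N hμ2) (T'.numH h V N hq1 hq2)
    (fun ω hω => hy_mt h.ok h.f2 h.K1 h.KB h.r0 h.μB h.μC hω) (T'.yi le_rfl ji) (T'.yi ji le_rfl) (by omega)
    (T.g_at jj.le ji).1 hreg (hdr j') (c₀ := c₁ / 2) (by linarith) le_rfl h1 h2
  have S := X.step_hs (hdr j) (hdr j') (Θ := fun ω => fl1 (R.C.a i) (R.C.t ω)) (fun ω ω' _ _ e => by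
    show rd (R.C.a i) (R.C.t ω') = rd (R.C.a i) (R.C.t ω)
    unfold rd
    rw [e]) ⌈160 * (32 * K) ^ 9⌉₊ (by
    rw [show 8 * (4 * K) = 32 * K by ring]
    exact Nat.le_ceil _) hD le_rfl E
  refine le_trans ?_ S
  have c1 := colp_nonneg R.Q (fun ω => fl1 (R.C.a j' + g) (R.C.t ω)) ((mt R F μ o o').mtr j' (R.m * R.b1))
  have m0 : (0 : ℝ) ≤ R.m := Nat.cast_nonneg _
  have p0 : 0 ≤ R.Q.ex (fun ω => Law.ind (∃ x, (1 - c₁ / 2) * R.Q.pr ((mt R F μ o o').mtr j' (R.m * R.b1))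
      ((mt R F μ o o').mtr j' (R.m * R.b1) ω) < prE R.Q (fun ω' => (mt R F μ o o').mtr j' (R.m * R.b1) ω' =
        (mt R F μ o o').mtr j' (R.m * R.b1) ω ∧ BfH R F r' j' x ω'))) :=
    R.Q.ex_nonneg fun ω _ => Vale.Agent.P127.U.Mic.ind_nonneg _
  have e1 : 10 * 2 ^ (4 * R.m + 42 * g + 6 * (r' + 2) + 8 * b0 + 97) / (c₁ / 2) = AH c₁ R.m g r' b0 := by
    unfold AH
    field_simp
    ring
  rw [e1]
  unfold cH cLb cc1
  have k1 : 0 ≤ (R.m : ℝ) * colp R.Q (fun ω => fl1 (R.C.a j' + g) (R.C.t ω)) ((mt R F μ o o').mtr j' (R.m * R.b1)) :=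
    mul_nonneg m0 c1
  have k2 := mul_nonneg m0 p0
  nlinarith

end fin

end Stp

end Vale.Agent.P106.U.H572.HStep
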