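import Vale.Agent.P106.H25.LatN
import Vale.Agent.P127.TV.Shift
import Vale.Agent.P127.TV.LatHc

/-!
# P106 / U / H572 : the group of a step of type (ii) (hidden curvature) and its centre (helper572)

State `X = (V, Z, φ, κ)` and `M` (central, the `N` coordinate), everything in the fine units.
`St4 X M u m ρ σ a b` : `b` is the image of `a` under `(u, m)`.  Product: `(u, m)(u', m') = (u + u', m + m' + u'₀u₂ + u'₁u₃)`.
The commutator of `(u, m)`, `(w, n)` is the pure shift `w₀u₂ + w₁u₃ - u₀w₂ - u₁w₃` of `M`.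
`satM` : a pure shift `|c| ≥ L / R₃` of `M` saturates the last coordinate of the label between `1` and `L`.
-/

set_option autoImplicit false

namespace Vale.Agent.P106.U.H572

open Finset Vale.Agent.P127 Vale.Agent.P127.Stk Vale.Agent.P127.TV Vale.Agent.P127.TV.Lat
open Vale.Agent.P106.TV

variable {Ω : Type}

/-- `b` is the image of `a` under the group element `(u, m)` -/
def St4 (X : Ω → Fin 4 → ℝ) (M : Ω → ℝ) (u : Fin 4 → ℝ) (m ρ σ : ℝ) (a b : Ω) : Prop :=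
  (∀ i, |X b i - X a i - u i| ≤ ρ) ∧
    |M b - M a - X a 2 * (X b 0 - X a 0) - X a 3 * (X b 1 - X a 1) - m| ≤ σ

variable {X : Ω → Fin 4 → ℝ} {M : Ω → ℝ}

theorem St4.refl (a : Ω) : St4 X M (fun _ => 0) 0 0 0 a a := by
  refine ⟨fun i => by simp, by simp⟩

theorem St4.mono {u : Fin 4 → ℝ} {m ρ σ ρ' σ' : ℝ} {a b : Ω} (h : St4 X M u m ρ σ a b)
    (h1 : ρ ≤ ρ') (h2 : σ ≤ σ') : St4 X M u m ρ' σ' a b :=
  ⟨fun i => (h.1 i).trans h1, h.2.trans h2⟩

/-- composition -/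
theorem St4.comp {u u' : Fin 4 → ℝ} {m m' ρ ρ' σ σ' : ℝ} {a b c : Ω} (h : St4 X M u m ρ σ a b)
    (h' : St4 X M u' m' ρ' σ' b c) :
    St4 X M (fun i => u i + u' i) (m + m' + u' 0 * u 2 + u' 1 * u 3) (ρ + ρ')
      (σ + σ' + (|u 2| * ρ' + |u' 0| * ρ + ρ * ρ') + (|u 3| * ρ' + |u' 1| * ρ + ρ * ρ')) a c := by
  refine ⟨fun i => ?_, ?_⟩
  · have e1 := h.1 i
    have e2 := h'.1 i
    have : X c i - X a i - (u i + u' i) = (X b i - X a i - u i) + (X c i - X b i - u' i) := by ring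
    rw [this]
    exact (abs_add_le _ _).trans (add_le_add e1 e2)
  · have e1 := h.2
    have e2 := h'.2
    have key : ∀ (i j : Fin 4), |(X b i - X a i) * (X c j - X b j) - u' j * u i| ≤
        |u i| * ρ' + |u' j| * ρ + ρ * ρ' := by
      intro i j
      set r := X b i - X a i - u i with hr
      set s := X c j - X b j - u' j with hs
      have h1 : |r| ≤ ρ := h.1 i
      have h2 : |s| ≤ ρ' := h'.1 j
      have e : (X b i - X a i) * (X c j - X b j) - u' j * u i = u i * s + u' j * r + r * s := by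
        rw [hr, hs]; ring
      rw [e]
      refine (abs_add_le _ _).trans (add_le_add ((abs_add_le _ _).trans (add_le_add ?_ ?_)) ?_)
      · rw [abs_mul]
        exact mul_le_mul_of_nonneg_left h2 (abs_nonneg _)
      · rw [abs_mul]
        exact mul_le_mul_of_nonneg_left h1 (abs_nonneg _)
      · rw [abs_mul]
        exact mul_le_mul h1 h2 (abs_nonneg _) ((abs_nonneg _).trans h1)
    have : M c - M a - X a 2 * (X c 0 - X a 0) - X a 3 * (X c 1 - X a 1) -
        (m + m' + u' 0 * u 2 + u' 1 * u 3) =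
        (M b - M a - X a 2 * (X b 0 - X a 0) - X a 3 * (X b 1 - X a 1) - m) +
          (M c - M b - X b 2 * (X c 0 - X b 0) - X b 3 * (X c 1 - X b 1) - m') +
          ((X b 2 - X a 2) * (X c 0 - X b 0) - u' 0 * u 2) +
          ((X b 3 - X a 3) * (X c 1 - X b 1) - u' 1 * u 3) := by
      ring
    rw [this]
    exact (abs_add_le _ _).trans (add_le_add ((abs_add_le _ _).trans (add_le_add
      ((abs_add_le _ _).trans (add_le_add e1 e2)) (key 2 0))) (key 3 1))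

variable [Fintype Ω]

/-- composition of near invariances, with simple bounds -/
theorem sub4_comp {Q : Law Ω} {u u' w : Fin 4 → ℝ} {m m' n ρ ρ' ρ₂ σ σ' σ₂ e e' e₂ : ℝ}
    (h : SubC Q Q (St4 X M u m ρ σ) e) (h' : SubC Q Q (St4 X M u' m' ρ' σ') e')
    (hw : ∀ i, w i = u i + u' i) (hn : n = m + m' + u' 0 * u 2 + u' 1 * u 3) (hρ : ρ + ρ' ≤ ρ₂)
    (hσ : σ + σ' + (|u 2| * ρ' + |u' 0| * ρ + ρ * ρ') + (|u 3| * ρ' + |u' 1| * ρ + ρ * ρ') ≤ σ₂)
    (he : e + e' ≤ e₂) :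
    SubC Q Q (St4 X M w n ρ₂ σ₂) e₂ := by
  refine (SubC.comp h h').mono ?_ he
  rintro a c ⟨b, h1, h2⟩
  have h3 := (h1.comp h2).mono hρ hσ
  have : w = fun i => u i + u' i := funext hw
  rw [this, hn]
  exact h3

/-- the commutator of two generators; `|u i|, |w i| ≤ B` -/
theorem sub4_comm {Q : Law Ω} {u w : Fin 4 → ℝ} {m n ρ e B : ℝ} (hB : 1 ≤ B) (hu : ∀ i, |u i| ≤ B)
    (hw : ∀ i, |w i| ≤ B) (hρ : 0 ≤ ρ) (hρ1 : ρ ≤ 1)
    (h : SubC Q Q (St4 X M u m ρ ρ) e)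
    (h' : SubC Q Q (St4 X M w n ρ ρ) e)
    (hi : SubC Q Q (St4 X M (fun i => - u i) (u 0 * u 2 + u 1 * u 3 - m) ρ ρ) e)
    (hi' : SubC Q Q (St4 X M (fun i => - w i) (w 0 * w 2 + w 1 * w 3 - n) ρ ρ) e) :
    SubC Q Q (St4 X M (fun _ => 0) (w 0 * u 2 + w 1 * u 3 - u 0 * w 2 - u 1 * w 3)
      (4 * ρ) (36 * B * ρ)) (4 * e) := by
  have hρ2 : ρ * ρ ≤ ρ := mul_le_of_le_one_right hρ hρ1
  have hρB : ρ ≤ B * ρ := le_mul_of_one_le_left hρ hB
  have hb : ∀ {x c : ℝ} (r : ℝ), 0 ≤ r → |x| ≤ c → |x| * r ≤ c * r := fun r hr hx =>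
    mul_le_mul_of_nonneg_right hx hr
  have e1 : SubC Q Q (St4 X M (fun i => u i + w i) (m + n + w 0 * u 2 + w 1 * u 3)
      (2 * ρ) (8 * B * ρ)) (2 * e) := by
    refine sub4_comp h h' (fun i => rfl) rfl (by linarith) ?_ (by linarith)
    have h1 := hb ρ hρ (hu 2)
    have h2 := hb ρ hρ (hw 0)
    have h3 := hb ρ hρ (hu 3)
    have h4 := hb ρ hρ (hw 1)
    linarith
  have e2 : SubC Q Q (St4 X M (fun i => w i)
      (n + w 0 * u 2 + w 1 * u 3 - u 0 * w 2 - u 1 * w 3)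
      (3 * ρ) (21 * B * ρ)) (3 * e) := by
    refine sub4_comp e1 hi (fun i => by ring) (by ring) (by linarith) ?_ (by linarith)
    have b2 : ∀ i, |u i + w i| ≤ 2 * B := fun i => (abs_add_le _ _).trans (by linarith [hu i, hw i])
    have b3 : ∀ i, |(- u i)| ≤ B := fun i => by rw [abs_neg]; exact hu i
    have h1 := hb ρ hρ (b2 2)
    have h2 := hb (2 * ρ) (by linarith) (b3 0)
    have h3 := hb ρ hρ (b2 3)
    have h4 := hb (2 * ρ) (by linarith) (b3 1)
    linarith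
  refine sub4_comp e2 hi' (fun i => by ring) (by ring) (by linarith) ?_ (by linarith)
  have b3 : ∀ i, |(- w i)| ≤ B := fun i => by rw [abs_neg]; exact hw i
  have h1 := hb ρ hρ (hw 2)
  have h2 := hb (3 * ρ) (by linarith) (b3 0)
  have h3 := hb ρ hρ (hw 3)
  have h4 := hb (3 * ρ) (by linarith) (b3 1)
  linarith

/-- powers of a pure shift -/
theorem sub4_shift {Q : Law Ω} {c ρ σ e : ℝ}
    (h : SubC Q Q (St4 X M (fun _ => 0) c ρ σ) e) (k : ℕ) :
    SubC Q Q (St4 X M (fun _ => 0) (k * c) (k * ρ) (k * σ + (k : ℝ) ^ 2 * ρ ^ 2)) (k * e) := by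
  induction k with
  | zero =>
    refine (SubC.refl Q).mono ?_ (by simp)
    rintro a b rfl
    refine ⟨fun i => by simp, by simp⟩
  | succ n ih =>
    have hn0 : (0 : ℝ) ≤ n := Nat.cast_nonneg n
    refine sub4_comp ih h (fun i => by simp) ?_ ?_ ?_ ?_
    · push_cast; ring
    · push_cast; linarith
    · simp only [abs_zero, zero_mul, zero_add]
      push_cast
      nlinarith [sq_nonneg ρ]
    · push_cast; linarith

/-- the natural label; the last digit at scale `L` (first component) -/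
noncomputable def lbh (L : ℝ) (X : Fin 4 → ℝ) (M : ℝ) : ℤ × (Fin 4 → ℤ) :=
  (⌊(M - ⌊X 2⌋ * X 0 - ⌊X 3⌋ * X 1) / L⌋, fun i => ⌊X i⌋)

omit [Fintype Ω] in
/-- the fine label determines `k c` up to `2` -/
theorem fibM {c C ρX σM : ℝ} {a : Ω} {f : ℤ × (Fin 4 → ℤ)} (hc0 : 0 < |c|)
    (hc : 4 + |c| ≤ C) (hσ : σM ≤ 1) (hρ : ρX ≤ 1 / 8) (S : Finset ℕ)
    (hS : ∀ k ∈ S, ∃ b, St4 X M (fun _ => 0) ((k : ℝ) * c) ρX σM a b ∧
      lbh 1 (X b) (M b) = f) : (S.card : ℝ) ≤ C / |c| := by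
  have h5 := card_nat_le S c ((f.1 : ℝ) + 1 / 2 + (f.2 2 : ℝ) * X a 0 + (f.2 3 : ℝ) * X a 1 - M a)
    2 (abs_pos.1 hc0) (by norm_num) ?_
  · refine h5.trans ?_
    rw [div_add_one hc0.ne']
    exact div_le_div_of_nonneg_right (by linarith) hc0.le
  · intro k hk
    obtain ⟨b, hW, hF⟩ := hS k hk
    have g0 : |X b 0 - X a 0| ≤ 1 / 8 := by simpa using (hW.1 0).trans hρ
    have g1 : |X b 1 - X a 1| ≤ 1 / 8 := by simpa using (hW.1 1).trans hρ
    have g2 : |X b 2 - X a 2| ≤ 1 / 8 := by simpa using (hW.1 2).trans hρ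
    have g3 : |X b 3 - X a 3| ≤ 1 / 8 := by simpa using (hW.1 3).trans hρ
    have g4 := hW.2.trans hσ
    rw [Prod.ext_iff] at hF
    obtain ⟨k1, k2⟩ := hF
    have q2 : ⌊X b 2⌋ = f.2 2 := congrFun k2 2
    have q3 : ⌊X b 3⌋ = f.2 3 := congrFun k2 3
    simp only [lbh] at k1
    rw [q2, q3, div_one] at k1
    have m1 := Int.floor_le (X b 2)
    have m1' := Int.lt_floor_add_one (X b 2)
    have m2 := Int.floor_le (X b 3)
    have m2' := Int.lt_floor_add_one (X b 3)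
    have m3 := Int.floor_le (M b - (f.2 2 : ℝ) * X b 0 - (f.2 3 : ℝ) * X b 1)
    have m3' := Int.lt_floor_add_one (M b - (f.2 2 : ℝ) * X b 0 - (f.2 3 : ℝ) * X b 1)
    rw [q2] at m1 m1'
    rw [q3] at m2 m2'
    rw [k1] at m3 m3'
    have m4 : |(f.2 2 : ℝ) - X a 2| ≤ 2 := by
      rw [abs_le] at g2 ⊢
      constructor <;> linarith [g2.1, g2.2]
    have m5 : |(f.2 3 : ℝ) - X a 3| ≤ 2 := by
      rw [abs_le] at g3 ⊢
      constructor <;> linarith [g3.1, g3.2]
    have m6 : |((f.2 2 : ℝ) - X a 2) * (X b 0 - X a 0)| ≤ 1 / 4 := by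
      rw [abs_mul]
      calc _ ≤ 2 * (1 / 8 : ℝ) := mul_le_mul m4 g0 (abs_nonneg _) (by norm_num)
        _ = _ := by norm_num
    have m7 : |((f.2 3 : ℝ) - X a 3) * (X b 1 - X a 1)| ≤ 1 / 4 := by
      rw [abs_mul]
      calc _ ≤ 2 * (1 / 8 : ℝ) := mul_le_mul m5 g1 (abs_nonneg _) (by norm_num)
        _ = _ := by norm_num
    have e0 : (k : ℝ) * c - ((f.1 : ℝ) + 1 / 2 + (f.2 2 : ℝ) * X a 0 + (f.2 3 : ℝ) * X a 1 - M a) =
        -(M b - M a - X a 2 * (X b 0 - X a 0) - X a 3 * (X b 1 - X a 1) - k * c) +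
          ((M b - (f.2 2 : ℝ) * X b 0 - (f.2 3 : ℝ) * X b 1) - (f.1 + 1 / 2)) +
          ((f.2 2 : ℝ) - X a 2) * (X b 0 - X a 0) + ((f.2 3 : ℝ) - X a 3) * (X b 1 - X a 1) := by
      ring
    rw [e0]
    rw [abs_le] at g4 m6 m7 ⊢
    constructor <;> linarith [g4.1, g4.2, m6.1, m6.2, m7.1, m7.2]

/-- three values of a floor -/
theorem floor_near {x y : ℝ} (h : |y - x| ≤ 1) : ⌊y⌋ ∈ Finset.Icc (⌊x⌋ - 1) (⌊x⌋ + 1) := by
  rw [Finset.mem_Icc]
  have h1 := Int.floor_le x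
  have h2 := Int.lt_floor_add_one x
  rw [abs_le] at h
  constructor
  · rw [Int.le_floor]; push_cast; linarith [h.1]
  · have : (⌊y⌋ : ℝ) < ⌊x⌋ + 2 := by linarith [Int.floor_le y, h.2]
    have h3 : (⌊y⌋ : ℤ) < ⌊x⌋ + 2 := by exact_mod_cast this
    omega

omit [Fintype Ω] in
/-- number of coarse labels over a point -/
theorem crsM {L B ρX σM : ℝ} {a : Ω} (hL : 1 ≤ L) (hLB : L ≤ B) (hσ : σM ≤ 1) (hρ : ρX ≤ 1 / 8)
    (S : Finset (ℤ × (Fin 4 → ℤ)))
    (hS : ∀ g ∈ S, ∃ (kc : ℝ) (b : Ω), |kc| ≤ B ∧ St4 X M (fun _ => 0) kc ρX σM a b ∧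
      lbh L (X b) (M b) = g) : (S.card : ℝ) ≤ 9 * B / L * 81 := by
  classical
  have hL0 : 0 < L := by linarith
  have hB0 : 0 ≤ B := by linarith
  have hnear : ∀ {kc : ℝ} {b : Ω}, St4 X M (fun _ => 0) kc ρX σM a b →
      ∀ i, |X b i - X a i| ≤ 1 / 8 := fun hW i => by simpa using (hW.1 i).trans hρ
  refine card_pair_le _ _ _ (by positivity) ?_ ?_
  · intro T hT
    have hsub : T ⊆ Fintype.piFinset fun i : Fin 4 => Finset.Icc (⌊X a i⌋ - 1) (⌊X a i⌋ + 1) := by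
      intro q hq
      obtain ⟨j, hj⟩ := hT q hq
      obtain ⟨kc, b, _, hW, hF⟩ := hS _ hj
      rw [Fintype.mem_piFinset]
      intro i
      have h1 := hnear hW i
      have h2 : ⌊X b i⌋ = q i := congrFun (congrArg Prod.snd hF) i
      rw [← h2]
      exact floor_near (h1.trans (by norm_num))
    have h3 := Finset.card_le_card hsub
    rw [Fintype.card_piFinset] at h3
    have h4 : (∏ i : Fin 4, (Finset.Icc (⌊X a i⌋ - 1) (⌊X a i⌋ + 1)).card) = 81 := by
      have : ∀ i : Fin 4, (Finset.Icc (⌊X a i⌋ - 1) (⌊X a i⌋ + 1)).card = 3 := by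
        intro i
        rw [Int.card_Icc]
        have : ⌊X a i⌋ + 1 + 1 - (⌊X a i⌋ - 1) = 3 := by ring
        rw [this]
        rfl
      simp only [this]
      simp
    rw [h4] at h3
    exact_mod_cast h3
  · intro q T hT
    have h5 := card_int_le T L (M a - (q 2 : ℝ) * X a 0 - (q 3 : ℝ) * X a 1) (B + 2 + L)
      hL0.ne' (by linarith) ?_
    · refine h5.trans ?_
      rw [abs_of_pos hL0, div_add_one hL0.ne']
      exact div_le_div_of_nonneg_right (by linarith) hL0.le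
    · intro w hw
      obtain ⟨kc, b, hkc, hW, hF⟩ := hS _ (hT w hw)
      have g0 := hnear hW 0
      have g1 := hnear hW 1
      have g2 := hnear hW 2
      have g3 := hnear hW 3
      have g4 := hW.2.trans hσ
      rw [Prod.ext_iff] at hF
      obtain ⟨k1, k2⟩ := hF
      have q2 : ⌊X b 2⌋ = q 2 := congrFun k2 2
      have q3 : ⌊X b 3⌋ = q 3 := congrFun k2 3
      simp only [lbh] at k1
      rw [q2, q3] at k1
      have m1 := Int.floor_le (X b 2)
      have m1' := Int.lt_floor_add_one (X b 2)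
      have m2 := Int.floor_le (X b 3)
      have m2' := Int.lt_floor_add_one (X b 3)
      have m3 := Int.floor_le ((M b - (q 2 : ℝ) * X b 0 - (q 3 : ℝ) * X b 1) / L)
      have m3' := Int.lt_floor_add_one ((M b - (q 2 : ℝ) * X b 0 - (q 3 : ℝ) * X b 1) / L)
      rw [q2] at m1 m1'
      rw [q3] at m2 m2'
      rw [k1, le_div_iff₀ hL0] at m3
      rw [k1, div_lt_iff₀ hL0] at m3'
      have m4 : |(q 2 : ℝ) - X a 2| ≤ 2 := by
        rw [abs_le] at g2 ⊢
        constructor <;> linarith [g2.1, g2.2]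
      have m5 : |(q 3 : ℝ) - X a 3| ≤ 2 := by
        rw [abs_le] at g3 ⊢
        constructor <;> linarith [g3.1, g3.2]
      have m6 : |((q 2 : ℝ) - X a 2) * (X b 0 - X a 0)| ≤ 1 / 4 := by
        rw [abs_mul]
        calc _ ≤ 2 * (1 / 8 : ℝ) := mul_le_mul m4 g0 (abs_nonneg _) (by norm_num)
          _ = _ := by norm_num
      have m7 : |((q 3 : ℝ) - X a 3) * (X b 1 - X a 1)| ≤ 1 / 4 := by
        rw [abs_mul]
        calc _ ≤ 2 * (1 / 8 : ℝ) := mul_le_mul m5 g1 (abs_nonneg _) (by norm_num)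
          _ = _ := by norm_num
      have e0 : (w : ℝ) * L - (M a - (q 2 : ℝ) * X a 0 - (q 3 : ℝ) * X a 1) =
          (w * L - (M b - (q 2 : ℝ) * X b 0 - (q 3 : ℝ) * X b 1)) +
          (M b - M a - X a 2 * (X b 0 - X a 0) - X a 3 * (X b 1 - X a 1) - kc) + kc -
          ((q 2 : ℝ) - X a 2) * (X b 0 - X a 0) - ((q 3 : ℝ) - X a 3) * (X b 1 - X a 1) := by
        ring
      rw [e0]
      rw [abs_le] at g4 m6 m7 hkc ⊢
      constructor <;> linarith [g4.1, g4.2, m6.1, m6.2, m7.1, m7.2, hkc.1, hkc.2]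

/-- **a pure shift saturates the last coordinate** -/
theorem satM (Q : Law Ω) (c L ρ e B : ℝ) (R : ℕ) (hc0 : 0 < |c|) (hB : 1 ≤ B)
    (hcB : |c| ≤ 4 * B ^ 2) (hL : 1 ≤ L)
    (hR : L ≤ R * |c|) (hR1 : 1 ≤ R) (hρ : 0 ≤ ρ) (hRρ : 40 * B * R * ρ ≤ 1) (he : 0 ≤ e)
    (h : SubC Q Q (St4 X M (fun _ => 0) c (4 * ρ) (36 * B * ρ)) e) :
    Real.log L - (9 + 2 * Real.log B) - R * (1 + Real.log R) * e ≤
      hc Q (fun ω => lbh 1 (X ω) (M ω)) (fun ω => lbh L (X ω) (M ω)) := by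
  classical
  have hL0 : 0 < L := by linarith
  have hRr : (1 : ℝ) ≤ R := by exact_mod_cast hR1
  have hR0 : 0 < R := hR1
  have hlR : 0 ≤ Real.log R := Real.log_nonneg hRr
  set ρX : ℝ := 4 * R * ρ with hρX
  have hRρ0 : 0 ≤ R * ρ := by positivity
  have hRB : R * ρ ≤ B * (R * ρ) := le_mul_of_one_le_left hRρ0 hB
  have hρX1 : ρX ≤ 1 / 8 := by rw [hρX]; nlinarith
  have : Nonempty (Fin R) := ⟨⟨0, hR0⟩⟩
  have hword : ∀ k : Fin R, SubC Q Q (St4 X M (fun _ => 0) (((k : ℕ) : ℝ) * c) ρX 1) (R * e) := by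
    intro k
    have hk : (((k : ℕ) : ℝ)) ≤ R := by exact_mod_cast k.2.le
    have hk0 : (0 : ℝ) ≤ ((k : ℕ) : ℝ) := Nat.cast_nonneg _
    refine (sub4_shift h k).mono ?_ (mul_le_mul_of_nonneg_right hk he)
    intro a b hab
    refine hab.mono ?_ ?_
    · rw [hρX]
      nlinarith
    · have h1 : ((k : ℕ) : ℝ) * ρ ≤ R * ρ := mul_le_mul_of_nonneg_right hk hρ
      have h2 : 0 ≤ ((k : ℕ) : ℝ) * ρ := by positivity
      have e1 : ((k : ℕ) : ℝ) * (36 * B * ρ) + ((k : ℕ) : ℝ) ^ 2 * (4 * ρ) ^ 2 =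
          36 * (B * (((k : ℕ) : ℝ) * ρ)) + 16 * (((k : ℕ) : ℝ) * ρ) ^ 2 := by ring
      rw [e1]
      have h3 : B * (((k : ℕ) : ℝ) * ρ) ≤ B * (R * ρ) := mul_le_mul_of_nonneg_left h1 (by linarith)
      have h4 : ((k : ℕ) : ℝ) * ρ ≤ 1 / 40 := by linarith
      nlinarith
  have key := spread Q (K := Fin R) (fun k a b => St4 X M (fun _ => 0) (((k : ℕ) : ℝ) * c) ρX 1 a b)
    (fun _ => R * e) hword (fun ω => lbh 1 (X ω) (M ω)) (fun ω => lbh L (X ω) (M ω))
    ⌊8 * B ^ 2 / |c|⌋₊ ⌊9 * (R * |c|) / L * 81⌋₊ ?_ ?_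
  · have hsum : (∑ _k : Fin R, (R : ℝ) * e) / Fintype.card (Fin R) = R * e := by
      rw [Finset.sum_const, Finset.card_univ, nsmul_eq_mul, mul_comm, mul_div_assoc, div_self,
        mul_one]
      rw [Fintype.card_fin]
      positivity
    have hBB : 1 ≤ B ^ 2 := one_le_pow₀ hB
    have hB0 : 0 < B := by linarith
    have e0 := log_floor_le (show 1 ≤ 8 * B ^ 2 / |c| by rw [le_div_iff₀ hc0]; linarith)
    have e1 := log_floor_le (show 1 ≤ 9 * (R * |c|) / L * 81 by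
      have : 1 ≤ 9 * (R * |c|) / L := by rw [le_div_iff₀ hL0]; nlinarith
      linarith)
    rw [hsum, Fintype.card_fin] at key
    have e2 : Real.log (8 * B ^ 2 / |c|) + Real.log (9 * (R * |c|) / L * 81) =
        Real.log 5832 + 2 * Real.log B + Real.log R - Real.log L := by
      rw [← Real.log_mul (by positivity) (by positivity)]
      have e3 : 8 * B ^ 2 / |c| * (9 * (R * |c|) / L * 81) = 5832 * B ^ 2 * R / L := by
        field_simp
        ring
      rw [e3, Real.log_div (by positivity) (by positivity), Real.log_mul (by positivity)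
        (by positivity), Real.log_mul (by norm_num) (by positivity), Real.log_pow]
      push_cast
      ring
    have e4 : Real.log 5832 ≤ 9 := by
      have h2 : Real.log 5832 ≤ Real.log (Real.exp 9) := by
        refine Real.log_le_log (by norm_num) ?_
        have h3 : (2.7182818283 : ℝ) ^ 9 ≤ Real.exp 9 := by
          have h4 : Real.exp 9 = Real.exp 1 ^ 9 := by
            rw [← Real.exp_nat_mul]; norm_num
          rw [h4]
          exact pow_le_pow_left₀ (by norm_num) Real.exp_one_gt_d9.le 9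
        refine le_trans ?_ h3
        norm_num
      rwa [Real.log_exp] at h2
    have e5 : (1 - (R : ℝ) * e) * Real.log R - R * e = Real.log R - R * (1 + Real.log R) * e := by
      ring
    rw [e5] at key
    linarith
  · intro a b ha _
    refine ⟨univ.filter fun k : Fin R => ∃ b', St4 X M (fun _ => 0) (((k : ℕ) : ℝ) * c) ρX 1 a b' ∧
      lbh 1 (X b') (M b') = lbh 1 (X b) (M b), ?_, ?_⟩
    · refine Nat.le_floor ?_
      rw [← Finset.card_map Fin.valEmbedding]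
      refine fibM (X := X) (M := M) (a := a) (f := lbh 1 (X b) (M b)) hc0
        (by nlinarith [one_le_pow₀ hB (n := 2)]) le_rfl hρX1 _ ?_
      intro k hk
      rw [Finset.mem_map] at hk
      obtain ⟨k', hk', rfl⟩ := hk
      rw [Finset.mem_filter] at hk'
      exact hk'.2
    · intro k b' _ hk hf
      rw [Finset.mem_filter]
      exact ⟨Finset.mem_univ _, b', hk, hf⟩
  · intro a ha
    refine ⟨(univ.filter fun b : Ω => ∃ k : Fin R,
      St4 X M (fun _ => 0) (((k : ℕ) : ℝ) * c) ρX 1 a b).image fun b => lbh L (X b) (M b), ?_, ?_⟩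
    · refine Nat.le_floor ?_
      refine crsM (X := X) (M := M) (a := a) (B := R * |c|) hL hR le_rfl hρX1 _ ?_
      intro g hg
      rw [Finset.mem_image] at hg
      obtain ⟨b, hb, he'⟩ := hg
      rw [Finset.mem_filter] at hb
      obtain ⟨k, hk⟩ := hb.2
      refine ⟨_, b, ?_, hk, he'⟩
      rw [abs_mul, abs_of_nonneg (Nat.cast_nonneg _)]
      refine mul_le_mul_of_nonneg_right ?_ hc0.le
      exact_mod_cast k.2.le
    · intro k b _ hk
      rw [Finset.mem_image]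
      exact ⟨b, by rw [Finset.mem_filter]; exact ⟨Finset.mem_univ _, k, hk⟩, rfl⟩

end Vale.Agent.P106.U.H572
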