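import Vale.Agent.P106.U.H572.Heis

/-!
# P106 / U / H572 : lattice part of a diagonal step of type (ii) (helper572)

Two generators `(u, m)`, `(w, n)` and a pure shift `c`; the words `g₁^n₀ g₂^n₁ c^k`.  In the pair of coordinates with the
maximal minor the orbit is a graph of slope `≤ 1` over this pair.
`latH` : `4 log L - (21 + 4 log B) - err ≤ H(lb5 1 | lb5 L)`.
-/

set_option autoImplicit false

namespace Vale.Agent.P106.U.H572

open Finset Vale.Agent.P127 Vale.Agent.P127.Stk Vale.Agent.P127.TV Vale.Agent.P127.TV.Lat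
open Vale.Agent.P106.TV Vale.Agent.P106.H25

variable {Ω : Type} [Fintype Ω] {X : Ω → Fin 4 → ℝ} {M : Ω → ℝ}

/-- the natural label at scale `L` in all four coordinates, `L²` in the centre (first component) -/
noncomputable def lb5 (L : ℝ) (X : Fin 4 → ℝ) (M : ℝ) : ℤ × (Fin 4 → ℤ) :=
  (⌊(M - L * ⌊X 2 / L⌋ * X 0 - L * ⌊X 3 / L⌋ * X 1) / L ^ 2⌋, fun i => ⌊X i / L⌋)

/-- powers of a generator -/
theorem sub4_pow {Q : Law Ω} {u : Fin 4 → ℝ} {m B ρ e : ℝ} (hB : 1 ≤ B) (hu : ∀ i, |u i| ≤ B)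
    (hρ : 0 ≤ ρ) (hρ1 : ρ ≤ 1) (h : SubC Q Q (St4 X M u m ρ ρ) e) (n : ℕ) :
    SubC Q Q (St4 X M (fun i => n * u i)
      (n * m + (n : ℝ) * (n - 1) / 2 * (u 0 * u 2 + u 1 * u 3)) (n * ρ)
      (5 * B * (n : ℝ) ^ 2 * ρ)) (n * e) := by
  induction n with
  | zero =>
    refine (SubC.refl Q).mono ?_ (by simp)
    rintro a b rfl
    refine ⟨fun i => by simp, by simp⟩
  | succ n ih =>
    have hn0 : (0 : ℝ) ≤ n := Nat.cast_nonneg n
    refine sub4_comp ih h (fun i => ?_) ?_ ?_ ?_ ?_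
    · push_cast; ring
    · push_cast; ring
    · push_cast; linarith
    · have h1 : ∀ i, |(n : ℝ) * u i| * ρ ≤ B * (n * ρ) := fun i => by
        rw [abs_mul, abs_of_nonneg hn0]
        have : (n : ℝ) * |u i| ≤ n * B := mul_le_mul_of_nonneg_left (hu i) hn0
        calc _ ≤ (n : ℝ) * B * ρ := mul_le_mul_of_nonneg_right this hρ
          _ = _ := by ring
      have h2 : ∀ i, |u i| * (n * ρ) ≤ B * (n * ρ) := fun i =>
        mul_le_mul_of_nonneg_right (hu i) (by positivity)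
      have h3 : n * ρ * ρ ≤ B * (n * ρ) := by
        have h4 : n * ρ * ρ ≤ n * ρ := mul_le_of_le_one_right (by positivity) hρ1
        have h5 : n * ρ ≤ B * (n * ρ) := le_mul_of_one_le_left (by positivity) hB
        linarith
      have h6 : ρ ≤ B * ρ := le_mul_of_one_le_left hρ hB
      have h7 : 0 ≤ B * (n * ρ) := by positivity
      push_cast
      nlinarith [h1 2, h1 3, h2 0, h2 1]
    · push_cast; linarith

/-- the central displacement of the word `g₁^n₀ g₂^n₁` -/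
noncomputable def dH (u w : Fin 4 → ℝ) (m m' : ℝ) (n : Fin 2 → ℕ) : ℝ :=
  (n 0 * m + (n 0 : ℝ) * (n 0 - 1) / 2 * (u 0 * u 2 + u 1 * u 3)) +
    (n 1 * m' + (n 1 : ℝ) * (n 1 - 1) / 2 * (w 0 * w 2 + w 1 * w 3)) +
      (n 1 * w 0) * (n 0 * u 2) + (n 1 * w 1) * (n 0 * u 3)

theorem dH_le {u w : Fin 4 → ℝ} {m m' B : ℝ} (hB : 1 ≤ B) (hu : ∀ i, |u i| ≤ B)
    (hw : ∀ i, |w i| ≤ B) (hm : |m| ≤ B ^ 2) (hm' : |m'| ≤ B ^ 2) {n : Fin 2 → ℕ} {R : ℕ}
    (hR : 1 ≤ R) (hn : ∀ i, n i ≤ R) : |dH u w m m' n| ≤ 6 * (B ^ 2 * (R : ℝ) ^ 2) := by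
  have hRr : (1 : ℝ) ≤ R := by exact_mod_cast hR
  have h0 : ∀ i, (0 : ℝ) ≤ n i := fun i => Nat.cast_nonneg _
  have hnR : ∀ i, (n i : ℝ) ≤ R := fun i => by exact_mod_cast hn i
  have hB0 : 0 ≤ B := by linarith
  have hp : ∀ (x y : ℝ), |x| ≤ B → |y| ≤ B → |x * y| ≤ B ^ 2 := fun x y hx hy => by
    rw [abs_mul, pow_two]
    exact mul_le_mul hx hy (abs_nonneg _) hB0
  have hBR : 0 ≤ B ^ 2 * (R : ℝ) ^ 2 := by positivity
  have hRR : (R : ℝ) ≤ (R : ℝ) ^ 2 := by nlinarith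
  have a1 : ∀ (i : Fin 2) (x : ℝ), |x| ≤ B ^ 2 → |(n i : ℝ) * x| ≤ B ^ 2 * (R : ℝ) ^ 2 := by
    intro i x hx
    rw [abs_mul, abs_of_nonneg (h0 i), mul_comm]
    exact mul_le_mul hx ((hnR i).trans hRR) (h0 i) (by positivity)
  have a2 : ∀ (i : Fin 2) (x : ℝ), |x| ≤ 2 * B ^ 2 →
      |(n i : ℝ) * (n i - 1) / 2 * x| ≤ B ^ 2 * (R : ℝ) ^ 2 := by
    intro i x hx
    rw [abs_mul]
    have h1 : |(n i : ℝ) * (n i - 1) / 2| ≤ (R : ℝ) ^ 2 / 2 := by
      rcases Nat.eq_zero_or_pos (n i) with e | e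
      · rw [e]
        simp
        positivity
      · have e1 : (1 : ℝ) ≤ n i := by exact_mod_cast e
        rw [abs_of_nonneg (by have := h0 i; nlinarith)]
        have := hnR i
        nlinarith
    calc _ ≤ (R : ℝ) ^ 2 / 2 * (2 * B ^ 2) :=
          mul_le_mul h1 hx (abs_nonneg _) (by positivity)
      _ = _ := by ring
  have a3 : ∀ (x y : ℝ), |x| ≤ B → |y| ≤ B → |((n 1 : ℝ) * x) * (n 0 * y)| ≤
      B ^ 2 * (R : ℝ) ^ 2 := by
    intro x y hx hy
    have e : ((n 1 : ℝ) * x) * (n 0 * y) = (x * y) * (n 1 * n 0) := by ring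
    rw [e, abs_mul, abs_of_nonneg (mul_nonneg (h0 1) (h0 0)), pow_two (R : ℝ)]
    exact mul_le_mul (hp x y hx hy) (mul_le_mul (hnR 1) (hnR 0) (h0 0) (by positivity))
      (mul_nonneg (h0 1) (h0 0)) (by positivity)
  have q1 : ∀ (v : Fin 4 → ℝ), (∀ i, |v i| ≤ B) → |v 0 * v 2 + v 1 * v 3| ≤ 2 * B ^ 2 := by
    intro v hv
    refine (abs_add_le _ _).trans ?_
    linarith [hp _ _ (hv 0) (hv 2), hp _ _ (hv 1) (hv 3)]
  have b1 := abs_le.1 (a1 0 m hm)
  have b2 := abs_le.1 (a1 1 m' hm')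
  have b3 := abs_le.1 (a2 0 _ (q1 u hu))
  have b4 := abs_le.1 (a2 1 _ (q1 w hw))
  have b5 := abs_le.1 (a3 _ _ (hw 0) (hu 2))
  have b6 := abs_le.1 (a3 _ _ (hw 1) (hu 3))
  unfold dH
  rw [abs_le]
  constructor <;> linarith [b1.1, b1.2, b2.1, b2.2, b3.1, b3.2, b4.1, b4.2, b5.1, b5.2, b6.1, b6.2]

/-- **the words** `g₁^n₀ g₂^n₁ c^k` -/
theorem sub4_word {Q : Law Ω} {u w : Fin 4 → ℝ} {m m' c B ρ e : ℝ} {R R₃ : ℕ}
    (hB : 1 ≤ B) (hu : ∀ i, |u i| ≤ B) (hw : ∀ i, |w i| ≤ B) (hρ : 0 ≤ ρ) (he : 0 ≤ e)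
    (hR : 1 ≤ R) (hRR : R ≤ R₃) (hρ1 : R₃ * ρ ≤ 1)
    (h : SubC Q Q (St4 X M u m ρ ρ) e) (h' : SubC Q Q (St4 X M w m' ρ ρ) e)
    (hc : SubC Q Q (St4 X M (fun _ => 0) c (4 * ρ) (36 * B * ρ)) (4 * e))
    {n : Fin 2 → ℕ} (hn : ∀ i, n i ≤ R) {k : ℕ} (hk : k ≤ R₃) :
    SubC Q Q (St4 X M (fun i => n 0 * u i + n 1 * w i) (dH u w m m' n + k * c)
      ((2 * R + 4 * R₃) * ρ) (140 * B * R * R₃ * ρ)) ((2 * R + 4 * R₃) * e) := by
  have hRr : (1 : ℝ) ≤ R := by exact_mod_cast hR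
  have hRRr : (R : ℝ) ≤ R₃ := by exact_mod_cast hRR
  have hR3r : (1 : ℝ) ≤ R₃ := hRr.trans hRRr
  have hρ1' : ρ ≤ 1 := by nlinarith
  have hnR : ∀ i, (n i : ℝ) ≤ R := fun i => by exact_mod_cast hn i
  have h0 : ∀ i, (0 : ℝ) ≤ n i := fun i => Nat.cast_nonneg _
  have hkR : (k : ℝ) ≤ R₃ := by exact_mod_cast hk
  have hk0 : (0 : ℝ) ≤ k := Nat.cast_nonneg _
  have hB0 : 0 ≤ B := by linarith
  have hp : ∀ (v : Fin 4 → ℝ), (∀ i, |v i| ≤ B) → ∀ i j, |(n i : ℝ) * v j| ≤ B * R := by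
    intro v hv i j
    rw [abs_mul, abs_of_nonneg (h0 i), mul_comm]
    exact mul_le_mul (hv j) (hnR i) (h0 i) hB0
  have hnsq : ∀ i, (n i : ℝ) ^ 2 ≤ (R : ℝ) ^ 2 := fun i => pow_le_pow_left₀ (h0 i) (hnR i) 2
  have hnρ : ∀ i, (n i : ℝ) * ρ ≤ R * ρ := fun i => mul_le_mul_of_nonneg_right (hnR i) hρ
  have hsq : ∀ i, 5 * B * (n i : ℝ) ^ 2 * ρ ≤ 5 * (B * (R : ℝ) ^ 2 * ρ) := fun i => by
    have : B * (n i : ℝ) ^ 2 * ρ ≤ B * (R : ℝ) ^ 2 * ρ :=
      mul_le_mul_of_nonneg_right (mul_le_mul_of_nonneg_left (hnsq i) hB0) hρ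
    linarith
  set T : ℝ := B * R * R₃ * ρ with hT
  have hT0 : 0 ≤ T := by positivity
  have t1 : B * (R : ℝ) ^ 2 * ρ ≤ T := by
    rw [hT, pow_two]
    have : B * ((R : ℝ) * R) ≤ B * R * R₃ := by
      rw [mul_assoc]
      exact mul_le_mul_of_nonneg_left (mul_le_mul_of_nonneg_left hRRr (by linarith)) hB0
    exact mul_le_mul_of_nonneg_right this hρ
  have t2 : B * R₃ * ρ ≤ T := by
    rw [hT]
    have : B * (R₃ : ℝ) ≤ B * R * R₃ := by
      have : (R₃ : ℝ) ≤ R * R₃ := le_mul_of_one_le_left (by linarith) hRr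
      nlinarith
    exact mul_le_mul_of_nonneg_right this hρ
  have t3 : (R : ℝ) * R₃ * ρ ≤ T := by
    rw [hT]
    have : (R : ℝ) * R₃ ≤ B * R * R₃ := by
      rw [mul_assoc B]
      exact le_mul_of_one_le_left (by positivity) hB
    exact mul_le_mul_of_nonneg_right this hρ
  have t4 : (R₃ : ℝ) * ρ ≤ T := by
    have : (R₃ : ℝ) ≤ R * R₃ := le_mul_of_one_le_left (by linarith) hRr
    exact (mul_le_mul_of_nonneg_right this hρ).trans t3
  -- g₁^n₀ g₂^n₁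
  have s1 : SubC Q Q (St4 X M (fun i => (n 0 : ℝ) * u i + n 1 * w i) (dH u w m m' n)
      (2 * R * ρ) (16 * T)) (2 * R * e) := by
    refine sub4_comp (sub4_pow hB hu hρ hρ1' h (n 0)) (sub4_pow hB hw hρ hρ1' h' (n 1))
      (fun i => rfl) rfl ?_ ?_ ?_
    · linarith [hnρ 0, hnρ 1]
    · have b1 : ∀ j, |(n 0 : ℝ) * u j| * (n 1 * ρ) ≤ B * (R : ℝ) ^ 2 * ρ := fun j => by
        calc _ ≤ B * R * (R * ρ) := mul_le_mul (hp u hu 0 j) (hnρ 1) (by have := h0 1; positivity) (by positivity)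
          _ = _ := by ring
      have b2 : ∀ j, |(n 1 : ℝ) * w j| * (n 0 * ρ) ≤ B * (R : ℝ) ^ 2 * ρ := fun j => by
        calc _ ≤ B * R * (R * ρ) := mul_le_mul (hp w hw 1 j) (hnρ 0) (by have := h0 0; positivity) (by positivity)
          _ = _ := by ring
      have b3 : (n 0 : ℝ) * ρ * (n 1 * ρ) ≤ B * (R : ℝ) ^ 2 * ρ := by
        have c1 : (n 1 : ℝ) * ρ ≤ R := (mul_le_of_le_one_right (h0 1) hρ1').trans (hnR 1)
        calc _ ≤ R * ρ * R := mul_le_mul (hnρ 0) c1 (by have := h0 1; positivity) (by positivity)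
          _ = (R : ℝ) ^ 2 * ρ := by ring
          _ ≤ B * ((R : ℝ) ^ 2 * ρ) := le_mul_of_one_le_left (by positivity) hB
          _ = _ := by ring
      linarith [hsq 0, hsq 1, b1 2, b1 3, b2 0, b2 1]
    · have : ∀ i, (n i : ℝ) * e ≤ R * e := fun i => mul_le_mul_of_nonneg_right (hnR i) he
      linarith [this 0, this 1]
  -- the shift
  have s2 := sub4_shift hc k
  refine sub4_comp s1 s2 (fun i => by ring) (by ring) ?_ ?_ ?_
  · have := mul_le_mul_of_nonneg_right hkR hρ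
    linarith
  · have c1 : ∀ j, |(n 0 : ℝ) * u j + n 1 * w j| ≤ 2 * (B * R) := fun j =>
      (abs_add_le _ _).trans (by linarith [hp u hu 0 j, hp w hw 1 j])
    have c2 : ∀ j, |(n 0 : ℝ) * u j + n 1 * w j| * (k * (4 * ρ)) ≤ 8 * T := fun j => by
      calc _ ≤ 2 * (B * R) * (R₃ * (4 * ρ)) :=
            mul_le_mul (c1 j) (mul_le_mul_of_nonneg_right hkR (by positivity)) (by positivity)
              (by positivity)
        _ = 8 * T := by rw [hT]; ring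
    have c3 : (k : ℝ) * (36 * B * ρ) ≤ 36 * T := by
      calc _ ≤ (R₃ : ℝ) * (36 * B * ρ) := mul_le_mul_of_nonneg_right hkR (by positivity)
        _ = 36 * (B * R₃ * ρ) := by ring
        _ ≤ _ := by linarith
    have c4 : (k : ℝ) ^ 2 * (4 * ρ) ^ 2 ≤ 16 * T := by
      have e1 : (k : ℝ) ^ 2 * (4 * ρ) ^ 2 = 16 * ((k * ρ) * (k * ρ)) := by ring
      have e2 : (k : ℝ) * ρ ≤ R₃ * ρ := mul_le_mul_of_nonneg_right hkR hρ
      have e3 : ((k : ℝ) * ρ) * (k * ρ) ≤ (R₃ * ρ) * 1 :=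
        mul_le_mul e2 (e2.trans hρ1) (by positivity) (by positivity)
      rw [e1]; linarith
    have c5 : 2 * R * ρ * (k * (4 * ρ)) ≤ 8 * T := by
      have e2 : (k : ℝ) * (4 * ρ) ≤ R₃ * 4 := mul_le_mul hkR (by linarith) (by positivity) (by positivity)
      calc 2 * R * ρ * (k * (4 * ρ)) ≤ 2 * R * ρ * (R₃ * 4) :=
            mul_le_mul_of_nonneg_left e2 (by positivity)
        _ = 8 * (R * R₃ * ρ) := by ring
        _ ≤ 8 * T := by linarith
    simp only [abs_zero, zero_mul, add_zero]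
    have c6 : 140 * B * R * R₃ * ρ = 140 * T := by rw [hT]; ring
    rw [c6]
    linarith [c2 2, c2 3]
  · have : (k : ℝ) * (4 * e) ≤ R₃ * (4 * e) := mul_le_mul_of_nonneg_right hkR (by positivity)
    linarith

/-- **the pair of coordinates with the maximal minor** -/
theorem maxminor (u w : Fin 4 → ℝ) {μ : ℝ} (hμ : 0 < μ) (h : μ ≤ |u 0 * w 1 - u 1 * w 0|) :
    ∃ i j : Fin 4, μ ≤ |u i * w j - u j * w i| ∧ ∀ l, ∃ α β : ℝ, |α| ≤ 1 ∧ |β| ≤ 1 ∧
      u l = α * u i + β * u j ∧ w l = α * w i + β * w j := by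
  obtain ⟨⟨i, j⟩, hmax⟩ := Finite.exists_max (fun p : Fin 4 × Fin 4 => |u p.1 * w p.2 - u p.2 * w p.1|)
  have hD : μ ≤ |u i * w j - u j * w i| := h.trans (hmax (0, 1))
  refine ⟨i, j, hD, fun l => ?_⟩
  set D : ℝ := u i * w j - u j * w i with hDdef
  have hD0 : 0 < |D| := hμ.trans_le hD
  have hDne : D ≠ 0 := abs_pos.1 hD0
  refine ⟨(u l * w j - u j * w l) / D, (u i * w l - u l * w i) / D, ?_, ?_, ?_, ?_⟩
  · rw [abs_div, div_le_one hD0]
    exact hmax (l, j)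
  · rw [abs_div, div_le_one hD0]
    exact hmax (i, l)
  · field_simp
    rw [hDdef]; ring
  · field_simp
    rw [hDdef]; ring

omit [Fintype Ω] in
/-- the fine label determines `k c` up to `5 / 2` -/
theorem fibH {c C d Y ρX σM : ℝ} {U : Fin 4 → ℝ} {a : Ω} {f : ℤ × (Fin 4 → ℤ)} (hc0 : 0 < |c|)
    (hc : 5 + |c| ≤ C) (hU : ∀ i, |U i| ≤ Y) (hY : 0 ≤ Y) (hσ : σM ≤ 1)
    (hρ : ρX * (Y + 3) ≤ 1 / 4) (hρ0 : 0 ≤ ρX) (S : Finset ℕ)
    (hS : ∀ k ∈ S, ∃ b, St4 X M U (d + (k : ℝ) * c) ρX σM a b ∧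
      lb5 1 (X b) (M b) = f) : (S.card : ℝ) ≤ C / |c| := by
  have hρ1 : ρX ≤ 1 := by nlinarith
  have h5 := card_nat_le S c ((f.1 : ℝ) + 1 / 2 + ((f.2 2 : ℝ) - X a 2) * (X a 0 + U 0) +
    ((f.2 3 : ℝ) - X a 3) * (X a 1 + U 1) + X a 2 * X a 0 + X a 3 * X a 1 - M a - d)
    (5 / 2) (abs_pos.1 hc0) (by norm_num) ?_
  · refine h5.trans ?_
    rw [div_add_one hc0.ne']
    exact div_le_div_of_nonneg_right (by linarith) hc0.le
  · intro k hk
    obtain ⟨b, hW, hF⟩ := hS k hk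
    have g4 := hW.2.trans hσ
    rw [Prod.ext_iff] at hF
    obtain ⟨k1, k2⟩ := hF
    have q2 : ⌊X b 2⌋ = f.2 2 := by simpa [lb5] using congrFun k2 2
    have q3 : ⌊X b 3⌋ = f.2 3 := by simpa [lb5] using congrFun k2 3
    simp only [lb5, div_one, one_pow, one_mul] at k1
    rw [q2, q3] at k1
    have m1 := Int.floor_le (X b 2)
    have m1' := Int.lt_floor_add_one (X b 2)
    have m2 := Int.floor_le (X b 3)
    have m2' := Int.lt_floor_add_one (X b 3)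
    have m3 := Int.floor_le (M b - (f.2 2 : ℝ) * X b 0 - (f.2 3 : ℝ) * X b 1)
    have m3' := Int.lt_floor_add_one (M b - (f.2 2 : ℝ) * X b 0 - (f.2 3 : ℝ) * X b 1)
    rw [q2] at m1 m1'
    rw [q3] at m2 m2'
    rw [k1] at m3 m3'
    have g2 := (hW.1 2).trans hρ1
    have g3 := (hW.1 3).trans hρ1
    have hU2 := hU 2
    have hU3 := hU 3
    have m4 : |(f.2 2 : ℝ) - X a 2| ≤ Y + 3 := by
      rw [abs_le] at g2 hU2 ⊢
      constructor <;> linarith [g2.1, g2.2, hU2.1, hU2.2]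
    have m5 : |(f.2 3 : ℝ) - X a 3| ≤ Y + 3 := by
      rw [abs_le] at g3 hU3 ⊢
      constructor <;> linarith [g3.1, g3.2, hU3.1, hU3.2]
    have m6 : |((f.2 2 : ℝ) - X a 2) * (X b 0 - X a 0 - U 0)| ≤ 1 / 4 := by
      rw [abs_mul]
      calc _ ≤ (Y + 3) * ρX := mul_le_mul m4 (hW.1 0) (abs_nonneg _) (by linarith)
        _ ≤ 1 / 4 := by linarith
    have m7 : |((f.2 3 : ℝ) - X a 3) * (X b 1 - X a 1 - U 1)| ≤ 1 / 4 := by
      rw [abs_mul]
      calc _ ≤ (Y + 3) * ρX := mul_le_mul m5 (hW.1 1) (abs_nonneg _) (by linarith)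
        _ ≤ 1 / 4 := by linarith
    have e0 : (k : ℝ) * c - ((f.1 : ℝ) + 1 / 2 + ((f.2 2 : ℝ) - X a 2) * (X a 0 + U 0) +
        ((f.2 3 : ℝ) - X a 3) * (X a 1 + U 1) + X a 2 * X a 0 + X a 3 * X a 1 - M a - d) =
        -(M b - M a - X a 2 * (X b 0 - X a 0) - X a 3 * (X b 1 - X a 1) - (d + k * c)) +
          ((M b - (f.2 2 : ℝ) * X b 0 - (f.2 3 : ℝ) * X b 1) - (f.1 + 1 / 2)) +
          ((f.2 2 : ℝ) - X a 2) * (X b 0 - X a 0 - U 0) +
          ((f.2 3 : ℝ) - X a 3) * (X b 1 - X a 1 - U 1) := by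
      ring
    rw [e0]
    rw [abs_le] at g4 m6 m7 ⊢
    constructor <;> linarith [g4.1, g4.2, m6.1, m6.2, m7.1, m7.2]

omit [Fintype Ω] in
/-- number of coarse labels over a point and a coarse cell of the pair `(i, j)` -/
theorem crsH {L A Y ρX σM : ℝ} {a : Ω} {i j : Fin 4} {q₁ q₂ : ℤ} (α β : Fin 4 → ℝ)
    (hαβ : ∀ l, |α l| ≤ 1 ∧ |β l| ≤ 1) (hL : 1 ≤ L) (hLY : L ≤ Y)
    (hYA : 10 * Y ^ 2 ≤ A) (hσ : σM ≤ 1) (hρ : ρX ≤ 1)
    (S : Finset (ℤ × (Fin 4 → ℤ)))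
    (hS : ∀ g ∈ S, ∃ (U : Fin 4 → ℝ) (d kc : ℝ) (b : Ω), (∀ l, |U l| ≤ Y) ∧
      (∀ l, U l = α l * U i + β l * U j) ∧ |d| ≤ 6 * Y ^ 2 ∧
      |kc| ≤ A ∧ St4 X M U (d + kc) ρX σM a b ∧ ⌊X b i / L⌋ = q₁ ∧ ⌊X b j / L⌋ = q₂ ∧
      lb5 L (X b) (M b) = g) : (S.card : ℝ) ≤ 6 * A / L ^ 2 * 10000 := by
  classical
  have hL0 : 0 < L := by linarith
  have hY0 : 0 < Y := by linarith
  have hY1 : 1 ≤ Y := hL.trans hLY
  have hLL : L ^ 2 ≤ Y ^ 2 := pow_le_pow_left₀ hL0.le hLY 2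
  have hYY : 1 ≤ Y ^ 2 := one_le_pow₀ hY1
  have hA0 : 0 < A := by nlinarith
  -- the boxes
  set ctr : Fin 4 → ℝ := fun l => X a l + α l * (((q₁ : ℝ) + 1 / 2) * L - X a i) +
    β l * (((q₂ : ℝ) + 1 / 2) * L - X a j) with hctr
  have hbox : ∀ g ∈ S, ∀ l, |(g.2 l : ℝ) * L - (ctr l - L / 2)| ≤ 3 / 2 * L + 3 := by
    intro g hg l
    obtain ⟨U, d, kc, b, h1, h2, _, _, hW, h5, h6, h7⟩ := hS g hg
    have k2 : ⌊X b l / L⌋ = g.2 l := congrFun (congrArg Prod.snd h7) l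
    have m1 := abs_fl hL0 k2
    have m2 := abs_fl hL0 h5
    have m3 := abs_fl hL0 h6
    have g1 := (hW.1 l).trans hρ
    have g2 := (hW.1 i).trans hρ
    have g3 := (hW.1 j).trans hρ
    have p1 : |α l * (U i - (((q₁ : ℝ) + 1 / 2) * L - X a i))| ≤ L / 2 + 1 := by
      rw [abs_mul]
      have : |U i - (((q₁ : ℝ) + 1 / 2) * L - X a i)| ≤ L / 2 + 1 := by
        rw [abs_le] at m2 g2 ⊢
        constructor <;> linarith [m2.1, m2.2, g2.1, g2.2]
      calc _ ≤ 1 * (L / 2 + 1) := mul_le_mul (hαβ l).1 this (abs_nonneg _) (by norm_num)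
        _ = _ := by ring
    have p2 : |β l * (U j - (((q₂ : ℝ) + 1 / 2) * L - X a j))| ≤ L / 2 + 1 := by
      rw [abs_mul]
      have : |U j - (((q₂ : ℝ) + 1 / 2) * L - X a j)| ≤ L / 2 + 1 := by
        rw [abs_le] at m3 g3 ⊢
        constructor <;> linarith [m3.1, m3.2, g3.1, g3.2]
      calc _ ≤ 1 * (L / 2 + 1) := mul_le_mul (hαβ l).2 this (abs_nonneg _) (by norm_num)
        _ = _ := by ring
    have e : (g.2 l : ℝ) * L - (ctr l - L / 2) = -(X b l - ((g.2 l : ℝ) + 1 / 2) * L) +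
        (X b l - X a l - U l) + α l * (U i - (((q₁ : ℝ) + 1 / 2) * L - X a i)) +
        β l * (U j - (((q₂ : ℝ) + 1 / 2) * L - X a j)) := by
      have := h2 l
      rw [hctr]
      simp only
      linear_combination this
    rw [e]
    rw [abs_le] at m1 g1 p1 p2 ⊢
    constructor <;> linarith [m1.1, m1.2, g1.1, g1.2, p1.1, p1.2, p2.1, p2.2]
  have hcl : ∀ l, ((S.image fun g => g.2 l).card : ℝ) ≤ 10 := by
    intro l
    have h1 := card_int_le (S.image fun g => g.2 l) L (ctr l - L / 2) (3 / 2 * L + 3) hL0.ne'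
      (by positivity) (by
        intro z hz
        rw [Finset.mem_image] at hz
        obtain ⟨g, hg, rfl⟩ := hz
        exact hbox g hg l)
    refine h1.trans ?_
    rw [abs_of_pos hL0, div_add_one hL0.ne', div_le_iff₀ hL0]
    linarith
  refine card_pair_le _ _ _ (by positivity) ?_ ?_
  · intro T hT
    have hsub : T ⊆ Fintype.piFinset fun l : Fin 4 => S.image fun g => g.2 l := by
      intro q hq
      obtain ⟨w, hw⟩ := hT q hq
      rw [Fintype.mem_piFinset]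
      intro l
      rw [Finset.mem_image]
      exact ⟨_, hw, rfl⟩
    have h3 := Finset.card_le_card hsub
    rw [Fintype.card_piFinset] at h3
    have h4 : ((∏ l : Fin 4, (S.image fun g => g.2 l).card : ℕ) : ℝ) ≤ 10000 := by
      push_cast
      calc _ ≤ ∏ _l : Fin 4, (10 : ℝ) :=
            Finset.prod_le_prod (fun l _ => Nat.cast_nonneg _) fun l _ => hcl l
        _ = 10000 := by simp; norm_num
    exact (by exact_mod_cast h3 : (T.card : ℝ) ≤ ((∏ l : Fin 4, (S.image fun g => g.2 l).card : ℕ) : ℝ)).trans h4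
  · intro z T hT
    have h5 := card_int_le T (L ^ 2) (M a - X a 2 * X a 0 - X a 3 * X a 1 +
      (X a 2 - L * z 2) * (((z 0 : ℝ) + 1 / 2) * L) + (X a 3 - L * z 3) * (((z 1 : ℝ) + 1 / 2) * L))
      (11 * Y ^ 2 + A) (by positivity) (by positivity) ?_
    · refine h5.trans ?_
      rw [abs_of_pos (by positivity), div_add_one (by positivity)]
      refine div_le_div_of_nonneg_right ?_ (by positivity)
      nlinarith
    · intro w hw
      obtain ⟨U, d, kc, b, h1, _, hd, hkc, hW, _, _, h7⟩ := hS _ (hT w hw)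
      rw [Prod.ext_iff] at h7
      obtain ⟨k1, k2⟩ := h7
      have z0 : ⌊X b 0 / L⌋ = z 0 := congrFun k2 0
      have z1 : ⌊X b 1 / L⌋ = z 1 := congrFun k2 1
      have z2 : ⌊X b 2 / L⌋ = z 2 := congrFun k2 2
      have z3 : ⌊X b 3 / L⌋ = z 3 := congrFun k2 3
      simp only [lb5] at k1
      rw [z2, z3] at k1
      have m0 := abs_fl hL0 z0
      have m1 := abs_fl hL0 z1
      have m2 := abs_fl hL0 z2
      have m3 := abs_fl hL0 z3
      have m4 := abs_fl (by positivity : 0 < L ^ 2) k1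
      have g2 := (hW.1 2).trans hρ
      have g3 := (hW.1 3).trans hρ
      have g4 := hW.2.trans hσ
      have hU2 := h1 2
      have hU3 := h1 3
      have n2 : |X a 2 - L * z 2| ≤ 3 * Y := by
        rw [abs_le] at m2 g2 hU2 ⊢
        constructor <;> nlinarith [m2.1, m2.2, g2.1, g2.2, hU2.1, hU2.2]
      have n3 : |X a 3 - L * z 3| ≤ 3 * Y := by
        rw [abs_le] at m3 g3 hU3 ⊢
        constructor <;> nlinarith [m3.1, m3.2, g3.1, g3.2, hU3.1, hU3.2]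
      have p2 : |(X a 2 - L * z 2) * (X b 0 - ((z 0 : ℝ) + 1 / 2) * L)| ≤ 3 / 2 * Y ^ 2 := by
        rw [abs_mul]
        calc _ ≤ 3 * Y * (L / 2) := mul_le_mul n2 m0 (abs_nonneg _) (by positivity)
          _ ≤ 3 * Y * (Y / 2) := by
              refine mul_le_mul_of_nonneg_left ?_ (by positivity)
              linarith
          _ = _ := by ring
      have p3 : |(X a 3 - L * z 3) * (X b 1 - ((z 1 : ℝ) + 1 / 2) * L)| ≤ 3 / 2 * Y ^ 2 := by
        rw [abs_mul]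
        calc _ ≤ 3 * Y * (L / 2) := mul_le_mul n3 m1 (abs_nonneg _) (by positivity)
          _ ≤ 3 * Y * (Y / 2) := by
              refine mul_le_mul_of_nonneg_left ?_ (by positivity)
              linarith
          _ = _ := by ring
      have e0 : (w : ℝ) * L ^ 2 - (M a - X a 2 * X a 0 - X a 3 * X a 1 +
          (X a 2 - L * z 2) * (((z 0 : ℝ) + 1 / 2) * L) +
          (X a 3 - L * z 3) * (((z 1 : ℝ) + 1 / 2) * L)) =
          -((M b - L * (z 2 : ℝ) * X b 0 - L * (z 3 : ℝ) * X b 1) - ((w : ℝ) + 1 / 2) * L ^ 2) -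
            1 / 2 * L ^ 2 +
          (M b - M a - X a 2 * (X b 0 - X a 0) - X a 3 * (X b 1 - X a 1) - (d + kc)) + d + kc +
          (X a 2 - L * z 2) * (X b 0 - ((z 0 : ℝ) + 1 / 2) * L) +
          (X a 3 - L * z 3) * (X b 1 - ((z 1 : ℝ) + 1 / 2) * L) := by
        ring
      rw [e0]
      rw [abs_le] at g4 m4 p2 p3 hd hkc ⊢
      constructor <;> linarith [g4.1, g4.2, m4.1, m4.2, p2.1, p2.2, p3.1, p3.2, hd.1, hd.2,
        hkc.1, hkc.2]

/-- numerical end -/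
theorem numLH {L R₃ c B E H : ℝ} (hL : 0 < L) (hR3 : 0 < R₃) (hc : 0 < c) (hB : 0 < B)
    (key : (2 : ℝ) * Real.log (L / B / 1) - 2 * Real.log (3 * (2 * 2 + 3)) +
      (Real.log R₃ - Real.log (9 * B ^ 2 / c) - Real.log (6 * (R₃ * c) / L ^ 2 * 10000)) - E ≤ H) :
    4 * Real.log L - (20 + 4 * Real.log B) - E ≤ H := by
  have e1 : Real.log (9 * B ^ 2 / c) = Real.log 9 + 2 * Real.log B - Real.log c := by
    rw [Real.log_div (by positivity) hc.ne', Real.log_mul (by norm_num) (by positivity),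
      Real.log_pow]
    push_cast; ring
  have e2 : Real.log (6 * (R₃ * c) / L ^ 2 * 10000) =
      Real.log 60000 + Real.log R₃ + Real.log c - 2 * Real.log L := by
    have e3 : 6 * (R₃ * c) / L ^ 2 * 10000 = 60000 * R₃ * c / L ^ 2 := by
      field_simp
      ring
    rw [e3, Real.log_div (by positivity) (by positivity), Real.log_mul (by positivity)
      (by positivity), Real.log_mul (by norm_num) (by positivity), Real.log_pow]
    push_cast; ring
  rw [e1, e2, div_one, Real.log_div hL.ne' hB.ne'] at key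
  have e4 : 2 * Real.log (3 * (2 * 2 + 3)) + (Real.log 9 + Real.log 60000) ≤ 20 := by
    have h1 : 2 * Real.log (3 * (2 * 2 + 3)) + (Real.log 9 + Real.log 60000) =
        Real.log (21 ^ 2 * (9 * 60000)) := by
      have q1 : Real.log ((21 : ℝ) ^ 2 * (9 * 60000)) = Real.log ((21 : ℝ) ^ 2) +
        Real.log (9 * 60000) := Real.log_mul (by norm_num) (by norm_num)
      have q2 : Real.log ((9 : ℝ) * 60000) = Real.log 9 + Real.log 60000 :=
        Real.log_mul (by norm_num) (by norm_num)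
      have q3 : (3 : ℝ) * (2 * 2 + 3) = 21 := by norm_num
      rw [q1, q2, q3, Real.log_pow]
      push_cast
      ring
    rw [h1]
    have h2 : Real.log (21 ^ 2 * (9 * 60000)) ≤ Real.log (Real.exp 20) := by
      refine Real.log_le_log (by norm_num) ?_
      have h3 : (2.7182818283 : ℝ) ^ 20 ≤ Real.exp 20 := by
        have h4 : Real.exp 20 = Real.exp 1 ^ 20 := by
          rw [← Real.exp_nat_mul]; norm_num
        rw [h4]
        exact pow_le_pow_left₀ (by norm_num) Real.exp_one_gt_d9.le 20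
      refine le_trans ?_ h3
      norm_num
    rwa [Real.log_exp] at h2
  linarith

/-- the floor of `x / L` seen from `x / B` -/
theorem fl_div (x L B : ℝ) (hB : B ≠ 0) : ⌊(x / B) / (L / B)⌋ = ⌊x / L⌋ := by
  congr 1
  rcases eq_or_ne L 0 with e | e
  · rw [e]; simp
  · field_simp

/-- **SATURATION** of all coordinates (`4 log L`) from two generators and a pure shift -/
theorem latH (Q : Law Ω) {u w : Fin 4 → ℝ} {m m' c L μ ρ e : ℝ} {B R R₃ : ℕ} (hB : 1 ≤ B)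
    (hu : ∀ i, |u i| ≤ B) (hw : ∀ i, |w i| ≤ B) (hm : |m| ≤ (B : ℝ) ^ 2)
    (hm' : |m'| ≤ (B : ℝ) ^ 2)
    (hμ : 0 < μ) (hdet : μ ≤ |u 0 * w 1 - u 1 * w 0|) (hc0 : 0 < |c|) (hcB : |c| ≤ 4 * (B : ℝ) ^ 2)
    (hL : B ≤ L) (hR : 8 * L * B ≤ R * μ) (hR3 : 40 * (B : ℝ) ^ 2 * (R : ℝ) ^ 2 ≤ R₃ * |c|)
    (hρ : 0 ≤ ρ) (hRρ : 140 * B * R * R₃ * ρ ≤ 1) (he : 0 ≤ e)
    (h : SubC Q Q (St4 X M u m ρ ρ) e) (h' : SubC Q Q (St4 X M w m' ρ ρ) e)
    (hcs : SubC Q Q (St4 X M (fun _ => 0) c (4 * ρ) (36 * B * ρ)) (4 * e)) :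
    4 * Real.log L - (20 + 4 * Real.log B) -
        (2 * R + 4 * R₃) * e * (1 + 2 * Real.log R + Real.log R₃) ≤
      hc Q (fun ω => lb5 1 (X ω) (M ω)) (fun ω => lb5 L (X ω) (M ω)) := by
  classical
  obtain ⟨i, j, hD, hcr⟩ := maxminor u w hμ hdet
  choose α β hα hβ hul hwl using hcr
  have hBr : (1 : ℝ) ≤ B := by exact_mod_cast hB
  have hB0 : (0 : ℝ) < B := by linarith
  have hL1 : 1 ≤ L := hBr.trans hL
  have hL0 : 0 < L := by linarith
  have hBB : (1 : ℝ) ≤ (B : ℝ) ^ 2 := one_le_pow₀ hBr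
  -- size of `μ`
  have hμB : μ ≤ 2 * (B : ℝ) ^ 2 := by
    refine hdet.trans ((abs_sub _ _).trans ?_)
    rw [abs_mul, abs_mul, pow_two]
    have h1 : |u 0| * |w 1| ≤ B * B := mul_le_mul (hu 0) (hw 1) (abs_nonneg _) hB0.le
    have h2 : |u 1| * |w 0| ≤ B * B := mul_le_mul (hu 1) (hw 0) (abs_nonneg _) hB0.le
    linarith
  have hR0' : (0 : ℝ) ≤ R := Nat.cast_nonneg _
  have hLR : 4 * L ≤ R * B := by
    have h1 : (R : ℝ) * μ ≤ R * (2 * (B : ℝ) ^ 2) := mul_le_mul_of_nonneg_left hμB hR0'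
    have h2 : B * (4 * L) ≤ B * (R * B) := by nlinarith
    exact le_of_mul_le_mul_left h2 hB0
  have hRr : (4 : ℝ) ≤ R := by
    by_contra hcon
    push Not at hcon
    have : (R : ℝ) * B < 4 * B := mul_lt_mul_of_pos_right hcon hB0
    linarith
  have hR0 : 0 < R := by
    have : (0 : ℝ) < R := by linarith
    exact_mod_cast this
  have hR3R : (R : ℝ) ≤ R₃ := by
    have h1 : (R₃ : ℝ) * |c| ≤ R₃ * (4 * (B : ℝ) ^ 2) :=
      mul_le_mul_of_nonneg_left hcB (Nat.cast_nonneg _)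
    have h2 : (B : ℝ) ^ 2 * (10 * (R : ℝ) ^ 2) ≤ (B : ℝ) ^ 2 * R₃ := by nlinarith
    have h3 := le_of_mul_le_mul_left h2 (by positivity)
    nlinarith
  have hR3r : (0 : ℝ) < R₃ := by linarith
  have hR30 : 0 < R₃ := by exact_mod_cast hR3r
  have hRR : R ≤ R₃ := by exact_mod_cast hR3R
  set T : ℝ := B * R * R₃ * ρ with hT
  have hT0 : 0 ≤ T := by positivity
  have hT1 : 140 * T ≤ 1 := by rw [hT]; linarith
  have t3 : (R : ℝ) * R₃ * ρ ≤ T := by
    rw [hT, mul_assoc (B : ℝ), mul_assoc (B : ℝ)]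
    exact le_mul_of_one_le_left (by positivity) hBr
  have t4 : (R₃ : ℝ) * ρ ≤ T := by
    have : (R₃ : ℝ) ≤ R * R₃ := le_mul_of_one_le_left hR3r.le (by linarith)
    exact (mul_le_mul_of_nonneg_right this hρ).trans t3
  have t5 : (R : ℝ) * ρ ≤ T := (mul_le_mul_of_nonneg_right hR3R hρ).trans t4
  set ρX : ℝ := (2 * R + 4 * R₃) * ρ with hρX
  set σM : ℝ := 140 * B * R * R₃ * ρ with hσM
  have hρX0 : 0 ≤ ρX := by positivity
  have hρX1 : ρX ≤ 1 := by
    have : ρX = 2 * (R * ρ) + 4 * (R₃ * ρ) := by rw [hρX]; ring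
    rw [this]; linarith
  set Y : ℝ := 2 * B * R with hYdef
  have hY0 : 0 < Y := by positivity
  have hρX2 : ρX * (Y + 3) ≤ 1 / 4 := by
    have e1 : ρX * (Y + 3) = 4 * (B * R * ρ * R) + 8 * T + 6 * (R * ρ) + 12 * (R₃ * ρ) := by
      rw [hρX, hYdef, hT]; ring
    have e2 : B * R * ρ * R ≤ T := by
      have : (B : ℝ) * R * ρ * R ≤ B * R * ρ * R₃ :=
        mul_le_mul_of_nonneg_left hR3R (by positivity)
      refine this.trans (le_of_eq ?_)
      rw [hT]; ring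
    rw [e1]; linarith
  have hUY : ∀ (n : Fin 2 → ℕ), (∀ t, n t < R) → ∀ l, |(n 0 : ℝ) * u l + n 1 * w l| ≤ Y := by
    intro n hn l
    have hnR : ∀ t, (n t : ℝ) ≤ R := fun t => by exact_mod_cast (hn t).le
    have h0 : ∀ t, (0 : ℝ) ≤ n t := fun t => Nat.cast_nonneg _
    refine (abs_add_le _ _).trans ?_
    rw [abs_mul, abs_mul, abs_of_nonneg (h0 0), abs_of_nonneg (h0 1)]
    have h1 : (n 0 : ℝ) * |u l| ≤ R * B := mul_le_mul (hnR 0) (hu l) (abs_nonneg _) hR0'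
    have h2 : (n 1 : ℝ) * |w l| ≤ R * B := mul_le_mul (hnR 1) (hw l) (abs_nonneg _) hR0'
    rw [hYdef]; linarith
  have hA10 : 10 * Y ^ 2 ≤ R₃ * |c| := by
    refine le_trans (le_of_eq ?_) hR3
    rw [hYdef]; ring
  have hLY : L ≤ Y := by rw [hYdef]; nlinarith
  have hA1 : L ^ 2 ≤ R₃ * |c| := by
    have : L ^ 2 ≤ Y ^ 2 := pow_le_pow_left₀ hL0.le hLY 2
    have : 0 ≤ Y ^ 2 := by positivity
    linarith
  let v : Fin 2 → Fin 2 → ℝ := ![![u i / B, u j / B], ![w i / B, w j / B]]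
  have hcmb : ∀ (n : Fin 2 → ℕ) (t : Fin 2), cmb v (fun k => (n k : ℝ)) t =
      (n 0 * u (![i, j] t) + n 1 * w (![i, j] t)) / B := by
    intro n t
    rw [show cmb v (fun k => (n k : ℝ)) t = ∑ k, (n k : ℝ) * v k t from rfl, Fin.sum_univ_two]
    fin_cases t
    · show (n 0 : ℝ) * (u i / B) + n 1 * (w i / B) = (n 0 * u i + n 1 * w i) / B
      ring
    · show (n 0 : ℝ) * (u j / B) + n 1 * (w j / B) = (n 0 * u j + n 1 * w j) / B
      ring
  have key := lat_n (d := 2) Q (fun ω => ![X ω i / B, X ω j / B]) v (μ / (B : ℝ) ^ 2) 1 (L / B)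
    ((2 * R + 4 * R₃) * e) R R₃
    (fun k n a b => St4 X M (fun l => (n 0 : ℝ) * u l + n 1 * w l) (dH u w m m' n + k * c) ρX σM a b)
    (fun ω => lb5 1 (X ω) (M ω)) (fun ω => lb5 L (X ω) (M ω)) (9 * (B : ℝ) ^ 2 / |c|)
    (6 * (R₃ * |c|) / L ^ 2 * 10000)
    (by
      intro k t
      fin_cases k <;> fin_cases t
      · show |u i / B| ≤ 1
        rw [abs_div, abs_of_pos hB0, div_le_one hB0]; exact hu i
      · show |u j / B| ≤ 1
        rw [abs_div, abs_of_pos hB0, div_le_one hB0]; exact hu j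
      · show |w i / B| ≤ 1
        rw [abs_div, abs_of_pos hB0, div_le_one hB0]; exact hw i
      · show |w j / B| ≤ 1
        rw [abs_div, abs_of_pos hB0, div_le_one hB0]; exact hw j)
    (by positivity)
    (by
      rw [Matrix.det_fin_two]
      show μ / (B : ℝ) ^ 2 ≤ |u i / B * (w j / B) - u j / B * (w i / B)|
      have : u i / B * (w j / B) - u j / B * (w i / B) = (u i * w j - u j * w i) / (B : ℝ) ^ 2 := by
        field_simp
      rw [this, abs_div, abs_of_pos (by positivity : (0 : ℝ) < (B : ℝ) ^ 2)]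
      exact div_le_div_of_nonneg_right hD (by positivity))
    le_rfl (by rw [le_div_iff₀ hB0]; linarith)
    (by
      push_cast
      have : ((Nat.factorial 2 : ℕ) : ℝ) = 2 := by norm_num [Nat.factorial]
      rw [this]
      have e1 : 2 * 2 * 2 * (L / B) = 8 * L * B / (B : ℝ) ^ 2 := by field_simp; ring
      have e2 : R * (μ / (B : ℝ) ^ 2) = R * μ / (B : ℝ) ^ 2 := by ring
      rw [e1, e2]
      exact div_le_div_of_nonneg_right hR (by positivity))
    hR0 hR30 (by rw [le_div_iff₀ hc0]; linarith)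
    (by
      have : 1 ≤ 6 * (R₃ * |c|) / L ^ 2 := by
        rw [le_div_iff₀ (by positivity)]
        have : 0 ≤ (R₃ : ℝ) * |c| := by positivity
        linarith
      linarith)
    (fun k n hk hn => sub4_word hBr hu hw hρ he hR0 hRR (t4.trans (by linarith)) h h' hcs
      (fun t => (hn t).le) hk.le)
    (fun k n a b _ _ hW t => by
      have h1 : ∀ l, |X b l / B - X a l / B - ((n 0 : ℝ) * u l + n 1 * w l) / B| ≤ 1 := by
        intro l
        have e1 : X b l / B - X a l / B - ((n 0 : ℝ) * u l + n 1 * w l) / B =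
            (X b l - X a l - ((n 0 : ℝ) * u l + n 1 * w l)) / B := by ring
        rw [e1, abs_div, abs_of_pos hB0, div_le_one hB0]
        exact ((hW.1 l).trans hρX1).trans hBr
      rw [hcmb n t]
      fin_cases t
      · exact h1 i
      · exact h1 j)
    (fun a n f S _ hn hS => fibH (U := fun l => (n 0 : ℝ) * u l + n 1 * w l) (d := dH u w m m' n)
      hc0 (by linarith) (hUY n hn) hY0.le hRρ hρX2 hρX0 S fun k hk => (hS k hk).2)
    (fun a b hab => by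
      have h1 : ∀ l, ⌊X a l⌋ = ⌊X b l⌋ := fun l => by
        simpa [lb5] using congrFun (congrArg Prod.snd hab) l
      have h2 : ∀ l, ⌊X a l / B⌋ = ⌊X b l / B⌋ := fun l => by
        rw [Int.floor_div_natCast, Int.floor_div_natCast, h1 l]
      funext t
      unfold celd
      rw [div_one, div_one]
      fin_cases t
      · exact h2 i
      · exact h2 j)
    (fun a q S _ hS => crsH (Y := Y) (A := R₃ * |c|) (i := i) (j := j) (q₁ := q 0) (q₂ := q 1) α β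
      (fun l => ⟨hα l, hβ l⟩) hL1 hLY hA10 hRρ hρX1 S fun g hg => by
        obtain ⟨k, n, b, hk, hn, hW, h5, h6⟩ := hS g hg
        refine ⟨_, dH u w m m' n, k * c, b, hUY n hn, ?_, ?_, ?_, hW, ?_, ?_, h6⟩
        · intro l
          have e1 := hul l
          have e2 := hwl l
          linear_combination (n 0 : ℝ) * e1 + (n 1 : ℝ) * e2
        · refine (dH_le hBr hu hw hm hm' hR0 fun t => (hn t).le).trans ?_
          rw [hYdef]
          have : 0 ≤ (B : ℝ) ^ 2 * (R : ℝ) ^ 2 := by positivity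
          nlinarith
        · rw [abs_mul, abs_of_nonneg (Nat.cast_nonneg _)]
          refine mul_le_mul_of_nonneg_right ?_ hc0.le
          exact_mod_cast hk.le
        · rw [← h5]
          exact (fl_div _ _ _ hB0.ne').symm
        · rw [← h5]
          exact (fl_div _ _ _ hB0.ne').symm)
  exact numLH hL0 hR3r hc0 hB0 (by exact_mod_cast key)

end Vale.Agent.P106.U.H572
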