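import Vale.Agent.P106.U.H572.LatH
import Vale.Agent.P106.U.H572.HeisN

/-!
# P106 / U / H572 : a whole DIAGONAL STEP of type (ii) inside one cell: `4 m` bits (helper572)

`satL_weak`, `satL` : `4 m log 2 - err ≤ H(lb5 1 | lb5 2^m, (D, Θ))`, the label of `(V, Z, φ, κ)` at scale `2^m → 1` and of
`N` at scale `2^(2m) → 1` (sheared); `Θ` = the time alone in case V.
-/

set_option autoImplicit false

namespace Vale.Agent.P106.U.H572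

open Finset Vale.Agent.P127 Vale.Agent.P127.Stk Vale.Agent.P127.U.Pin Vale.Agent.P127.U.Mic
open Vale.Agent.P127.U.CellD Vale.Agent.P127.TV
open Vale.Agent.P106.TV Vale.Agent.P106.U.H683

variable {Ω : Type} [Fintype Ω] {S U V Z : Type*}

/-- the minor of the displacements of `(V, Z)` -/
noncomputable def minH (s k : ℝ) (x y z : ℝ × ℝ) : ℝ :=
  FH s k x y 0 * FH s k x z 1 - FH s k x y 1 * FH s k x z 0

lemma minH_eq (s k : ℝ) (x y z : ℝ × ℝ) :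
    minH s k x y z = s ^ 2 * (x.1 - y.1) * (x.1 - z.1) * (z.1 - y.1) / 2 := by
  show (s * (x.1 - y.1)) * (s * (x.1 ^ 2 - z.1 ^ 2) / 2) -
    (s * (x.1 ^ 2 - y.1 ^ 2) / 2) * (s * (x.1 - z.1)) = _
  ring

/-- nondegenerate copies: commutator of size `τ`, minor of size `μ` -/
def GoodL (b : ℕ) (Sf Tf : U → V → V → ℝ) (μ τ : ℝ) (d : U) (θ : V) (θs : Fin 2 → V)
    (xs : Fin 4 → ℝ × ℝ) : Prop :=
  GoodH b Sf Tf τ d θ θs xs ∧ μ ≤ |minH (Sf d θ (θs 0)) (Tf d θ (θs 0)) (xs 0) (xs 1) (xs 2)|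

open Classical in
/-- the weight -/
noncomputable def chiL (b : ℕ) (Sf Tf : U → V → V → ℝ) (μ τ : ℝ) (d : U) (θ : V) (θs : Fin 2 → V)
    (xs : Fin 4 → ℝ × ℝ) : ℝ := if GoodL b Sf Tf μ τ d θ θs xs then 1 else 0

lemma chiL_nonneg (b : ℕ) (Sf Tf : U → V → V → ℝ) (μ τ : ℝ) (d : U) (θ : V) (θs : Fin 2 → V)
    (xs : Fin 4 → ℝ × ℝ) : 0 ≤ chiL b Sf Tf μ τ d θ θs xs := by
  unfold chiL; split_ifs <;> norm_num

lemma chiL_le (b : ℕ) (Sf Tf : U → V → V → ℝ) (μ τ : ℝ) (d : U) (θ : V) (θs : Fin 2 → V)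
    (xs : Fin 4 → ℝ × ℝ) : chiL b Sf Tf μ τ d θ θs xs ≤ 1 := by
  unfold chiL; split_ifs <;> norm_num

lemma mH_le {s k : ℝ} {x x' : ℝ × ℝ} {b : ℕ} (hs : |s| ≤ 1) (hk : |k| ≤ 1) (hx : OkX b x)
    (hx' : OkX b x') : |mH s k x x'| ≤ ((2 : ℝ) ^ (b + 2)) ^ 2 := by
  obtain ⟨a1, a2, a3⟩ := hx
  obtain ⟨b1, b2, _⟩ := hx'
  have hb1 : (1 : ℝ) ≤ 2 ^ b := one_le_pow₀ (by norm_num)
  have h1 : |x.1 - x'.1| ≤ 1 := by rw [abs_le]; constructor <;> linarith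
  have h4 : |s * x.2 - k| ≤ 2 * 2 ^ b := by
    refine (abs_sub _ _).trans ?_
    rw [abs_mul]
    have h5 : |s| * |x.2| ≤ 1 * 2 ^ b := mul_le_mul hs a3 (abs_nonneg _) (by norm_num)
    linarith
  unfold mH
  rw [abs_div, abs_mul, abs_mul, abs_pow, abs_of_pos (by norm_num : (0 : ℝ) < 2)]
  have h6 : |s| * |s * x.2 - k| ≤ 1 * (2 * 2 ^ b) := mul_le_mul hs h4 (abs_nonneg _) (by norm_num)
  have h7 : |x.1 - x'.1| ^ 2 ≤ 1 := pow_le_one₀ (abs_nonneg _) h1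
  have h8 : |s| * |s * x.2 - k| * |x.1 - x'.1| ^ 2 ≤ 1 * (2 * 2 ^ b) * 1 :=
    mul_le_mul h6 h7 (by positivity) (by positivity)
  have e4 : (2 : ℝ) ^ (b + 2) = 4 * 2 ^ b := by rw [pow_add]; ring
  rw [e4]
  nlinarith

/-- the hypothesis `hsat` of `mstepR` -/
theorem hsatL (P : Law Ω) {D : Ω → U} {Θ : Ω → V} {X : Ω → Fin 4 → ℝ} {M : Ω → ℝ}
    {Sf Tf : U → V → V → ℝ} {ρ : ℝ} (b : ℕ) (μ τ L : ℝ) (R R₃ : ℕ) (hμ : 0 < μ) (hτ : 0 < τ)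
    (hL : 2 ^ (b + 2) ≤ L) (hR : 8 * L * 2 ^ (b + 2) ≤ R * μ)
    (hR3 : 40 * ((2 : ℝ) ^ (b + 2)) ^ 2 * (R : ℝ) ^ 2 ≤ R₃ * τ) (hR1 : 1 ≤ R) (hR31 : 1 ≤ R₃)
    (hρ : 0 ≤ ρ) (hRρ : 140 * 2 ^ (b + 2) * R * R₃ * ρ ≤ 1)
    (d : U) (θ : V) (θs : Fin 2 → V) (xs : Fin 4 → ℝ × ℝ) (hχ : 0 < chiL b Sf Tf μ τ d θ θs xs)
    (Q : Law Ω) (ε : Fin 2 × Fin 4 × Fin 4 → ℝ)
    (_ : ∀ ω, 0 < Q.w ω → 0 < P.w ω ∧ D ω = d ∧ Θ ω = θ) (hε : ∀ p, 0 ≤ ε p)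
    (hA : ∀ p ∈ AH, SubC Q Q (RH X M Sf Tf ρ d θ (θs p.1) (xs p.2.1) (xs p.2.2)) (ε p)) :
    (4 * Real.log L - (26 + 4 * b)) -
        ((2 * R + 4 * R₃) * (1 + 2 * Real.log R + Real.log R₃)) * ∑ p ∈ AH, ε p ≤
      hc Q (fun ω => lb5 1 (X ω) (M ω)) (fun ω => lb5 L (X ω) (M ω)) := by
  have hG : GoodL b Sf Tf μ τ d θ θs xs := by
    by_contra hcon
    unfold chiL at hχ
    rw [if_neg hcon] at hχ
    exact lt_irrefl _ hχ
  obtain ⟨⟨h1, h2, i, i', j, j', h3⟩, h4⟩ := hG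
  have hsum0 : 0 ≤ ∑ p ∈ AH, ε p := Finset.sum_nonneg fun p _ => hε p
  have hle : ∀ p ∈ AH, ε p ≤ ∑ p ∈ AH, ε p := fun p hp =>
    Finset.single_le_sum (f := ε) (fun q _ => hε q) hp
  have hRr : (1 : ℝ) ≤ R := by exact_mod_cast hR1
  have hR3r : (1 : ℝ) ≤ R₃ := by exact_mod_cast hR31
  have hB1 : (1 : ℝ) ≤ 2 ^ (b + 2) := one_le_pow₀ (by norm_num)
  have hρ1 : ρ ≤ 1 := by
    have h4 : 1 ≤ 140 * (2 : ℝ) ^ (b + 2) * R * R₃ := by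
      have q1 : 1 ≤ 140 * (2 : ℝ) ^ (b + 2) := by linarith
      exact one_le_mul_of_one_le_of_one_le (one_le_mul_of_one_le_of_one_le q1 hRr) hR3r
    have h5 : ρ ≤ 140 * (2 : ℝ) ^ (b + 2) * R * R₃ * ρ := le_mul_of_one_le_left hρ h4
    linarith
  have hb : ∀ (i : Fin 2) (j : Fin 3) (l : Fin 4),
      |FH (Sf d θ (θs i)) (Tf d θ (θs i)) (xs 0) (xs j.succ) l| ≤ 2 ^ (b + 2) := fun i j l =>
    FH_le (h1 i).1 (h1 i).2 (h2 0) (h2 j.succ) l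
  have hch : ∀ (i : Fin 2) (j : Fin 3), SubC Q Q (St4 X M
      (FH (Sf d θ (θs i)) (Tf d θ (θs i)) (xs 0) (xs j.succ))
      (mH (Sf d θ (θs i)) (Tf d θ (θs i)) (xs 0) (xs j.succ)) ρ ρ) (∑ p ∈ AH, ε p) := fun i j =>
    (hA _ (AH_mem i j).1).mono (fun a b hab => hab) (hle _ (AH_mem i j).1)
  have hci : ∀ (i : Fin 2) (j : Fin 3), SubC Q Q (St4 X M
      (fun l => - FH (Sf d θ (θs i)) (Tf d θ (θs i)) (xs 0) (xs j.succ) l)
      (FH (Sf d θ (θs i)) (Tf d θ (θs i)) (xs 0) (xs j.succ) 0 *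
        FH (Sf d θ (θs i)) (Tf d θ (θs i)) (xs 0) (xs j.succ) 2 +
        FH (Sf d θ (θs i)) (Tf d θ (θs i)) (xs 0) (xs j.succ) 1 *
        FH (Sf d θ (θs i)) (Tf d θ (θs i)) (xs 0) (xs j.succ) 3 -
        mH (Sf d θ (θs i)) (Tf d θ (θs i)) (xs 0) (xs j.succ)) ρ ρ) (∑ p ∈ AH, ε p) := by
    intro i j
    refine (hA _ (AH_mem i j).2).mono ?_ (hle _ (AH_mem i j).2)
    intro a b hab
    rw [← FH_neg, ← mH_inv]
    exact hab
  have hcom := sub4_comm hB1 (hb i j) (hb i' j') hρ hρ1 (hch i j) (hch i' j') (hci i j) (hci i' j')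
  set c : ℝ := comH (FH (Sf d θ (θs i)) (Tf d θ (θs i)) (xs 0) (xs j.succ))
      (FH (Sf d θ (θs i')) (Tf d θ (θs i')) (xs 0) (xs j'.succ)) with hc
  have hc0 : 0 < |c| := hτ.trans_le h3
  have eB : ((2 ^ (b + 2) : ℕ) : ℝ) = 2 ^ (b + 2) := by push_cast; rfl
  have main := latH (B := 2 ^ (b + 2)) (R := R) (R₃ := R₃) (L := L) (μ := μ) (c := c) (ρ := ρ)
    (e := ∑ p ∈ AH, ε p) Q Nat.one_le_two_pow
    (by rw [eB]; exact hb 0 0) (by rw [eB]; exact hb 0 1)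
    (by rw [eB]; exact mH_le (h1 0).1 (h1 0).2 (h2 0) (h2 _))
    (by rw [eB]; exact mH_le (h1 0).1 (h1 0).2 (h2 0) (h2 _)) hμ h4 hc0
    (by rw [eB]; exact comH_le (by positivity) (hb i j) (hb i' j')) (by rw [eB]; exact hL)
    (by rw [eB]; exact hR)
    (by rw [eB]; exact hR3.trans (mul_le_mul_of_nonneg_left h3 (by positivity))) hρ
    (by rw [eB]; exact hRρ) hsum0 (hch 0 0) (hch 0 1) (by rw [eB]; exact hcom)
  rw [eB] at main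
  have e7 : 20 + 4 * Real.log ((2 : ℝ) ^ (b + 2)) ≤ 26 + 4 * b := by
    rw [Real.log_pow]
    push_cast
    have := Real.log_two_lt_d9
    have hb0 : (0 : ℝ) ≤ b := Nat.cast_nonneg _
    nlinarith
  refine le_trans ?_ main
  have e8 : (2 * (R : ℝ) + 4 * R₃) * (1 + 2 * Real.log R + Real.log R₃) * ∑ p ∈ AH, ε p =
      (2 * R + 4 * R₃) * (∑ p ∈ AH, ε p) * (1 + 2 * Real.log R + Real.log R₃) := by ring
  linarith

/-- the numbers -/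
structure NumL (b m g h R R₃ : ℕ) : Prop where
  R1 : 1 ≤ R
  R31 : 1 ≤ R₃
  r1 : 8 * (2 : ℝ) ^ m * 2 ^ (b + 2) ≤ R * q2 (5 * g + 1)
  r3 : 40 * ((2 : ℝ) ^ (b + 2)) ^ 2 * (R : ℝ) ^ 2 ≤ R₃ * q2 h
  rr : 140 * (2 : ℝ) ^ (b + 2) * R * R₃ ≤ 2 ^ (3 * m + 6 * b + 15 * g + h + 38)
  nn : 0 ≤ (2 * (R : ℝ) + 4 * R₃) * (1 + 2 * Real.log R + Real.log R₃)
  n : (2 * (R : ℝ) + 4 * R₃) * (1 + 2 * Real.log R + Real.log R₃) * 768 ≤
    2 ^ (6 * m + 10 * b + 30 * g + 2 * h + 70)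

theorem numL (b m g h : ℕ) : NumL b m g h (2 ^ (m + b + 5 * g + 6))
    (2 ^ (2 * m + 4 * b + 10 * g + h + 22)) := by
  have hl2 : Real.log 2 ≤ 1 := by
    have := Real.log_two_lt_d9
    linarith
  have hl20 : 0 < Real.log 2 := Real.log_pos (by norm_num)
  have eR : ((2 ^ (m + b + 5 * g + 6) : ℕ) : ℝ) = 2 ^ (m + b + 5 * g + 6) := by push_cast; rfl
  have eR3 : ((2 ^ (2 * m + 4 * b + 10 * g + h + 22) : ℕ) : ℝ) =
      2 ^ (2 * m + 4 * b + 10 * g + h + 22) := by push_cast; rfl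
  have lR : Real.log ((2 ^ (m + b + 5 * g + 6) : ℕ) : ℝ) =
      ((m + b + 5 * g + 6 : ℕ) : ℝ) * Real.log 2 := by rw [eR, Real.log_pow]
  have lR3 : Real.log ((2 ^ (2 * m + 4 * b + 10 * g + h + 22) : ℕ) : ℝ) =
      ((2 * m + 4 * b + 10 * g + h + 22 : ℕ) : ℝ) * Real.log 2 := by rw [eR3, Real.log_pow]
  refine ⟨Nat.one_le_two_pow, Nat.one_le_two_pow, ?_, ?_, ?_, ?_, ?_⟩
  · rw [eR]
    have e1 : (2 : ℝ) ^ (m + b + 5 * g + 6) * q2 (5 * g + 1) = 2 ^ (m + b + 5) := by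
      rw [show m + b + 5 * g + 6 = (m + b + 5) + (5 * g + 1) by ring, pow_add, mul_assoc,
        q2_mul_pow, mul_one]
    have e2 : 8 * (2 : ℝ) ^ m * 2 ^ (b + 2) = 2 ^ (m + b + 5) := by
      rw [show (8 : ℝ) = 2 ^ 3 by norm_num, ← pow_add, ← pow_add]
      congr 1; ring
    rw [e1, e2]
  · rw [eR, eR3]
    have e1 : (2 : ℝ) ^ (2 * m + 4 * b + 10 * g + h + 22) * q2 h =
        2 ^ (2 * m + 4 * b + 10 * g + 22) := by
      rw [show 2 * m + 4 * b + 10 * g + h + 22 = (2 * m + 4 * b + 10 * g + 22) + h by ring,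
        pow_add, mul_assoc, q2_mul_pow, mul_one]
    rw [e1, ← pow_mul, ← pow_mul]
    calc 40 * (2 : ℝ) ^ ((b + 2) * 2) * 2 ^ ((m + b + 5 * g + 6) * 2) ≤
          2 ^ 6 * 2 ^ ((b + 2) * 2) * 2 ^ ((m + b + 5 * g + 6) * 2) := by
          refine mul_le_mul_of_nonneg_right (mul_le_mul_of_nonneg_right (by norm_num)
            (by positivity)) (by positivity)
      _ = 2 ^ (2 * m + 4 * b + 10 * g + 22) := by
          rw [← pow_add, ← pow_add]; congr 1; ring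
  · rw [eR, eR3]
    calc 140 * (2 : ℝ) ^ (b + 2) * 2 ^ (m + b + 5 * g + 6) * 2 ^ (2 * m + 4 * b + 10 * g + h + 22) ≤
          2 ^ 8 * 2 ^ (b + 2) * 2 ^ (m + b + 5 * g + 6) * 2 ^ (2 * m + 4 * b + 10 * g + h + 22) := by
          refine mul_le_mul_of_nonneg_right (mul_le_mul_of_nonneg_right
            (mul_le_mul_of_nonneg_right (by norm_num) (by positivity)) (by positivity))
            (by positivity)
      _ = 2 ^ (3 * m + 6 * b + 15 * g + h + 38) := by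
          rw [← pow_add, ← pow_add, ← pow_add]; congr 1; ring
  · rw [lR, lR3]; positivity
  · rw [lR, lR3, eR, eR3]
    have h5 : 2 * (2 : ℝ) ^ (m + b + 5 * g + 6) + 4 * 2 ^ (2 * m + 4 * b + 10 * g + h + 22) ≤
        2 ^ (2 * m + 4 * b + 10 * g + h + 25) := by
      have h6 : (2 : ℝ) ^ (m + b + 5 * g + 6) ≤ 2 ^ (2 * m + 4 * b + 10 * g + h + 22) :=
        pow_le_pow_right₀ (by norm_num) (by omega)
      rw [show 2 * m + 4 * b + 10 * g + h + 25 = (2 * m + 4 * b + 10 * g + h + 22) + 3 by ring,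
        pow_add (2 : ℝ) (2 * m + 4 * b + 10 * g + h + 22) 3]
      have : (0 : ℝ) < 2 ^ (2 * m + 4 * b + 10 * g + h + 22) := by positivity
      linarith
    have h1 : 1 + 2 * (((m + b + 5 * g + 6 : ℕ) : ℝ) * Real.log 2) +
        ((2 * m + 4 * b + 10 * g + h + 22 : ℕ) : ℝ) * Real.log 2 ≤
        2 ^ (4 * m + 6 * b + 20 * g + h + 34) := by
      have h2 : (((4 * m + 6 * b + 20 * g + h + 34 : ℕ) : ℝ)) + 1 ≤
          2 ^ (4 * m + 6 * b + 20 * g + h + 34) := by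
        exact_mod_cast Nat.lt_two_pow_self (n := 4 * m + 6 * b + 20 * g + h + 34)
      have h3 : ∀ x : ℕ, (x : ℝ) * Real.log 2 ≤ x := fun x =>
        mul_le_of_le_one_right (Nat.cast_nonneg _) hl2
      have h4 := h3 (m + b + 5 * g + 6)
      have h4' := h3 (2 * m + 4 * b + 10 * g + h + 22)
      push_cast at h2 h4 h4' ⊢
      linarith
    calc _ ≤ (2 : ℝ) ^ (2 * m + 4 * b + 10 * g + h + 25) * 2 ^ (4 * m + 6 * b + 20 * g + h + 34) *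
          2 ^ 10 := by
          refine mul_le_mul (mul_le_mul h5 h1 (by positivity) (by positivity)) (by norm_num)
            (by norm_num) (by positivity)
      _ = 2 ^ (6 * m + 10 * b + 30 * g + 2 * h + 69) := by
          rw [← pow_add, ← pow_add]; congr 1; ring
      _ ≤ _ := pow_le_pow_right₀ (by norm_num) (by omega)

section steps

variable (P : Law Ω) {D : Ω → U} {Θ : Ω → V} {W : Ω → S} {E : Ω → Z} {e : U → S → ℝ × ℝ}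
  {X : Ω → Fin 4 → ℝ} {M : Ω → ℝ} {Sf Tf : U → V → V → ℝ} {ρ : ℝ}

/-- **A DIAGONAL STEP OF TYPE (ii)**, weak form: `4 m` bits -/
theorem satL_weak (geo : GeoR P D Θ W E e (RH X M Sf Tf ρ)) (b m g h : ℕ) (hbm : b + 2 ≤ m)
    (hρ0 : 0 ≤ ρ) (hρ : 2 ^ (3 * m + 6 * b + 15 * g + h + 38) * ρ ≤ 1) {ι₁ ι₂ δ pb : ℝ}
    (hδ : 0 < δ)
    (hb : P.ex (fun ω => Law.ind (¬ δ ≤ avG P D Θ W e (chiL b Sf Tf (q2 (5 * g + 1)) (q2 h)) ω)) ≤
      pb)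
    (h1 : mi P (fun ω => e (D ω) (W ω)) E (fun ω => (D ω, Θ ω)) ≤ ι₁) (h2 : mi P Θ W D ≤ ι₂) :
    4 * m * Real.log 2 - (26 + 4 * b + 4 * m * pb +
      2 ^ (6 * m + 10 * b + 30 * g + 2 * h + 70) / δ * (Real.sqrt ι₁ + Real.sqrt ι₂)) ≤
    hc P (fun ω => lb5 1 (X ω) (M ω)) (fun ω => (lb5 (2 ^ m) (X ω) (M ω), (D ω, Θ ω))) := by
  classical
  obtain ⟨R, R₃, hN⟩ : ∃ R R₃, NumL b m g h R R₃ := ⟨_, _, numL b m g h⟩
  have hlR : 0 ≤ Real.log R := Real.log_nonneg (by exact_mod_cast hN.R1)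
  have hlR3 : 0 ≤ Real.log R₃ := Real.log_nonneg (by exact_mod_cast hN.R31)
  obtain ⟨er, her0, her, hpt⟩ := mstepR_pt P D Θ W E e (RH X M Sf Tf ρ) geo AH AH_ne
    (chiL b Sf Tf (q2 (5 * g + 1)) (q2 h))
    (chiL_nonneg b Sf Tf _ _) (chiL_le b Sf Tf _ _) (fun _ _ ω => lb5 1 (X ω) (M ω))
    (fun _ _ ω => lb5 (2 ^ m) (X ω) (M ω)) (4 * Real.log (2 ^ m) - (26 + 4 * b))
    ((2 * R + 4 * R₃) * (1 + 2 * Real.log R + Real.log R₃)) hN.nn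
    (fun d θ θs xs hχ Q ε hQ hε hA => hsatL P b (q2 (5 * g + 1)) (q2 h) (2 ^ m) R R₃ (q2_pos _)
      (q2_pos _) (pow_le_pow_right₀ (by norm_num) hbm) hN.r1 hN.r3 hN.R1 hN.R31 hρ0
      ((mul_le_mul_of_nonneg_right hN.rr hρ0).trans hρ) d θ θs xs hχ Q ε hQ hε hA)
  rw [AH_card, Nat.cast_ofNat] at her
  rw [hc_cond_ex P _ _ (fun ω => (D ω, Θ ω))]
  rw [Real.log_pow] at hpt
  have e1 : 4 * ((m : ℝ) * Real.log 2) = 4 * m * Real.log 2 := by ring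
  rw [e1] at hpt
  have hl2 : Real.log 2 ≤ 1 := by
    have := Real.log_two_lt_d9
    linarith
  have hF1 : 4 * (m : ℝ) * Real.log 2 ≤ 4 * m := mul_le_of_le_one_right (by positivity) hl2
  have hpoint : ∀ ω, 0 < P.w ω → 4 * (m : ℝ) * Real.log 2 - (26 + 4 * b) -
      4 * m * Law.ind (¬ δ ≤ avG P D Θ W e (chiL b Sf Tf (q2 (5 * g + 1)) (q2 h)) ω) -
      (2 * R + 4 * R₃) * (1 + 2 * Real.log R + Real.log R₃) / δ * er ω ≤
      hc (P.cond (fun ω => (D ω, Θ ω)) (D ω, Θ ω)) (fun ω => lb5 1 (X ω) (M ω))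
        (fun ω => lb5 (2 ^ m) (X ω) (M ω)) := fun ω hω =>
    wptH hδ hN.nn (her0 ω) (by positivity) (hc_nonneg _ _ _) hF1
      ⟨fun h => Law.ind_not (not_not.2 h), fun h => Law.ind_of h⟩ (hpt ω hω)
  refine le_trans ?_ (P.ex_mono hpoint)
  rw [P.ex_sub, P.ex_sub, P.ex_const_mul, P.ex_const_mul, P.ex_const]
  have h8 : (2 * (R : ℝ) + 4 * R₃) * (1 + 2 * Real.log R + Real.log R₃) / δ * P.ex er ≤
      2 ^ (6 * m + 10 * b + 30 * g + 2 * h + 70) / δ * (Real.sqrt ι₁ + Real.sqrt ι₂) := by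
    have e3 := (mul_le_mul_of_nonneg_left her hN.nn).trans (errH hN.nn hN.n h1 h2)
    rw [div_mul_eq_mul_div, div_mul_eq_mul_div]
    exact div_le_div_of_nonneg_right e3 hδ.le
  have h9 := mul_le_mul_of_nonneg_left hb (by positivity : 0 ≤ 4 * (m : ℝ))
  linarith

/-- **A DIAGONAL STEP OF TYPE (ii)**, strong form: `4 m` bits -/
theorem satL (geo : GeoR P D Θ W E e (RH X M Sf Tf ρ)) (b m g h : ℕ) (hbm : b + 2 ≤ m)
    (hρ0 : 0 ≤ ρ) (hρ : 2 ^ (3 * m + 6 * b + 15 * g + h + 38) * ρ ≤ 1) {ι₁ ι₂ x : ℝ}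
    (hx : 0 ≤ x) (hX : 1 - x ≤ P.ex (avG P D Θ W e (chiL b Sf Tf (q2 (5 * g + 1)) (q2 h))))
    (h1 : mi P (fun ω => e (D ω) (W ω)) E (fun ω => (D ω, Θ ω)) ≤ ι₁) (h2 : mi P Θ W D ≤ ι₂) :
    4 * m * Real.log 2 - (26 + 4 * b + 4 * m * x +
      2 ^ (6 * m + 10 * b + 30 * g + 2 * h + 70) * (Real.sqrt ι₁ + Real.sqrt ι₂)) ≤
    hc P (fun ω => lb5 1 (X ω) (M ω)) (fun ω => (lb5 (2 ^ m) (X ω) (M ω), (D ω, Θ ω))) := by
  classical
  obtain ⟨R, R₃, hN⟩ : ∃ R R₃, NumL b m g h R R₃ := ⟨_, _, numL b m g h⟩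
  have hlR : 0 ≤ Real.log R := Real.log_nonneg (by exact_mod_cast hN.R1)
  have hlR3 : 0 ≤ Real.log R₃ := Real.log_nonneg (by exact_mod_cast hN.R31)
  have main := mstepR P D Θ W E e (RH X M Sf Tf ρ) geo AH AH_ne
    (chiL b Sf Tf (q2 (5 * g + 1)) (q2 h))
    (chiL_nonneg b Sf Tf _ _) (chiL_le b Sf Tf _ _) (fun _ _ ω => lb5 1 (X ω) (M ω))
    (fun _ _ ω => lb5 (2 ^ m) (X ω) (M ω)) (4 * Real.log (2 ^ m) - (26 + 4 * b))
    ((2 * R + 4 * R₃) * (1 + 2 * Real.log R + Real.log R₃)) hN.nn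
    (fun d θ θs xs hχ Q ε hQ hε hA => hsatL P b (q2 (5 * g + 1)) (q2 h) (2 ^ m) R R₃ (q2_pos _)
      (q2_pos _) (pow_le_pow_right₀ (by norm_num) hbm) hN.r1 hN.r3 hN.R1 hN.R31 hρ0
      ((mul_le_mul_of_nonneg_right hN.rr hρ0).trans hρ) d θ θs xs hχ Q ε hQ hε hA)
  rw [AH_card, Nat.cast_ofNat, Real.log_pow] at main
  have e1 : 4 * ((m : ℝ) * Real.log 2) = 4 * m * Real.log 2 := by ring
  rw [e1] at main
  have hl2 : Real.log 2 ≤ 1 := by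
    have := Real.log_two_lt_d9
    linarith
  have hF1 : 4 * (m : ℝ) * Real.log 2 ≤ 4 * m := mul_le_of_le_one_right (by positivity) hl2
  have herr := errH hN.nn hN.n h1 h2
  have hH0 := hc_nonneg P (fun ω => lb5 1 (X ω) (M ω))
    (fun ω => (lb5 (2 ^ m) (X ω) (M ω), (D ω, Θ ω)))
  have hB : (0 : ℝ) ≤ 2 ^ (6 * m + 10 * b + 30 * g + 2 * h + 70) *
      (Real.sqrt ι₁ + Real.sqrt ι₂) :=
    mul_nonneg (by positivity) (add_nonneg (Real.sqrt_nonneg _) (Real.sqrt_nonneg _))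
  have hmx : 0 ≤ 4 * (m : ℝ) * x := by positivity
  have hb0 : (0 : ℝ) ≤ b := Nat.cast_nonneg _
  rcases le_or_gt (4 * (m : ℝ) * Real.log 2 - (26 + 4 * b)) 0 with hneg | hpos
  · linarith
  · have h6 : (1 - x) * (4 * (m : ℝ) * Real.log 2 - (26 + 4 * b)) ≤
        P.ex (avG P D Θ W e (chiL b Sf Tf (q2 (5 * g + 1)) (q2 h))) *
          (4 * (m : ℝ) * Real.log 2 - (26 + 4 * b)) :=
      mul_le_mul_of_nonneg_right hX hpos.le
    have h7 : x * (4 * (m : ℝ) * Real.log 2 - (26 + 4 * b)) ≤ 4 * m * x := by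
      have := mul_le_mul_of_nonneg_left
        (by linarith : 4 * (m : ℝ) * Real.log 2 - (26 + 4 * b) ≤ 4 * m) hx
      linarith
    linarith

end steps

end Vale.Agent.P106.U.H572
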