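import Vale.Agent.P106.U.H416.HeisW
import Vale.Agent.P106.H25.SatGW

/-!
# P106 / U / H572 : A DIAGONAL STEP OF TYPE (ii) with digits (helper572)

`satG_pair`, `satG_unk` : 25's `satG_weak` (`4 p` bits) with the weight computed from the digits `t` (time), `y` (direction),
`k` (curvature) as in 416's `satH_pair`, `satH_unk`.
-/

set_option autoImplicit false

namespace Vale.Agent.P106.U.H572.SatGU

open Finset Vale.Agent.P127 Vale.Agent.P127.Stk Vale.Agent.P127.U.Pin Vale.Agent.P127.U.Mic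
open Vale.Agent.P127.U.CellD Vale.Agent.P127.TV
open Vale.Agent.P106.TV Vale.Agent.P106.U.H683 Vale.Agent.P106.H25
open Vale.Agent.P106.U Vale.Agent.P106.U.H572 Vale.Agent.P106.U.H416.HeisW

variable {Ω : Type} [Fintype Ω] {S U V Z : Type*}

variable (P : Law Ω) {D : Ω → U} {Θ : Ω → V} {W : Ω → S} {E : Ω → Z} {e : U → S → ℝ × ℝ}
  {X : Ω → Fin 4 → ℝ} {M : Ω → ℝ} {Sf Tf : U → V → V → ℝ} {ρ : ℝ}

/-- **A DIAGONAL STEP OF TYPE (ii)** from the digits -/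
theorem satG_pair (geo : GeoR P D Θ W E e (RH X M Sf Tf ρ)) {b m g r p : ℕ} (hp : p ≤ m)
    (t y k : Ω → ℤ)
    (hS1 : ∀ ω ω', 0 < P.w ω → 0 < P.w ω' → D ω' = D ω → |Sf (D ω) (Θ ω) (Θ ω')| ≤ 1)
    (hT1 : ∀ ω ω', 0 < P.w ω → 0 < P.w ω' → D ω' = D ω → |Tf (D ω) (Θ ω) (Θ ω')| ≤ 1)
    (he1 : ∀ ω ω', 0 < P.w ω → 0 < P.w ω' → D ω' = D ω → OkX b (e (D ω) (W ω')))
    (hS : ∀ ω ω', 0 < P.w ω → 0 < P.w ω' → D ω' = D ω → ¬ |t ω - t ω'| ≤ ((1 : ℕ) : ℤ) →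
      q2 g ≤ |Sf (D ω) (Θ ω) (Θ ω')|)
    (hy : ∀ ω a b, 0 < P.w ω → 0 < P.w a → 0 < P.w b → D a = D ω → D b = D ω →
      ¬ |y a - y b| ≤ ((1 : ℕ) : ℤ) → q2 g ≤ |(e (D ω) (W a)).1 - (e (D ω) (W b)).1|)
    (hk : ∀ ω a b, 0 < P.w ω → 0 < P.w a → 0 < P.w b → D a = D ω → D b = D ω →
      ¬ |k a - k b| ≤ ((1 : ℕ) : ℤ) → q2 r ≤ |(e (D ω) (W a)).2 - (e (D ω) (W b)).2|)
    (hρ0 : 0 ≤ ρ) (hρ : 2 ^ (3 * m + 28 * g + 4 * r + 6 * b + 63) * ρ ≤ 1) {c pA ι₁ ι₂ : ℝ}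
    (hc0 : 0 < c)
    (hA : P.ex (fun ω => Law.ind (¬ (P.cond D (D ω)).ex (fun a => (P.cond D (D ω)).ex fun b =>
      Law.ind (|k a - k b| ≤ ((2 : ℕ) : ℤ))) ≤ 1 - c)) ≤ pA)
    (h1 : mi P (fun ω => e (D ω) (W ω)) E (fun ω => (D ω, Θ ω)) ≤ ι₁) (h2 : mi P Θ W D ≤ ι₂) :
    4 * p * Real.log 2 - (23 + 3 * b + 4 * m * (pA + 6 * colp P t D + 300 * colp P y D) +
      10 * 2 ^ (4 * m + 42 * g + 6 * r + 8 * b + 97) / c * (Real.sqrt ι₁ + Real.sqrt ι₂)) ≤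
    hc P (fun ω => lbH 1 (X ω) (M ω)) (fun ω => (lbH (2 ^ p) (X ω) (M ω), (D ω, Θ ω))) := by
  have hw := weightH P t y k hS1 hT1 he1 hS hy hk hc0 hA
  have main := satG_weak P geo b m (7 * g + r + 7) p hp hρ0
    (by rw [show 3 * m + 4 * (7 * g + r + 7) + 6 * b + 35 =
      3 * m + 28 * g + 4 * r + 6 * b + 63 by ring]; exact hρ)
    (by linarith : (0 : ℝ) < c / 10) hw h1 h2
  have e1 : (2 : ℝ) ^ (4 * m + 6 * (7 * g + r + 7) + 8 * b + 55) / (c / 10) =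
      10 * 2 ^ (4 * m + 42 * g + 6 * r + 8 * b + 97) / c := by
    rw [show 4 * m + 6 * (7 * g + r + 7) + 8 * b + 55 = 4 * m + 42 * g + 6 * r + 8 * b + 97 by ring]
    field_simp
  rw [e1] at main
  exact main

/-- **A DIAGONAL STEP OF TYPE (ii)** from the digits and 457's `unk` given `D` -/
theorem satG_unk {κ : Type*} (geo : GeoR P D Θ W E e (RH X M Sf Tf ρ)) {b m g r p : ℕ}
    (hp : p ≤ m) (t y k : Ω → ℤ)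
    (hS1 : ∀ ω ω', 0 < P.w ω → 0 < P.w ω' → D ω' = D ω → |Sf (D ω) (Θ ω) (Θ ω')| ≤ 1)
    (hT1 : ∀ ω ω', 0 < P.w ω → 0 < P.w ω' → D ω' = D ω → |Tf (D ω) (Θ ω) (Θ ω')| ≤ 1)
    (he1 : ∀ ω ω', 0 < P.w ω → 0 < P.w ω' → D ω' = D ω → OkX b (e (D ω) (W ω')))
    (hS : ∀ ω ω', 0 < P.w ω → 0 < P.w ω' → D ω' = D ω → ¬ |t ω - t ω'| ≤ ((1 : ℕ) : ℤ) →
      q2 g ≤ |Sf (D ω) (Θ ω) (Θ ω')|)
    (hy : ∀ ω a b, 0 < P.w ω → 0 < P.w a → 0 < P.w b → D a = D ω → D b = D ω →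
      ¬ |y a - y b| ≤ ((1 : ℕ) : ℤ) → q2 g ≤ |(e (D ω) (W a)).1 - (e (D ω) (W b)).1|)
    (hk : ∀ ω a b, 0 < P.w ω → 0 < P.w a → 0 < P.w b → D a = D ω → D b = D ω →
      ¬ |k a - k b| ≤ ((1 : ℕ) : ℤ) → q2 r ≤ |(e (D ω) (W a)).2 - (e (D ω) (W b)).2|)
    (hρ0 : 0 ≤ ρ) (hρ : 2 ^ (3 * m + 28 * g + 4 * r + 6 * b + 63) * ρ ≤ 1) {c pA ι₁ ι₂ : ℝ}
    (hc0 : 0 < c) (B : κ → Ω → Prop) (x : Ω → κ)
    (hB : ∀ a b, 0 < P.w a → 0 < P.w b → |k a - k b| ≤ ((2 : ℕ) : ℤ) → B (x a) b)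
    (hu : P.ex (fun ω => Law.ind (∃ x, (1 - c) * P.pr D (D ω) <
      prE P (fun ω' => D ω' = D ω ∧ B x ω'))) ≤ pA)
    (h1 : mi P (fun ω => e (D ω) (W ω)) E (fun ω => (D ω, Θ ω)) ≤ ι₁) (h2 : mi P Θ W D ≤ ι₂) :
    4 * p * Real.log 2 - (23 + 3 * b + 4 * m * (pA + 6 * colp P t D + 300 * colp P y D) +
      10 * 2 ^ (4 * m + 42 * g + 6 * r + 8 * b + 97) / c * (Real.sqrt ι₁ + Real.sqrt ι₂)) ≤
    hc P (fun ω => lbH 1 (X ω) (M ω)) (fun ω => (lbH (2 ^ p) (X ω) (M ω), (D ω, Θ ω))) :=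
  satG_pair P geo hp t y k hS1 hT1 he1 hS hy hk hρ0 hρ hc0 (hA_of P k B x hB hu) h1 h2

end Vale.Agent.P106.U.H572.SatGU
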